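import Crest.Agent.R112.Basic

/-! # Row 112: calculus of disc averages (task A) -/

open MeasureTheory Set Filter Topology Metric
open scoped ENNReal NNReal RealInnerProductSpace

namespace Crest.Agent.R112

theorem avgA_cov (F : ℂ → ℝ) (x : ℂ) {r : ℝ} (hr : 0 < r) :
    ∫ ξ in ball (0 : ℂ) 1, F (x + r • ξ) = (∫ y in ball x r, F y) / r ^ 2 := by
  rw [← integral_indicator measurableSet_ball, ← integral_indicator measurableSet_ball]
  have e : (ball (0 : ℂ) 1).indicator (fun ξ => F (x + r • ξ)) =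
      fun ξ => (fun y => (ball x r).indicator F (x + y)) (r • ξ) := by
    funext ξ
    have : x + r • ξ ∈ ball x r ↔ ξ ∈ ball (0 : ℂ) 1 := by
      rw [mem_ball_iff_norm, mem_ball_zero_iff, add_sub_cancel_left, norm_smul,
        Real.norm_of_nonneg hr.le, mul_lt_iff_lt_one_right hr]
    beta_reduce
    by_cases h : ξ ∈ ball (0 : ℂ) 1
    · rw [indicator_of_mem h, indicator_of_mem (this.2 h)]
    · rw [indicator_of_notMem h, indicator_of_notMem (mt this.1 h)]
  rw [e, Measure.integral_comp_smul volume (fun y => (ball x r).indicator F (x + y)), integral_add_left_eq_self, Complex.finrank_real_complex,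
    abs_of_pos (by positivity), smul_eq_mul, div_eq_inv_mul]

theorem avgA_ball_closedBall (F : ℂ → ℝ) (R : ℝ) :
    ∫ ξ in ball (0 : ℂ) R, F ξ = ∫ ξ in closedBall (0 : ℂ) R, F ξ :=
  setIntegral_congr_set (ae_eq_of_subset_of_measure_ge ball_subset_closedBall
    (Measure.addHaar_closedBall_eq_addHaar_ball _ _ _).le measurableSet_ball.nullMeasurableSet
    measure_closedBall_lt_top.ne)

theorem avgA_integrableOn {F : ℂ → ℝ} (hF : Continuous F) (R : ℝ) :
    IntegrableOn F (ball (0 : ℂ) R) :=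
  (hF.continuousOn.integrableOn_compact (isCompact_closedBall 0 R)).mono_set ball_subset_closedBall

theorem avgA_isGrad_continuous {f : ℂ → ℝ} {g : ℂ → ℂ} (hf : IsGrad f g) : Continuous f :=
  continuous_iff_continuousAt.2 fun y => (hf y).continuousAt

/-- differentiation under the integral sign along a flow -/
theorem avgA_hasDerivAt {f : ℂ → ℝ} {g : ℂ → ℂ} (hf : IsGrad f g) (hg : Continuous g)
    {γ γ' : ℝ → ℂ → ℂ} (hγ : Continuous fun p : ℝ × ℂ => γ p.1 p.2)
    (hγ' : Continuous fun p : ℝ × ℂ => γ' p.1 p.2)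
    (hd : ∀ t ξ, HasDerivAt (fun t => γ t ξ) (γ' t ξ) t) {ψ : ℂ → ℝ} (hψm : Measurable ψ) {C : ℝ}
    (hψb : ∀ ξ, |ψ ξ| ≤ C) (R t₀ : ℝ) :
    HasDerivAt (fun t => ∫ ξ in ball (0 : ℂ) R, ψ ξ * f (γ t ξ))
      (∫ ξ in ball (0 : ℂ) R, ψ ξ * ⟪γ' t₀ ξ, g (γ t₀ ξ)⟫) t₀ := by
  have hc : Continuous fun p : ℝ × ℂ => ⟪γ' p.1 p.2, g (γ p.1 p.2)⟫ := hγ'.inner (hg.comp hγ)
  obtain ⟨B, hB⟩ := ((isCompact_closedBall t₀ 1).prod
    (isCompact_closedBall (0 : ℂ) R)).exists_bound_of_continuousOn hc.continuousOn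
  have h1 : ∀ t, Continuous fun ξ => f (γ t ξ) := fun t =>
    (avgA_isGrad_continuous hf).comp (hγ.comp (Continuous.prodMk_right t))
  have h2 : ∀ t, Continuous fun ξ => ⟪γ' t ξ, g (γ t ξ)⟫ := fun t =>
    hc.comp (Continuous.prodMk_right t)
  refine (hasDerivAt_integral_of_dominated_loc_of_deriv_le (μ := volume.restrict (ball 0 R))
    (F := fun t ξ => ψ ξ * f (γ t ξ)) (F' := fun t ξ => ψ ξ * ⟪γ' t ξ, g (γ t ξ)⟫)
    (bound := fun _ => C * B) (closedBall_mem_nhds t₀ one_pos)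
    (Eventually.of_forall fun t => (hψm.mul (h1 t).measurable).aestronglyMeasurable) ?_
    (hψm.mul (h2 t₀).measurable).aestronglyMeasurable ?_ ?_ ?_).2
  · exact (avgA_integrableOn (h1 t₀) R).bdd_mul hψm.aestronglyMeasurable
      (Eventually.of_forall hψb)
  · filter_upwards [ae_restrict_mem measurableSet_ball] with ξ hξ t ht
    rw [norm_mul]
    exact mul_le_mul (hψb ξ) (hB (t, ξ) ⟨ht, ball_subset_closedBall hξ⟩) (norm_nonneg _)
      ((abs_nonneg _).trans (hψb ξ))
  · exact avgA_integrableOn continuous_const R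
  · refine Eventually.of_forall fun ξ t _ => HasDerivAt.const_mul _ ?_
    have := (hf (γ t ξ)).comp_hasDerivAt t (hd t ξ)
    rw [innerSL_apply_apply, real_inner_comm] at this
    exact this

/-- ball form of the average (change of variables, no integrability needed) -/
theorem avg_eq_ball (f : ℂ → ℝ) (x : ℂ) {r : ℝ} (hr : 0 < r) :
    avg f x r = (∫ y in ball x r, f y) / (Real.pi * r ^ 2) := by
  rw [avg, avgA_cov f x hr, div_div, mul_comm]

/-- ball form of the directional derivative -/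
theorem davg_eq_ball (g : ℂ → ℂ) (x : ℂ) {r : ℝ} (hr : 0 < r) (w : ℂ) (lam : ℝ) :
    davg g x r w lam = (∫ y in ball x r, ⟪w + (lam / r) • (y - x), g y⟫) / (Real.pi * r ^ 2) := by
  rw [mul_comm, ← div_div, ← avgA_cov (fun y => ⟪w + (lam / r) • (y - x), g y⟫) x hr, davg]
  simp only [add_sub_cancel_left, smul_smul, div_mul_cancel₀ _ hr.ne']

theorem hasDerivAt_avg {f : ℂ → ℝ} {g : ℂ → ℂ} (hf : IsGrad f g) (hg : Continuous g)
    (x w : ℂ) (r lam t₀ : ℝ) :
    HasDerivAt (fun t : ℝ => avg f (x + t • w) (r + t * lam))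
      (davg g (x + t₀ • w) (r + t₀ * lam) w lam) t₀ := by
  have h := avgA_hasDerivAt hf hg (γ := fun t ξ => x + t • w + (r + t * lam) • ξ)
    (γ' := fun _ ξ => w + lam • ξ) (by fun_prop) (by fun_prop) (fun t ξ => by
      have h1 := (((hasDerivAt_id t).smul_const w).const_add x).fun_add
        ((((hasDerivAt_id t).mul_const lam).const_add r).smul_const ξ)
      simpa using h1) (ψ := fun _ => 1) measurable_const (C := 1) (fun _ => by simp) 1 t₀
  simp only [one_mul] at h
  exact h.div_const Real.pi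

theorem continuous_davg {g : ℂ → ℂ} (hg : Continuous g) (w : ℂ) (lam : ℝ) :
    Continuous fun p : ℂ × ℝ => davg g p.1 p.2 w lam := by
  simp only [davg, avgA_ball_closedBall]
  refine Continuous.div_const ?_ _
  exact continuous_parametric_integral_of_continuous
    (f := fun (p : ℂ × ℝ) (ξ : ℂ) => ⟪w + lam • ξ, g (p.1 + p.2 • ξ)⟫)
    (by unfold Function.uncurry; fun_prop) (isCompact_closedBall 0 1)

theorem continuous_avg {f : ℂ → ℝ} (hf : Continuous f) :
    Continuous fun p : ℂ × ℝ => avg f p.1 p.2 := by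
  simp only [avg, avgA_ball_closedBall]
  refine Continuous.div_const ?_ _
  exact continuous_parametric_integral_of_continuous
    (f := fun (p : ℂ × ℝ) (ξ : ℂ) => f (p.1 + p.2 • ξ))
    (by unfold Function.uncurry; fun_prop) (isCompact_closedBall 0 1)

theorem avg_lip {f : ℂ → ℝ} {M : ℝ≥0} (hf : LipschitzWith M f) (x x' : ℂ) (r r' : ℝ) :
    |avg f x r - avg f x' r'| ≤ M * (‖x - x'‖ + |r - r'|) := by
  have hc := hf.continuous
  rw [avg, avg, ← sub_div, ← integral_sub (avgA_integrableOn (by fun_prop) 1)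
    (avgA_integrableOn (by fun_prop) 1), abs_div, abs_of_pos Real.pi_pos, div_le_iff₀ Real.pi_pos]
  have hv : (volume : Measure ℂ).real (ball 0 1) = Real.pi := by
    simp [Measure.real, Complex.volume_ball]
  rw [← hv, ← Real.norm_eq_abs]
  refine norm_setIntegral_le_of_norm_le_const measure_ball_lt_top fun ξ hξ => ?_
  refine (hf.norm_sub_le _ _).trans (mul_le_mul_of_nonneg_left ?_ M.2)
  have e : x + r • ξ - (x' + r' • ξ) = (x - x') + (r - r') • ξ := by
    rw [sub_smul]; abel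
  rw [e]
  refine (norm_add_le _ _).trans (add_le_add le_rfl ?_)
  rw [norm_smul, Real.norm_eq_abs]
  exact mul_le_of_le_one_right (abs_nonneg _) (mem_ball_zero_iff.1 hξ).le

/-- a bounded gradient gives a Lipschitz function -/
theorem IsGrad.lipschitz {f : ℂ → ℝ} {g : ℂ → ℂ} (hf : IsGrad f g) {M : ℝ≥0}
    (hM : ∀ y, ‖g y‖ ≤ M) : LipschitzWith M f := by
  refine lipschitzWith_of_nnnorm_fderiv_le (𝕜 := ℝ) (fun y => (hf y).differentiableAt) fun y => ?_
  rw [(hf y).fderiv, ← NNReal.coe_le_coe, coe_nnnorm, innerSL_apply_norm]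
  exact hM y

theorem isGrad_gradient {f : ℂ → ℝ} (hf : Differentiable ℝ f) : IsGrad f (gradient f) := by
  intro y
  exact hasGradientAt_iff_hasFDerivAt.1 (hf y).hasGradientAt

/-- rotation invariance: radial weights times the rotation field integrate gradients to zero -/
theorem rot_zero {f : ℂ → ℝ} {g : ℂ → ℂ} (hf : IsGrad f g) (hg : Continuous g) (x : ℂ)
    (φ : ℝ → ℝ) (hφm : Measurable φ) {C R : ℝ} (hφb : ∀ s, |φ s| ≤ C)
    (hφs : ∀ s, R < s → φ s = 0) :
    ∫ y, φ ‖y - x‖ * ⟪Complex.I * (y - x), g y⟫ = 0 := by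
  have hψm : Measurable fun ξ : ℂ => φ ‖ξ‖ := hφm.comp measurable_norm
  have hz : ∀ ξ : ℂ, ξ ∉ ball (0 : ℂ) (R + 1) → φ ‖ξ‖ = 0 := fun ξ hξ =>
    hφs _ (by rw [mem_ball_zero_iff] at hξ; linarith)
  have h := avgA_hasDerivAt hf hg (γ := fun t ξ => x + Complex.exp (t * Complex.I) * ξ)
    (γ' := fun t ξ => Complex.exp (t * Complex.I) * Complex.I * ξ) (by fun_prop) (by fun_prop)
    (fun t ξ => by
      have h1 : HasDerivAt (fun t : ℝ => (t : ℂ) * Complex.I) Complex.I t := by
        simpa using (Complex.ofRealCLM.hasDerivAt (x := t)).mul_const Complex.I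
      exact (h1.cexp.mul_const ξ).const_add x) hψm (fun ξ => hφb _) (R + 1) 0
  have hc : (fun t : ℝ => ∫ ξ in ball (0 : ℂ) (R + 1),
      φ ‖ξ‖ * f (x + Complex.exp (t * Complex.I) * ξ)) = fun _ => ∫ ξ : ℂ, φ ‖ξ‖ * f (x + ξ) := by
    funext t
    rw [setIntegral_eq_integral_of_forall_compl_eq_zero fun ξ hξ => by rw [hz ξ hξ, zero_mul]]
    rw [← (rotation (Circle.exp t)).measurePreserving.integral_comp
      (rotation (Circle.exp t)).toHomeomorph.measurableEmbedding fun ξ => φ ‖ξ‖ * f (x + ξ)]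
    simp only [LinearIsometryEquiv.norm_map]
    simp only [rotation_apply, Circle.coe_exp]
  rw [hc] at h
  have h0 := h.unique (hasDerivAt_const _ _)
  rw [setIntegral_eq_integral_of_forall_compl_eq_zero fun ξ hξ => by rw [hz ξ hξ, zero_mul]] at h0
  rw [← integral_add_left_eq_self _ x]
  simpa using h0

/-- the supremum defining `Wv` is attained -/
theorem Wv_attained {f : ℂ → ℝ} (hf : Continuous f) (ρ : ℂ → ℝ) (R : ℝ) (x : ℂ) :
    ∃ r ∈ Icc (min (ρ x) R) R, Wv f ρ R x = avg f x r := by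
  exact isCompact_Icc.exists_sSup_image_eq ⟨R, min_le_right _ _, le_rfl⟩
    ((continuous_avg hf).comp (Continuous.prodMk_right x)).continuousOn
theorem avgA_le_Wv {f : ℂ → ℝ} (hf : Continuous f) (ρ : ℂ → ℝ) (R : ℝ) (x : ℂ) {r : ℝ}
    (h : r ∈ Icc (min (ρ x) R) R) : avg f x r ≤ Wv f ρ R x :=
  le_csSup (isCompact_Icc.bddAbove_image
    ((continuous_avg hf).comp (Continuous.prodMk_right x)).continuousOn) (mem_image_of_mem _ h)


theorem le_Wv {f : ℂ → ℝ} (hf : Continuous f) (ρ : ℂ → ℝ) (R : ℝ) (x : ℂ) {r : ℝ}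
    (h1 : ρ x ≤ r) (h2 : r ≤ R) : avg f x r ≤ Wv f ρ R x := by
  exact avgA_le_Wv hf ρ R x ⟨(min_le_left _ _).trans h1, h2⟩

theorem Wv_lip {f : ℂ → ℝ} {M : ℝ≥0} (hf : LipschitzWith M f) {ρ : ℂ → ℝ}
    (hρ : LipschitzWith 1 ρ) (R : ℝ) : LipschitzWith (2 * M) (Wv f ρ R) := by
  refine LipschitzWith.of_le_add_mul _ fun x x' => ?_
  obtain ⟨r, hr, e⟩ := Wv_attained hf.continuous ρ R x
  have h1 := avgA_le_Wv hf.continuous ρ R x' (r := max r (min (ρ x') R))
    ⟨le_max_right _ _, max_le hr.2 (min_le_right _ _)⟩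
  have h2 := avg_lip hf x x' r (max r (min (ρ x') R))
  have h3 : |ρ x - ρ x'| ≤ ‖x - x'‖ := by simpa using hρ.norm_sub_le x x'
  have h4 : |r - max r (min (ρ x') R)| ≤ ‖x - x'‖ := by
    have h5 := hr.1
    have h6 := abs_le.1 h3
    have h7 := norm_nonneg (x - x')
    rw [abs_le]
    constructor
    · rcases le_total r (min (ρ x') R) with h | h
      · rw [max_eq_right h]
        rcases min_le_iff.1 h5 with h8 | h8
        · linarith [min_le_left (ρ x') R]
        · linarith [min_le_right (ρ x') R]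
      · rw [max_eq_left h]; linarith
    · linarith [le_max_left r (min (ρ x') R)]
  have h8 := mul_le_mul_of_nonneg_left (add_le_add (le_refl ‖x - x'‖) h4) M.2
  rw [e, dist_eq_norm]
  push_cast
  have h9 := (le_abs_self _).trans (h2.trans h8)
  change _ ≤ (M : ℝ) * _ at h9
  linarith

theorem Mx_eq_Wv (f : ℂ → ℝ) {a b : ℝ} (hab : a ≤ b) : Mx f a b = Wv f (fun _ => a) b := by
  funext x
  simp only [Mx, Wv, min_eq_left hab]

/-- one-sided comparison gives a lower bound for the derivative of a majorant -/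
theorem davg_le_fderiv {f : ℂ → ℝ} {g : ℂ → ℂ} (hf : IsGrad f g) (hg : Continuous g)
    {W : ℂ → ℝ} {x v : ℂ} {r lam : ℝ} (hW : DifferentiableAt ℝ W x) (hx : W x = avg f x r)
    (h : ∀ᶠ t : ℝ in 𝓝[>] 0, avg f (x + t • v) (r + t * lam) ≤ W (x + t • v)) :
    davg g x r v lam ≤ fderiv ℝ W x v := by
  have h1 := hasDerivAt_avg hf hg x v r lam 0
  have h2 : HasDerivAt (fun t : ℝ => W (x + t • v)) (fderiv ℝ W x v) 0 :=
    hW.hasFDerivAt.hasLineDerivAt v
  simp only [zero_smul, add_zero, zero_mul] at h1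
  refine le_of_tendsto_of_tendsto h1.tendsto_slope_zero_right h2.tendsto_slope_zero_right ?_
  filter_upwards [h, self_mem_nhdsWithin] with t ht ht0
  simp only [zero_add, zero_smul, add_zero, zero_mul, smul_eq_mul, hx]
  exact mul_le_mul_of_nonneg_left (sub_le_sub_right ht _) (inv_nonneg.2 (le_of_lt ht0))

/-- the radial derivative vanishes at an interior maximum -/
theorem davg_eq_zero_of_max {f : ℂ → ℝ} {g : ℂ → ℂ} (hf : IsGrad f g) (hg : Continuous g)
    {x : ℂ} {r lo hi : ℝ} (h1 : lo < r) (h2 : r < hi)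
    (h : ∀ s ∈ Icc lo hi, avg f x s ≤ avg f x r) : davg g x r 0 1 = 0 := by
  have h3 := hasDerivAt_avg hf hg x 0 r 1 0
  simp only [smul_zero, add_zero, mul_one] at h3
  refine IsLocalMax.hasDerivAt_eq_zero ?_ h3
  have h4 : Icc (lo - r) (hi - r) ∈ 𝓝 (0 : ℝ) := Icc_mem_nhds (by linarith) (by linarith)
  filter_upwards [h4] with t ht
  rw [add_zero]
  exact h _ ⟨by linarith [ht.1], by linarith [ht.2]⟩

/-- two differentiable functions, one above the other near a common value, have the same derivative -/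
theorem fderiv_eq_of_le {W W' : ℂ → ℝ} {x : ℂ} (hW : DifferentiableAt ℝ W x)
    (hW' : DifferentiableAt ℝ W' x) (hx : W x = W' x) (h : ∀ᶠ y in 𝓝 x, W y ≤ W' y) :
    fderiv ℝ W x = fderiv ℝ W' x := by
  have h1 : IsLocalMin (fun y => W' y - W y) x := by
    filter_upwards [h] with y hy
    simp only [hx, sub_self]
    exact sub_nonneg.2 hy
  have h2 := h1.hasFDerivAt_eq_zero (hW'.hasFDerivAt.sub hW.hasFDerivAt)
  exact (sub_eq_zero.1 h2).symm

end Crest.Agent.R112
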