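import Mathlib

/-!
# Row 112 (S0147): basic definitions

Everything is done on `ℂ` seen as the Euclidean plane with the real inner product `⟪a, b⟫`.
See `notes` of row 112 in the team database for the blueprint.
-/

open MeasureTheory Set Filter Topology Metric
open scoped ENNReal NNReal RealInnerProductSpace

namespace Crest.Agent.R112

/-! ## Disc averages and maximal functions -/

/-- average of `f` over the disc of centre `x` and radius `r` (rescaled to the unit disc) -/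
noncomputable def avg (f : ℂ → ℝ) (x : ℂ) (r : ℝ) : ℝ :=
  (∫ ξ in ball (0 : ℂ) 1, f (x + r • ξ)) / Real.pi

/-- derivative of `avg f` at `(x, r)` in the direction `(w, lam)`, when `g` is the gradient of `f` -/
noncomputable def davg (g : ℂ → ℂ) (x : ℂ) (r : ℝ) (w : ℂ) (lam : ℝ) : ℝ :=
  (∫ ξ in ball (0 : ℂ) 1, ⟪w + lam • ξ, g (x + r • ξ)⟫) / Real.pi

/-- maximal function over radii in `[min (ρ x) R, R]` -/
noncomputable def Wv (f : ℂ → ℝ) (ρ : ℂ → ℝ) (R : ℝ) (x : ℂ) : ℝ :=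
  sSup ((fun r => avg f x r) '' Icc (min (ρ x) R) R)

/-- maximal function over radii in `[a, b]` -/
noncomputable def Mx (f : ℂ → ℝ) (a b : ℝ) (x : ℂ) : ℝ :=
  sSup ((fun r => avg f x r) '' Icc a b)

/-- `g` is the (classical) gradient of `f` -/
def IsGrad (f : ℂ → ℝ) (g : ℂ → ℂ) : Prop := ∀ y, HasFDerivAt f (innerSL ℝ (g y)) y

/-! ## Parameters -/

/-- the super-lacunary sequence `t_b = 2^{-40·4^b}` -/
noncomputable def tt (b : ℕ) : ℝ := (1 / 2 : ℝ) ^ (40 * 4 ^ b)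

/-- block scales -/
noncomputable def Dl (b : ℕ) : ℝ := tt b ^ 200

/-- pivot radii -/
noncomputable def rr (b : ℕ) : ℝ := tt b ^ 40

/-- exceptional thresholds -/
noncomputable def th (b : ℕ) : ℝ := tt (b + 1) / 3

/-- number of 4-adic levels between a node and its block `b` -/
def nn (b : ℕ) : ℕ := 4000 * 4 ^ b + 1

/-- goodness threshold -/
noncomputable def eps : ℝ := tt 0 / 10 ^ 7

lemma tt_pos (b : ℕ) : 0 < tt b := by unfold tt; positivity

lemma tt_succ (b : ℕ) : tt (b + 1) = tt b ^ 4 := by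
  unfold tt; rw [← pow_mul]; congr 1; ring

lemma tt_zero_le : tt 0 ≤ 1 / 10 ^ 12 := by unfold tt; norm_num

lemma tt_le_one (b : ℕ) : tt b ≤ 1 := by
  unfold tt; exact pow_le_one₀ (by norm_num) (by norm_num)

lemma tt_succ_le (b : ℕ) : tt (b + 1) ≤ tt b := by
  rw [tt_succ]; exact pow_le_of_le_one (tt_pos b).le (tt_le_one b) (by norm_num)

lemma tt_anti : Antitone tt := antitone_nat_of_succ_le tt_succ_le

lemma tt_le (b : ℕ) : tt b ≤ 1 / 10 ^ 12 := (tt_anti (Nat.zero_le b)).trans tt_zero_le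

/-- powers of `tt b` are tiny compared with lower powers -/
lemma tt_pow_le (b : ℕ) {m n : ℕ} (h : m < n) : tt b ^ n ≤ tt b ^ m / 10 ^ 12 := by
  obtain ⟨k, rfl⟩ := Nat.exists_eq_add_of_lt h
  have h0 := tt_pos b
  have h1 : tt b ^ k ≤ 1 := pow_le_one₀ h0.le (tt_le_one b)
  have h2 := tt_le b
  have h3 : 0 < tt b ^ m := pow_pos h0 m
  calc tt b ^ (m + k + 1) = tt b ^ m * (tt b ^ k * tt b) := by ring
    _ ≤ tt b ^ m * (1 * (1 / 10 ^ 12)) := by gcongr
    _ = tt b ^ m / 10 ^ 12 := by ring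

lemma tt_succ_le_half (b : ℕ) : tt (b + 1) ≤ tt b / 2 := by
  rw [tt_succ]
  have := tt_pow_le b (m := 1) (n := 4) (by norm_num)
  have h0 := tt_pos b
  rw [pow_one] at this
  linarith [show tt b / 10 ^ 12 ≤ tt b / 2 by gcongr; norm_num]

lemma Dl_pos (b : ℕ) : 0 < Dl b := pow_pos (tt_pos b) _
lemma rr_pos (b : ℕ) : 0 < rr b := pow_pos (tt_pos b) _
lemma th_pos (b : ℕ) : 0 < th b := by unfold th; have := tt_pos (b + 1); positivity

lemma Dl_succ (b : ℕ) : Dl (b + 1) = Dl b ^ 4 := by unfold Dl; rw [tt_succ]; ring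

lemma Dl_le (b : ℕ) : Dl b ≤ 1 / 10 ^ 12 := by
  have := tt_pow_le b (m := 0) (n := 200) (by norm_num)
  simpa [Dl] using this

lemma Dl_succ_le (b : ℕ) : Dl (b + 1) ≤ Dl b / 10 ^ 12 := by
  have : Dl (b + 1) = tt b ^ 800 := by unfold Dl; rw [tt_succ]; ring
  rw [this]; exact tt_pow_le b (by norm_num)

lemma Dl_anti : Antitone Dl := antitone_nat_of_succ_le fun b => by
  have := Dl_succ_le b; have := Dl_pos b; linarith [show Dl b / 10 ^ 12 ≤ Dl b by
    apply div_le_self (Dl_pos b).le; norm_num]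

lemma eps_pos : 0 < eps := by unfold eps; have := tt_pos 0; positivity

/-- geometric sums of powers of `tt` -/
lemma sum_tt_pow_le (j l p : ℕ) (hp : 1 ≤ p) : ∑ b ∈ Finset.Ico j l, tt b ^ p ≤ 2 * tt j ^ p := by
  have key : ∀ d : ℕ, ∑ b ∈ Finset.Ico j (j + d), tt b ^ p ≤ 2 * tt j ^ p - tt (j + d) ^ p * 2 := by
    intro d
    induction d with
    | zero => simp [mul_comm]
    | succ d ih =>
      rw [← add_assoc, Finset.sum_Ico_succ_top (Nat.le_add_right j d)]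
      have h1 : tt (j + d + 1) ^ p ≤ (tt (j + d) / 2) ^ p :=
        pow_le_pow_left₀ (tt_pos _).le (tt_succ_le_half _) p
      have h2 : (tt (j + d) / 2) ^ p ≤ tt (j + d) ^ p / 2 := by
        rw [div_pow]
        have : (2 : ℝ) ≤ 2 ^ p := by
          calc (2 : ℝ) = 2 ^ 1 := by norm_num
            _ ≤ 2 ^ p := pow_le_pow_right₀ (by norm_num) hp
        have h3 := pow_pos (tt_pos (j + d)) p
        gcongr
      linarith
  rcases le_total l j with h | h
  · rw [Finset.Ico_eq_empty_of_le h]; simp; exact pow_nonneg (tt_pos j).le p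
  · obtain ⟨d, rfl⟩ := Nat.exists_eq_add_of_le h
    have := key d
    have := pow_pos (tt_pos (j + d)) p
    linarith

/-- geometric sums of `1 / tt (b+1)` -/
lemma sum_inv_tt_le (j l : ℕ) : ∑ b ∈ Finset.Ico j l, 1 / tt (b + 1) ≤ 2 / tt l := by
  induction l with
  | zero => simp; exact div_nonneg (by norm_num) (tt_pos 0).le
  | succ l ih =>
    rcases le_or_gt j l with h | h
    · rw [Finset.sum_Ico_succ_top h]
      have h1 := tt_succ_le_half l
      have h2 := tt_pos (l + 1)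
      have h3 := tt_pos l
      have : 2 / tt l ≤ 1 / tt (l + 1) := by
        rw [div_le_div_iff₀ h3 h2]; linarith
      have : 2 / tt (l + 1) = 1 / tt (l + 1) + 1 / tt (l + 1) := by ring
      linarith
    · rw [Finset.Ico_eq_empty_of_le h]; simp; exact div_nonneg (by norm_num) (tt_pos _).le

lemma four_pow_nn (b : ℕ) : (4 / 3 : ℝ) ≤ Dl b * 4 ^ nn b := by
  unfold Dl tt nn
  rw [← pow_mul, pow_succ]
  have : ((1 / 2 : ℝ)) ^ (40 * 4 ^ b * 200) * 4 ^ (4000 * 4 ^ b) = 1 := by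
    have h4 : (4 : ℝ) ^ (4000 * 4 ^ b) = 2 ^ (40 * 4 ^ b * 200) := by
      rw [show (4 : ℝ) = 2 ^ 2 by norm_num, ← pow_mul]; congr 1; ring
    rw [h4, ← mul_pow]; norm_num
  rw [← mul_assoc, this]; norm_num

lemma lt_nn (b : ℕ) : b < nn b := by
  unfold nn
  have : b < 4 ^ b := Nat.lt_pow_self (by norm_num)
  omega

lemma nn_mono : Monotone nn := fun a b h => by
  unfold nn
  have := Nat.pow_le_pow_right (show 0 < 4 by norm_num) h
  omega

/-! ## Smoothing, cones -/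

/-- `G` is an average of translates of `G'` by vectors of norm at most `δ` -/
def Sm (G G' : ℂ → ℂ) (δ : ℝ) : Prop :=
  ∃ τ : Measure ℂ, IsProbabilityMeasure τ ∧ (∀ᵐ w ∂τ, ‖w‖ ≤ δ) ∧ ∀ y, G y = ∫ w, G' (y - w) ∂τ

/-- the cone of vectors whose direction is within `1/5` of `e` -/
def cone (e : ℂ) : Set ℂ := {p | ‖p - ‖p‖ • e‖ ≤ ‖p‖ / 5}

open Classical in
/-- size of the part of `p` counted as good -/
noncomputable def good (K : Set ℂ) (p : ℂ) : ℝ := if p ∈ K then ‖p‖ else 0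

open Classical in
/-- size of the part of `p` counted as bad -/
noncomputable def bad (K : Set ℂ) (p : ℂ) : ℝ := if p ∈ K then 0 else ‖p‖

/-- `X` has inner product at least `c` with all unit vectors within `1/5` of `e` -/
def Pos (e : ℂ) (c : ℝ) (X : ℂ) : Prop := ∀ n : ℂ, ‖n‖ = 1 → ‖n - e‖ ≤ 1 / 5 → c ≤ ⟪X, n⟫

/-- closed annulus of half-width `δ` around the circle of centre `x` and radius `r` -/
def shell (x : ℂ) (r δ : ℝ) : Set ℂ := {y | |‖y - x‖ - r| ≤ δ}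

/-! ## Lattices -/

/-- index of the square of side `s` containing `y` -/
noncomputable def cellOf (s : ℝ) (y : ℂ) : ℤ × ℤ := (⌊y.re / s⌋, ⌊y.im / s⌋)

/-- lower left corner of a square of side `s` -/
noncomputable def corner (s : ℝ) (z : ℤ × ℤ) : ℂ := ⟨s * z.1, s * z.2⟩

/-- lattice points within sup-distance `j` of `z` -/
def box (z : ℤ × ℤ) (j : ℕ) : Set (ℤ × ℤ) := {z' | |z'.1 - z.1| ≤ j ∧ |z'.2 - z.2| ≤ j}

/-- lattice neighbourhood of a set -/
def nbhd (A : Set (ℤ × ℤ)) (j : ℕ) : Set (ℤ × ℤ) := {z' | ∃ z ∈ A, z' ∈ box z j}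

/-- union of the squares of side `s` within sup-distance `j` of the square `z` -/
def boxSet (s : ℝ) (z : ℤ × ℤ) (j : ℕ) : Set ℂ := {y | cellOf s y ∈ box z j}

/-- the 4-adic parent -/
def par (z : ℤ × ℤ) : ℤ × ℤ := (z.1 / 4, z.2 / 4)

/-- `Q` is a descendant of `R` and all nodes from `Q` up to `R` satisfy `gw` -/
def InTree (gw : ℕ → ℤ × ℤ → Prop) (R Q : ℕ × (ℤ × ℤ)) : Prop :=
  Q.1 ≤ R.1 ∧ par^[R.1 - Q.1] Q.2 = R.2 ∧ ∀ j, Q.1 ≤ j → j ≤ R.1 → gw j (par^[j - Q.1] Q.2)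

/-! ## Levels -/

/-- uniform probability on the disc of radius `s` -/
noncomputable def unif (s : ℝ) : Measure ℂ :=
  (volume (ball (0 : ℂ) s))⁻¹ • volume.restrict (ball (0 : ℂ) s)

/-- iterated disc averages of `g`: `lev g (j+1)` averages `lev g j` over discs of radius `4^(j+1)` -/
noncomputable def lev (g : ℂ → ℂ) : ℕ → ℂ → ℂ
  | 0 => g
  | j + 1 => fun y => ∫ w, lev g j (y - w) ∂(unif (4 ^ (j + 1)))

/-- standing assumptions on the vector field -/
def GOK (g : ℂ → ℂ) : Prop := Measurable g ∧ (∃ M : ℝ, ∀ y, ‖g y‖ ≤ M) ∧ Integrable g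

/-- mass of the node `(k, z)` -/
noncomputable def mhat (g : ℂ → ℂ) (k : ℕ) (z : ℤ × ℤ) : ℝ≥0∞ :=
  ∑' b, ENNReal.ofReal (tt b) * ∫⁻ y in boxSet (4 ^ k) z 16, ‖lev g (k - nn b) y‖ₑ

/-- budget of the node `(k, z)` with respect to the direction `d` -/
noncomputable def Bud (g : ℂ → ℂ) (k : ℕ) (z : ℤ × ℤ) (d : ℂ) : ℝ≥0∞ :=
  ∑' b, ENNReal.ofReal (tt b) *
    ∫⁻ y in boxSet (4 ^ k) z 40,
      ENNReal.ofReal (‖lev g (k - nn b) y‖ - ⟪d, lev g (k - nn b) y⟫)

/-- good nodes -/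
def GoodNode (g : ℂ → ℂ) (d : ℕ → ℤ × ℤ → ℂ) (k : ℕ) (z : ℤ × ℤ) : Prop :=
  Bud g k z (d k z) ≤ ENNReal.ofReal eps * mhat g k z

/-- good nodes whose direction is within `3/20` of `e` -/
def GW (g : ℂ → ℂ) (d : ℕ → ℤ × ℤ → ℂ) (e : ℂ) (k : ℕ) (z : ℤ × ℤ) : Prop :=
  GoodNode g d k z ∧ ‖d k z - e‖ ≤ 3 / 20

/-- the semiconcave 1-homogeneous potential attached to the direction `e` -/
noncomputable def Hf (e p : ℂ) : ℝ := (max (⟪e, p⟫ - 127 / 128 * ‖p‖) 0) ^ 2 / ‖p‖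

/-- the `Hf`-mass of level `k`, as a measure on the lattice of squares of side `4^k` -/
noncomputable def Hm (g : ℂ → ℂ) (e : ℂ) (k : ℕ) : Measure (ℤ × ℤ) :=
  Measure.map (cellOf (4 ^ k))
    (volume.withDensity fun y => ENNReal.ofReal (Hf e (lev g k y)))

/-! ## Weak gradients on `ℂ` -/

/-- weak gradient on `ℂ` (copy of the statement's definition) -/
def WG (u : ℂ → ℝ) (g : ℂ → ℂ) : Prop :=
  LocallyIntegrable u volume ∧ LocallyIntegrable g volume ∧
    ∀ φ : ℂ → ℝ, ContDiff ℝ (⊤ : ℕ∞) φ → HasCompactSupport φ →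
      ∀ v : ℂ, ∫ x, u x * fderiv ℝ φ x v = -∫ x, ⟪g x, v⟫ * φ x

/-- centred maximal function on `ℂ` (copy of the statement's definition) -/
noncomputable def cmax (f : ℂ → ℝ) (x : ℂ) : ℝ≥0∞ :=
  ⨆ (r : ℝ) (_ : 0 < r), (∫⁻ y in ball x r, ‖f y‖ₑ) / volume (ball x r)

/-- `(F, G)` is a limit in `W^{1,1}` of compactly supported `C¹` functions -/
def Approx (F : ℂ → ℝ) (G : ℂ → ℂ) : Prop :=
  ∀ η : ℝ≥0∞, 0 < η → ∃ F' : ℂ → ℝ, ContDiff ℝ 1 F' ∧ HasCompactSupport F' ∧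
    ∫⁻ y, ‖F' y - F y‖ₑ ≤ η ∧ ∫⁻ y, ‖gradient F' y - G y‖ₑ ≤ η

/-- the main theorem for `C¹` functions and truncated radii, with constant `C` -/
def MTstmt (C : ℝ≥0∞) : Prop :=
  ∀ f : ℂ → ℝ, ContDiff ℝ 1 f → HasCompactSupport f → ∀ (a : ℝ) (n : ℕ), 0 < a → 1 ≤ n →
    ∫⁻ x, ‖fderiv ℝ (Mx f a (4 ^ n * a)) x‖ₑ ≤ C * ∫⁻ x, ‖fderiv ℝ f x‖ₑ

end Crest.Agent.R112
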