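import Crest.Agent.R112.Levels1

/-! # Row 112: the budget lemma (task L2b) -/

open MeasureTheory Set Filter Topology Metric
open scoped ENNReal NNReal RealInnerProductSpace

namespace Crest.Agent.R112

/-- every vector has a norming unit vector -/
theorem bud_exists_unit (p : ℂ) : ∃ u : ℂ, ‖u‖ = 1 ∧ ⟪u, p⟫ = ‖p‖ := by
  by_cases hp : p = 0
  · exact ⟨1, by simp, by simp [hp]⟩
  · have h0 : ‖p‖ ≠ 0 := norm_ne_zero_iff.2 hp
    refine ⟨‖p‖⁻¹ • p, ?_, ?_⟩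
    · rw [norm_smul, norm_inv, norm_norm, inv_mul_cancel₀ h0]
    · rw [real_inner_smul_left, real_inner_self_eq_norm_sq]
      field_simp

/-- the deviation integrates to the loss of norm -/
theorem bud_lintegral_dev {α : Type*} [MeasurableSpace α] (μ : Measure α) {F : α → ℂ}
    (hF : Integrable F μ) {u : ℂ} (hu : ‖u‖ = 1) (h : ⟪u, ∫ w, F w ∂μ⟫ = ‖∫ w, F w ∂μ‖) :
    ∫⁻ w, ENNReal.ofReal (‖F w‖ - ⟪u, F w⟫) ∂μ = (∫⁻ w, ‖F w‖ₑ ∂μ) - ‖∫ w, F w ∂μ‖ₑ := by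
  have h1 : Integrable (fun w => ⟪u, F w⟫) μ := hF.const_inner u
  have h2 : 0 ≤ᵐ[μ] fun w => ‖F w‖ - ⟪u, F w⟫ := Eventually.of_forall fun w => by
    have := real_inner_le_norm u (F w)
    rw [hu, one_mul] at this
    simp only [Pi.zero_apply]
    linarith
  have h3 : Integrable (fun w => ‖F w‖ - ⟪u, F w⟫) μ := hF.norm.sub h1
  rw [← ofReal_integral_eq_lintegral_ofReal h3 h2, integral_sub hF.norm h1,
    integral_inner hF, h, ENNReal.ofReal_sub _ (norm_nonneg _),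
    ofReal_integral_norm_eq_lintegral_enorm hF, ofReal_norm_eq_enorm]

/-- the uniform average over a large disc dominates the integral over a smaller disc -/
theorem bud_ball_le {φ : ℂ → ℝ≥0∞} {R : ℝ} (hR : 0 < R) (y w' : ℂ) (hw' : ‖w'‖ ≤ R / 3) :
    ∫⁻ x in ball y (2 / 3 * R), φ x ≤
      volume (ball (0 : ℂ) R) * ∫⁻ w, φ (y - w - w') ∂(unif R) := by
  have h0 : volume (ball (0 : ℂ) R) ≠ 0 := (measure_ball_pos _ _ hR).ne'
  have h1 : volume (ball (0 : ℂ) R) ≠ ⊤ := measure_ball_lt_top.ne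
  unfold unif
  rw [lintegral_smul_measure, smul_eq_mul, ← mul_assoc, ENNReal.mul_inv_cancel h0 h1, one_mul,
    ← lintegral_indicator measurableSet_ball, ← lintegral_indicator measurableSet_ball,
    ← lintegral_sub_left_eq_self _ (y - w')]
  refine lintegral_mono fun w => ?_
  by_cases hw : y - w' - w ∈ ball y (2 / 3 * R)
  · have hw2 : w ∈ ball (0 : ℂ) R := by
      rw [mem_ball, dist_eq_norm] at hw ⊢
      have e : w - 0 = -(y - w' - w - y) - w' := by ring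
      rw [e]
      have := norm_sub_le (-(y - w' - w - y)) w'
      rw [norm_neg] at this
      linarith
    rw [indicator_of_mem hw, indicator_of_mem hw2, sub_right_comm]
  · rw [indicator_of_notMem hw]
    exact zero_le

/-- the local budget density -/
theorem bud_core {G G' H : ℂ → ℂ} {R M : ℝ} (hR : 0 < R) (hG : Measurable G)
    (hb : ∀ y, ‖G y‖ ≤ M) (hsm : Sm G' G (R / 3)) (hH : ∀ y, H y = ∫ w, G' (y - w) ∂(unif R))
    (hHm : Measurable H) :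
    ∃ D : ℂ → ℝ≥0∞, Measurable D ∧ (∫⁻ y, D y) + ∫⁻ y, ‖H y‖ₑ ≤ ∫⁻ y, ‖G y‖ₑ ∧
      ∀ y u : ℂ, ‖u‖ = 1 → ⟪u, H y⟫ = ‖H y‖ →
        ∫⁻ x in ball y (2 / 3 * R), ENNReal.ofReal (‖G x‖ - ⟪u, G x⟫) ≤
          volume (ball (0 : ℂ) R) * D y := by
  obtain ⟨τ, hτ, hτw, hτG⟩ := hsm
  haveI := isProb_unif hR
  have hint : ∀ y, Integrable (fun p : ℂ × ℂ => G (y - p.1 - p.2)) ((unif R).prod τ) := by
    intro y
    refine Integrable.of_bound (C := M) ?_ (Eventually.of_forall fun p => hb _)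
    exact (hG.comp (by fun_prop)).aestronglyMeasurable
  have hH' : ∀ y, H y = ∫ p, G (y - p.1 - p.2) ∂((unif R).prod τ) := by
    intro y
    rw [integral_prod _ (hint y), hH y]
    simp only [hτG]
  have hm2 : Measurable (Function.uncurry fun (y : ℂ) (p : ℂ × ℂ) => ‖G (y - p.1 - p.2)‖ₑ) := by
    have : Measurable fun q : ℂ × (ℂ × ℂ) => G (q.1 - q.2.1 - q.2.2) := hG.comp (by fun_prop)
    exact this.enorm
  have hA : Measurable fun y => ∫⁻ p, ‖G (y - p.1 - p.2)‖ₑ ∂((unif R).prod τ) :=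
    hm2.lintegral_prod_right
  refine ⟨fun y => (∫⁻ p, ‖G (y - p.1 - p.2)‖ₑ ∂((unif R).prod τ)) - ‖H y‖ₑ,
    hA.sub hHm.enorm, ?_, ?_⟩
  · rw [← lintegral_add_right _ hHm.enorm]
    have e1 : ∀ y, (∫⁻ p, ‖G (y - p.1 - p.2)‖ₑ ∂((unif R).prod τ)) - ‖H y‖ₑ + ‖H y‖ₑ =
        ∫⁻ p, ‖G (y - p.1 - p.2)‖ₑ ∂((unif R).prod τ) := by
      intro y
      apply tsub_add_cancel_of_le
      rw [hH' y]
      exact enorm_integral_le_lintegral_enorm _
    simp only [e1]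
    rw [lintegral_lintegral_swap hm2.aemeasurable]
    have e2 : ∀ p : ℂ × ℂ, ∫⁻ y, ‖G (y - p.1 - p.2)‖ₑ = ∫⁻ y, ‖G y‖ₑ := by
      intro p
      simp only [sub_sub]
      exact lintegral_sub_right_eq_self (fun y => ‖G y‖ₑ) (p.1 + p.2)
    simp only [e2]
    simp
  · intro y u hu h
    have hφ : Measurable fun x => ENNReal.ofReal (‖G x‖ - ⟪u, G x⟫) :=
      (hG.norm.sub (measurable_const.inner hG)).ennreal_ofReal
    have e1 := bud_lintegral_dev _ (hint y) hu (by rw [← hH' y]; exact h)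
    rw [← hH' y] at e1
    simp only
    have hφ2 : Measurable fun p : ℂ × ℂ =>
        ENNReal.ofReal (‖G (y - p.1 - p.2)‖ - ⟪u, G (y - p.1 - p.2)⟫) :=
      hφ.comp (f := fun p : ℂ × ℂ => y - p.1 - p.2) (by fun_prop)
    rw [← e1, lintegral_prod_symm _ hφ2.aemeasurable,
      ← lintegral_const_mul' _ _ measure_ball_lt_top.ne]
    calc ∫⁻ x in ball y (2 / 3 * R), ENNReal.ofReal (‖G x‖ - ⟪u, G x⟫)
        = ∫⁻ _w', (∫⁻ x in ball y (2 / 3 * R), ENNReal.ofReal (‖G x‖ - ⟪u, G x⟫)) ∂τ := by simp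
      _ ≤ _ := by
        refine lintegral_mono_ae (hτw.mono fun w' hw' => ?_)
        exact bud_ball_le (φ := fun x => ENNReal.ofReal (‖G x‖ - ⟪u, G x⟫)) hR y w' hw'

/-- telescoping -/
theorem bud_telescope (e D : ℕ → ℝ≥0∞) (A : ℝ≥0∞) (hA : A ≠ ⊤) (he : ∀ i, e i ≤ A) (q n : ℕ)
    (hD : ∀ k, D k + e (q + k) ≤ e k) : ∑ k ∈ Finset.range n, D k ≤ q * A := by
  have h1 : ∑ k ∈ Finset.range n, D k + ∑ k ∈ Finset.range n, e (q + k) ≤
      q * A + ∑ k ∈ Finset.range n, e (q + k) := by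
    calc ∑ k ∈ Finset.range n, D k + ∑ k ∈ Finset.range n, e (q + k)
        = ∑ k ∈ Finset.range n, (D k + e (q + k)) := Finset.sum_add_distrib.symm
      _ ≤ ∑ k ∈ Finset.range n, e k := Finset.sum_le_sum fun k _ => hD k
      _ ≤ ∑ k ∈ Finset.range (q + n), e k :=
          Finset.sum_le_sum_of_subset (Finset.range_subset_range.2 (Nat.le_add_left n q))
      _ = ∑ k ∈ Finset.range q, e k + ∑ k ∈ Finset.range n, e (q + k) := Finset.sum_range_add _ _ _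
      _ ≤ q * A + ∑ k ∈ Finset.range n, e (q + k) := by
          gcongr
          calc ∑ k ∈ Finset.range q, e k ≤ ∑ _k ∈ Finset.range q, A :=
                Finset.sum_le_sum fun k _ => he k
            _ = q * A := by simp
  have h2 : ∑ k ∈ Finset.range n, e (q + k) ≠ ⊤ :=
    ENNReal.sum_ne_top.2 fun k _ => ne_top_of_le_ne_top hA (he _)
  exact (ENNReal.add_le_add_iff_right h2).1 h1

theorem bud_tt_nn_le (b : ℕ) : tt b * ((nn b + 4 : ℕ) : ℝ) ≤ 4005 * (1 / 2) ^ b := by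
  have h1 : b < 4 ^ b := Nat.lt_pow_self (by norm_num)
  have h2 : tt b ≤ (1 / 2 : ℝ) ^ (3 * b) := by
    unfold tt
    exact pow_le_pow_of_le_one (by norm_num) (by norm_num) (by omega)
  have h3 : ((nn b + 4 : ℕ) : ℝ) ≤ 4005 * 4 ^ b := by
    have h4 : nn b + 4 ≤ 4005 * 4 ^ b := by unfold nn; omega
    exact_mod_cast h4
  calc tt b * ((nn b + 4 : ℕ) : ℝ) ≤ (1 / 2 : ℝ) ^ (3 * b) * (4005 * 4 ^ b) := by
        have := tt_pos b
        gcongr
    _ = 4005 * ((1 / 2 : ℝ) ^ 3 * 4) ^ b := by rw [pow_mul, mul_pow]; ring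
    _ = 4005 * (1 / 2) ^ b := by norm_num

theorem bud_tsum_ne_top : ∑' b, ENNReal.ofReal (tt b) * ((nn b + 4 : ℕ) : ℝ≥0∞) ≠ ⊤ := by
  have hs : Summable fun b : ℕ => (4005 : ℝ) * (1 / 2) ^ b :=
    summable_geometric_two.mul_left _
  refine ne_top_of_le_ne_top (ENNReal.ofReal_ne_top (r := ∑' b : ℕ, (4005 : ℝ) * (1 / 2) ^ b)) ?_
  rw [ENNReal.ofReal_tsum_of_nonneg (fun b => by positivity) hs]
  refine ENNReal.tsum_le_tsum fun b => ?_
  rw [← ENNReal.ofReal_natCast, ← ENNReal.ofReal_mul (tt_pos b).le]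
  exact ENNReal.ofReal_le_ofReal (bud_tt_nn_le b)

/-- one level of the budget lemma -/
theorem bud_level {g : ℂ → ℂ} (k : ℕ) (D : ℕ → ℂ → ℝ≥0∞) (hDm : ∀ b, Measurable (D b))
    (hD : ∀ b, ∀ y u : ℂ, ‖u‖ = 1 → ⟪u, lev g (k + 4) y⟫ = ‖lev g (k + 4) y‖ →
        ∫⁻ x in ball y (2 / 3 * 4 ^ (k + 4)),
          ENNReal.ofReal (‖lev g (k - nn b) x‖ - ⟪u, lev g (k - nn b) x⟫) ≤
          volume (ball (0 : ℂ) (4 ^ (k + 4))) * D b y) :
    ∃ d : ℤ × ℤ → ℂ, (∀ z, ‖d z‖ = 1) ∧ ∑' z, Bud g k z (d z) ≤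
      ENNReal.ofReal (4 ^ 8) * NNReal.pi * ∑' b, ENNReal.ofReal (tt b) * ∫⁻ y, D b y := by
  have hs : (0 : ℝ) < 4 ^ k := by positivity
  set Φ : ℂ → ℝ≥0∞ := fun y => ∑' b, ENNReal.ofReal (tt b) * D b y with hΦ
  have hΦm : Measurable Φ := Measurable.ennreal_tsum fun b => (hDm b).const_mul _
  have hv0 : ENNReal.ofReal (((4 : ℝ) ^ k) ^ 2) ≠ 0 := by
    rw [Ne, ENNReal.ofReal_eq_zero, not_le]; positivity
  have hy : ∀ z, ∃ y ∈ boxSet (4 ^ k) z 0,
      Φ y ≤ (∫⁻ x in boxSet (4 ^ k) z 0, Φ x) / ENNReal.ofReal (((4 : ℝ) ^ k) ^ 2) := by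
    intro z
    have := exists_le_setLAverage (μ := volume) (s := boxSet (4 ^ k) z 0) (f := Φ)
      (by rw [volume_cell hs]; exact hv0) (by rw [volume_cell hs]; exact ENNReal.ofReal_ne_top)
      hΦm.aemeasurable
    rwa [setLAverage_eq, volume_cell hs] at this
  choose y hy1 hy2 using hy
  choose u hu1 hu2 using bud_exists_unit
  refine ⟨fun z => u (lev g (k + 4) (y z)), fun z => hu1 _, ?_⟩
  have hvol : volume (ball (0 : ℂ) (4 ^ (k + 4))) =
      ENNReal.ofReal (4 ^ 8) * NNReal.pi * ENNReal.ofReal (((4 : ℝ) ^ k) ^ 2) := by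
    rw [Complex.volume_ball, ← ENNReal.ofReal_pow (by positivity), mul_right_comm,
      ← ENNReal.ofReal_mul (by positivity)]
    congr 2
    ring
  have key : ∀ z, Bud g k z (u (lev g (k + 4) (y z))) ≤
      ENNReal.ofReal (4 ^ 8) * NNReal.pi * ∫⁻ x in boxSet (4 ^ k) z 0, Φ x := by
    intro z
    have hc : cellOf (4 ^ k) (y z) = z := by
      have := hy1 z
      rwa [boxSet, mem_setOf_eq, box_zero, mem_singleton_iff] at this
    have hsub : boxSet (4 ^ k) z 40 ⊆ ball (y z) (2 / 3 * 4 ^ (k + 4)) := by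
      intro x hx
      have := norm_sub_lt_of_boxSet hs hc hx
      rw [mem_ball, dist_eq_norm, pow_add]
      push_cast at this
      nlinarith
    calc Bud g k z (u (lev g (k + 4) (y z)))
        ≤ ∑' b, ENNReal.ofReal (tt b) * (volume (ball (0 : ℂ) (4 ^ (k + 4))) * D b (y z)) := by
          refine ENNReal.tsum_le_tsum fun b => ?_
          gcongr
          exact (lintegral_mono_set hsub).trans (hD b _ _ (hu1 _) (hu2 _))
      _ = volume (ball (0 : ℂ) (4 ^ (k + 4))) * Φ (y z) := by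
          rw [hΦ, ← ENNReal.tsum_mul_left]
          exact tsum_congr fun b => by ring
      _ ≤ volume (ball (0 : ℂ) (4 ^ (k + 4))) *
          ((∫⁻ x in boxSet (4 ^ k) z 0, Φ x) / ENNReal.ofReal (((4 : ℝ) ^ k) ^ 2)) := by
          gcongr
          exact hy2 z
      _ = _ := by
          rw [hvol, mul_assoc _ (ENNReal.ofReal (((4 : ℝ) ^ k) ^ 2)),
            ENNReal.mul_div_cancel hv0 ENNReal.ofReal_ne_top]
  calc ∑' z, Bud g k z (u (lev g (k + 4) (y z)))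
      ≤ ∑' z, ENNReal.ofReal (4 ^ 8) * NNReal.pi * ∫⁻ x in boxSet (4 ^ k) z 0, Φ x :=
        ENNReal.tsum_le_tsum key
    _ = ENNReal.ofReal (4 ^ 8) * NNReal.pi * ∫⁻ x, Φ x := by
        rw [ENNReal.tsum_mul_left, tsum_lintegral_cell]
    _ = _ := by
        rw [hΦ, lintegral_tsum fun b => ((hDm b).const_mul _).aemeasurable]
        congr 1
        exact tsum_congr fun b => lintegral_const_mul _ (hDm b)

/-- the budget lemma -/
theorem budget : ∃ C : ℝ≥0∞, C ≠ ⊤ ∧ ∀ g : ℂ → ℂ, GOK g → ∀ n : ℕ,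
    ∃ d : ℕ → ℤ × ℤ → ℂ, (∀ k z, ‖d k z‖ = 1) ∧
      ∑ k ∈ Finset.range n, ∑' z, Bud g k z (d k z) ≤ C * ∫⁻ y, ‖g y‖ₑ := by
  refine ⟨ENNReal.ofReal (4 ^ 8) * NNReal.pi *
    ∑' b, ENNReal.ofReal (tt b) * ((nn b + 4 : ℕ) : ℝ≥0∞), ?_, ?_⟩
  · exact ENNReal.mul_ne_top (ENNReal.mul_ne_top ENNReal.ofReal_ne_top ENNReal.coe_ne_top)
      bud_tsum_ne_top
  intro g hg n
  obtain ⟨M, hM⟩ := hg.2.1
  have hcore : ∀ k b : ℕ, ∃ D : ℂ → ℝ≥0∞, Measurable D ∧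
      (∫⁻ y, D y) + ∫⁻ y, ‖lev g (k + 4) y‖ₑ ≤ ∫⁻ y, ‖lev g (k - nn b) y‖ₑ ∧
      ∀ y u : ℂ, ‖u‖ = 1 → ⟪u, lev g (k + 4) y⟫ = ‖lev g (k + 4) y‖ →
        ∫⁻ x in ball y (2 / 3 * 4 ^ (k + 4)),
          ENNReal.ofReal (‖lev g (k - nn b) x‖ - ⟪u, lev g (k - nn b) x⟫) ≤
          volume (ball (0 : ℂ) (4 ^ (k + 4))) * D y := by
    intro k b
    refine bud_core (G' := lev g (k + 3)) (by positivity) (lev_measurable hg.1 _)
      (lev_bound hM _) ?_ (fun y => rfl) (lev_measurable hg.1 _)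
    have := lev_sm hg (j := k - nn b) (j' := k + 3) (by omega)
    convert this using 1
    ring
  choose D hDm hD1 hD2 using hcore
  choose d hd1 hd2 using fun k => bud_level (g := g) k (D k) (hDm k) (hD2 k)
  refine ⟨d, hd1, ?_⟩
  have hfin : ∫⁻ y, ‖g y‖ₑ ≠ ⊤ := hg.2.2.2.ne
  have htel : ∀ b, ∑ k ∈ Finset.range n, ∫⁻ y, D k b y ≤
      ((nn b + 4 : ℕ) : ℝ≥0∞) * ∫⁻ y, ‖g y‖ₑ := by
    intro b
    refine bud_telescope (fun i => ∫⁻ y, ‖lev g (i - nn b) y‖ₑ) _ _ hfin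
      (fun i => lintegral_lev_le hg _) _ n fun k => ?_
    have e : nn b + 4 + k - nn b = k + 4 := by omega
    simp only [e]
    exact hD1 k b
  calc ∑ k ∈ Finset.range n, ∑' z, Bud g k z (d k z)
      ≤ ∑ k ∈ Finset.range n, ENNReal.ofReal (4 ^ 8) * NNReal.pi *
          ∑' b, ENNReal.ofReal (tt b) * ∫⁻ y, D k b y := Finset.sum_le_sum fun k _ => hd2 k
    _ = ENNReal.ofReal (4 ^ 8) * NNReal.pi *
          ∑' b, ENNReal.ofReal (tt b) * ∑ k ∈ Finset.range n, ∫⁻ y, D k b y := by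
        rw [← Finset.mul_sum, ← Summable.tsum_finsetSum fun _ _ => ENNReal.summable]
        simp only [Finset.mul_sum]
    _ ≤ ENNReal.ofReal (4 ^ 8) * NNReal.pi *
          ∑' b, ENNReal.ofReal (tt b) * (((nn b + 4 : ℕ) : ℝ≥0∞) * ∫⁻ y, ‖g y‖ₑ) := by
        gcongr with b
        exact htel b
    _ = _ := by
        rw [mul_assoc _ _ (∫⁻ y, ‖g y‖ₑ), ← ENNReal.tsum_mul_right]
        simp only [mul_assoc]

end Crest.Agent.R112
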