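import Crest.Agent.R112.Lattice

/-! # Row 112: the corona construction (task C), purely combinatorial -/

open MeasureTheory Set Filter Topology Metric
open scoped ENNReal NNReal RealInnerProductSpace

namespace Crest.Agent.R112

/-- anchors: locally dominant good narrow nodes of `A` -/
def Anch_co (A : Set (ℤ × ℤ)) (m : ℤ × ℤ → ℝ≥0∞) (d : ℤ × ℤ → ℂ) (e : ℂ) (gd : ℤ × ℤ → Prop) :
    Set (ℤ × ℤ) :=
  {z | z ∈ A ∧ gd z ∧ ‖d z - e‖ ≤ 1 / 10 ∧ ∀ z' ∈ A, z' ∈ box z 24 → m z' ≤ 64 * m z}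

theorem le_tsum_box_co (P : ℤ × ℤ → ℝ≥0∞) {z z' : ℤ × ℤ} {j : ℕ} (h : z' ∈ box z j) :
    P z' ≤ ∑' w, (box z j).indicator P w := by
  refine le_trans ?_ (ENNReal.le_tsum z')
  rw [indicator_of_mem h]

theorem chain_bound_co {c Mt : ℝ≥0∞} (hMt : Mt ≠ ⊤) {A : Set (ℤ × ℤ)} {m B : ℤ × ℤ → ℝ≥0∞}
    {d : ℤ × ℤ → ℂ} {e : ℂ} {gd : ℤ × ℤ → Prop} (hm : ∀ z, m z ≤ Mt)
    (h4 : ∀ z, ∀ z' ∈ box z 24, m z * ENNReal.ofReal (‖d z - d z'‖ ^ 2) ≤ c * (B z + B z'))
    (h5 : ∀ z, ¬ gd z → m z ≤ c * B z) {z : ℤ × ℤ} (hz : z ∈ A) (hg : gd z)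
    (hd : ‖d z - e‖ ≤ 1 / 20) :
    ∃ l : ℕ, 16 ^ l * m z ≤ (3200 * c + 64) *
      ∑' w, (box z (24 * (l + 1))).indicator
        (fun w => (Anch_co A m d e gd).indicator m w + B w) w := by
  by_contra hcon
  push Not at hcon
  set P : ℤ × ℤ → ℝ≥0∞ := fun w => (Anch_co A m d e gd).indicator m w + B w with hP
  have hBP : ∀ w, B w ≤ P w := fun w => le_add_self
  have key : ∀ l : ℕ, ∃ w, w ∈ A ∧ w ∈ box z (24 * l) ∧ gd w ∧
      ‖d w - e‖ ≤ (2 - (1 / 2) ^ l) / 20 ∧ 64 ^ l * m z ≤ m w := by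
    intro l
    induction l with
    | zero => exact ⟨z, hz, self_mem_box _ _, hg, by norm_num; linarith, by simp⟩
    | succ l ih =>
      obtain ⟨w, hwA, hwb, hwg, hwd, hwm⟩ := ih
      have hcl := hcon l
      set T := ∑' w, (box z (24 * (l + 1))).indicator P w with hT
      have hwb' : w ∈ box z (24 * (l + 1)) := box_mono z (by omega) hwb
      have h16 : 16 ^ l * m z ≤ m w := le_trans (by gcongr; norm_num) hwm
      have hpos : (0 : ℝ) < (1 / 2) ^ l := by positivity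
      have hna : w ∉ Anch_co A m d e gd := by
        intro ha
        have h1 : m w ≤ P w := by
          simp only [hP, indicator_of_mem ha]; exact le_self_add
        have h2 : P w ≤ T := le_tsum_box_co P hwb'
        have h3 : T ≤ (3200 * c + 64) * T := by
          calc T = 1 * T := (one_mul T).symm
            _ ≤ (3200 * c + 64) * T := by
              gcongr; exact le_trans (by norm_num) le_add_self
        exact absurd (h16.trans (h1.trans (h2.trans h3))) (not_le.2 hcl)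
      have : ∃ w' ∈ A, w' ∈ box w 24 ∧ 64 * m w < m w' := by
        by_contra hc
        push Not at hc
        exact hna ⟨hwA, hwg, by linarith, hc⟩
      obtain ⟨w', hw'A, hw'b, hw'm⟩ := this
      have hw'b' : w' ∈ box z (24 * (l + 1)) := by
        have := mem_box_trans hwb hw'b
        rwa [show 24 * l + 24 = 24 * (l + 1) by ring] at this
      have hBw : B w ≤ T := (hBP w).trans (le_tsum_box_co P hwb')
      have hBw' : B w' ≤ T := (hBP w').trans (le_tsum_box_co P hw'b')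
      have hmm : m w ≤ m w' := by
        refine le_trans ?_ hw'm.le
        calc m w = 1 * m w := (one_mul _).symm
          _ ≤ 64 * m w := by gcongr; norm_num
      have hg' : gd w' := by
        by_contra hc
        have h1 := h5 w' hc
        have h2 : c * B w' ≤ (3200 * c + 64) * T := by
          gcongr
          calc c = 1 * c := (one_mul c).symm
            _ ≤ 3200 * c := by gcongr; norm_num
            _ ≤ _ := le_self_add
        exact absurd (h16.trans (hmm.trans (h1.trans h2))) (not_le.2 hcl)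
      have hd' : ‖d w - d w'‖ ≤ (1 / 2) ^ (l + 1) / 20 := by
        by_contra hc
        push Not at hc
        have h1 := h4 w w' hw'b
        have h2 : ENNReal.ofReal (((1 / 2) ^ (l + 1) / 20) ^ 2)
            ≤ ENNReal.ofReal (‖d w - d w'‖ ^ 2) := by
          apply ENNReal.ofReal_le_ofReal; gcongr
        have h3 : (16 : ℝ≥0∞) ^ l
            = 1600 * (64 ^ l * ENNReal.ofReal (((1 / 2) ^ (l + 1) / 20) ^ 2)) := by
          have e1 : (16 : ℝ≥0∞) ^ l = ENNReal.ofReal (16 ^ l) := by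
            rw [ENNReal.ofReal_pow (by norm_num)]; norm_num
          have e2 : (64 : ℝ≥0∞) ^ l = ENNReal.ofReal (64 ^ l) := by
            rw [ENNReal.ofReal_pow (by norm_num)]; norm_num
          have e3 : (1600 : ℝ≥0∞) = ENNReal.ofReal 1600 := by norm_num
          rw [e1, e2, e3, ← ENNReal.ofReal_mul (by positivity), ← ENNReal.ofReal_mul (by positivity)]
          congr 1
          have : (64 : ℝ) ^ l * ((1 / 2) ^ l) ^ 2 = 16 ^ l := by
            rw [← pow_mul, mul_comm l 2, pow_mul, ← mul_pow]; norm_num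
          rw [← this]; ring
        have h6 : 16 ^ l * m z ≤ (3200 * c + 64) * T := by
          calc 16 ^ l * m z
              = 1600 * ((64 ^ l * m z) * ENNReal.ofReal (((1 / 2) ^ (l + 1) / 20) ^ 2)) := by
                rw [h3]; ring
            _ ≤ 1600 * (m w * ENNReal.ofReal (‖d w - d w'‖ ^ 2)) := by gcongr
            _ ≤ 1600 * (c * (B w + B w')) := by gcongr
            _ ≤ 1600 * (c * (T + T)) := by gcongr
            _ = 3200 * c * T := by ring
            _ ≤ (3200 * c + 64) * T := by gcongr; exact le_self_add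
        exact absurd h6 (not_le.2 hcl)
      refine ⟨w', hw'A, hw'b', hg', ?_, ?_⟩
      · calc ‖d w' - e‖ = ‖(d w - e) - (d w - d w')‖ := by congr 1; ring
          _ ≤ ‖d w - e‖ + ‖d w - d w'‖ := norm_sub_le _ _
          _ ≤ (2 - (1 / 2) ^ l) / 20 + (1 / 2) ^ (l + 1) / 20 := by gcongr
          _ = (2 - (1 / 2) ^ (l + 1)) / 20 := by ring
      · calc 64 ^ (l + 1) * m z = 64 * (64 ^ l * m z) := by ring
          _ ≤ 64 * m w := by gcongr
          _ ≤ m w' := hw'm.le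
  have hmz : m z ≠ 0 := by
    intro h0
    have := hcon 0
    rw [h0, mul_zero] at this
    exact absurd this (not_lt.2 zero_le)
  have hlim : Tendsto (fun l : ℕ => (64 : ℝ≥0∞) ^ l * m z) atTop (𝓝 (⊤ * m z)) :=
    ENNReal.Tendsto.mul_const (ENNReal.tendsto_pow_atTop_nhds_top_iff.2 (by norm_num))
      (Or.inl ENNReal.top_ne_zero)
  rw [ENNReal.top_mul hmz] at hlim
  have := le_of_tendsto' hlim (fun l => by
    obtain ⟨w, -, -, -, -, h⟩ := key l
    exact h.trans (hm w))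
  exact hMt (top_le_iff.1 this)

/-- the overlap constant -/
noncomputable def cS_co : ℝ≥0∞ := ∑' l : ℕ, (16 ^ l)⁻¹ * ((2 * (24 * (l + 1)) + 1 : ℕ) : ℝ≥0∞) ^ 2

theorem cS_ne_top_co : cS_co ≠ ⊤ := by
  have h : ∀ l : ℕ, ((16 : ℝ≥0∞) ^ l)⁻¹ * ((2 * (24 * (l + 1)) + 1 : ℕ) : ℝ≥0∞) ^ 2
      ≤ 49 ^ 2 * (4⁻¹ : ℝ≥0∞) ^ l := by
    intro l
    have h1 : (2 * (24 * (l + 1)) + 1 : ℕ) ≤ 49 * 2 ^ l := by
      have : l < 2 ^ l := Nat.lt_two_pow_self
      omega
    have h2 : ((2 * (24 * (l + 1)) + 1 : ℕ) : ℝ≥0∞) ≤ 49 * 2 ^ l := by exact_mod_cast h1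
    calc ((16 : ℝ≥0∞) ^ l)⁻¹ * ((2 * (24 * (l + 1)) + 1 : ℕ) : ℝ≥0∞) ^ 2
        ≤ (16 ^ l)⁻¹ * (49 * 2 ^ l) ^ 2 := by gcongr
      _ = 49 ^ 2 * ((16 ^ l)⁻¹ * 4 ^ l) := by
          rw [mul_pow, ← pow_mul, mul_comm l 2, pow_mul]; norm_num; ring
      _ = 49 ^ 2 * (4⁻¹ : ℝ≥0∞) ^ l := by
          congr 1
          rw [ENNReal.inv_pow, ← mul_pow]
          congr 1
          rw [show (16 : ℝ≥0∞) = 4 * 4 by norm_num, ENNReal.mul_inv (by norm_num) (by norm_num),
            mul_assoc, ENNReal.inv_mul_cancel (by norm_num) (by norm_num), mul_one]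
  refine ne_top_of_le_ne_top ?_ (ENNReal.tsum_le_tsum h)
  rw [ENNReal.tsum_mul_left, ENNReal.tsum_geometric]
  refine ENNReal.mul_ne_top (by norm_num) ?_
  rw [ENNReal.inv_ne_top]
  exact (tsub_pos_of_lt (by norm_num)).ne'

/-- cost of the new tops at one level -/
theorem new_cost_co {c Mt : ℝ≥0∞} (hMt : Mt ≠ ⊤) {A : Set (ℤ × ℤ)} {m B : ℤ × ℤ → ℝ≥0∞}
    {d : ℤ × ℤ → ℂ} {e : ℂ} {gd : ℤ × ℤ → Prop} (hm : ∀ z, m z ≤ Mt)
    (h4 : ∀ z, ∀ z' ∈ box z 24, m z * ENNReal.ofReal (‖d z - d z'‖ ^ 2) ≤ c * (B z + B z'))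
    (h5 : ∀ z, ¬ gd z → m z ≤ c * B z) {New : Set (ℤ × ℤ)}
    (hN : ∀ z ∈ New, z ∈ A ∧ gd z ∧
      ((∃ z' ∈ box z 24, z' ∈ Anch_co A m d e gd) ∨ ‖d z - e‖ ≤ 1 / 20)) :
    ∑' z, New.indicator m z
      ≤ (3200 * c + 64) * cS_co * (∑' z, (Anch_co A m d e gd).indicator m z + ∑' z, B z) := by
  set P : ℤ × ℤ → ℝ≥0∞ := fun w => (Anch_co A m d e gd).indicator m w + B w with hP
  have h1 : ∀ z, New.indicator m z ≤ (3200 * c + 64) *
      ∑' l : ℕ, (16 ^ l)⁻¹ * ∑' w, (box z (24 * (l + 1))).indicator P w := by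
    intro z
    by_cases hz : z ∈ New
    swap
    · rw [indicator_of_notMem hz]; exact zero_le
    rw [indicator_of_mem hz]
    obtain ⟨hzA, hzg, hz'⟩ := hN z hz
    have : ∃ l : ℕ, 16 ^ l * m z ≤ (3200 * c + 64) *
        ∑' w, (box z (24 * (l + 1))).indicator P w := by
      rcases hz' with ⟨z', hb, ha⟩ | hd
      · refine ⟨0, ?_⟩
        have a1 : m z ≤ 64 * m z' := ha.2.2.2 z hzA (mem_box_comm.1 hb)
        have a2 : m z' ≤ P z' := by
          simp only [hP, indicator_of_mem ha]; exact le_self_add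
        have a3 : P z' ≤ ∑' w, (box z (24 * (0 + 1))).indicator P w := le_tsum_box_co P hb
        calc 16 ^ 0 * m z = m z := by simp
          _ ≤ 64 * m z' := a1
          _ ≤ (3200 * c + 64) * ∑' w, (box z (24 * (0 + 1))).indicator P w := by
            gcongr
            · exact le_add_self
            · exact a2.trans a3
      · exact chain_bound_co hMt hm h4 h5 hzA hzg hd
    obtain ⟨l, hl⟩ := this
    calc m z = (16 ^ l)⁻¹ * (16 ^ l * m z) := by
          rw [← mul_assoc, ENNReal.inv_mul_cancel (by simp) (by simp), one_mul]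
      _ ≤ (16 ^ l)⁻¹ * ((3200 * c + 64) * ∑' w, (box z (24 * (l + 1))).indicator P w) := by gcongr
      _ = (3200 * c + 64) * ((16 ^ l)⁻¹ * ∑' w, (box z (24 * (l + 1))).indicator P w) := by ring
      _ ≤ _ := by
          gcongr
          exact ENNReal.le_tsum (f := fun l : ℕ =>
            ((16 : ℝ≥0∞) ^ l)⁻¹ * ∑' w, (box z (24 * (l + 1))).indicator P w) l
  calc ∑' z, New.indicator m z
      ≤ ∑' z, (3200 * c + 64) *
          ∑' l : ℕ, (16 ^ l)⁻¹ * ∑' w, (box z (24 * (l + 1))).indicator P w :=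
        ENNReal.tsum_le_tsum h1
    _ = (3200 * c + 64) *
          ∑' l : ℕ, (16 ^ l)⁻¹ * ∑' z, ∑' w, (box z (24 * (l + 1))).indicator P w := by
        rw [ENNReal.tsum_mul_left, ENNReal.tsum_comm]
        simp only [ENNReal.tsum_mul_left]
    _ ≤ (3200 * c + 64) *
          ∑' l : ℕ, (16 ^ l)⁻¹ * (((2 * (24 * (l + 1)) + 1 : ℕ) : ℝ≥0∞) ^ 2 * ∑' z, P z) := by
        gcongr with l
        exact tsum_tsum_box_le P _
    _ = (3200 * c + 64) * cS_co * ∑' z, P z := by
        unfold cS_co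
        rw [mul_assoc, ← ENNReal.tsum_mul_right]
        simp only [mul_assoc]
    _ = _ := by rw [hP, ENNReal.tsum_add]

theorem nbhd_mono_co {A A' : Set (ℤ × ℤ)} (h : A ⊆ A') {i j : ℕ} (hij : i ≤ j) :
    nbhd A i ⊆ nbhd A' j := fun _ ⟨z, hz, hw⟩ => ⟨z, h hz, box_mono z hij hw⟩

theorem measure_nbhd_le_co (μ : Measure (ℤ × ℤ)) (A : Set (ℤ × ℤ)) (j : ℕ) :
    μ (nbhd A j) ≤ ∑' z, A.indicator (fun z => μ (box z j)) z := by
  have : nbhd A j = ⋃ z, ⋃ _ : z ∈ A, box z j := by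
    ext w; simp [nbhd]
  rw [this]
  refine (measure_iUnion_le _).trans (ENNReal.tsum_le_tsum fun z => ?_)
  by_cases hz : z ∈ A <;> simp [hz]

theorem corona (c : ℝ≥0∞) (hc : c ≠ ⊤) : ∃ C : ℝ≥0∞, C ≠ ⊤ ∧
    ∀ (n : ℕ) (m B : ℕ → ℤ × ℤ → ℝ≥0∞) (d : ℕ → ℤ × ℤ → ℂ) (e : ℂ) (gd : ℕ → ℤ × ℤ → Prop)
      (μ : ℕ → Measure (ℤ × ℤ)) (bud : ℕ → ℝ≥0∞) (Mt : ℝ≥0∞),
      Mt ≠ ⊤ → (∀ k z, m k z ≤ Mt) →
      (∀ k A, μ k (nbhd (par ⁻¹' A) 18) ≤ μ (k + 1) (nbhd A 6) + bud k) →
      (∀ k z, gd k z → ‖d k z - e‖ ≤ 1 / 10 → m k z ≤ c * μ k (box z 18)) →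
      (∀ k z, ¬ (gd k z ∧ ‖d k z - e‖ ≤ 3 / 20) → μ k (box z 6) ≤ c * B k z) →
      (∀ k z, ∀ z' ∈ box z 24,
        m k z * ENNReal.ofReal (‖d k z - d k z'‖ ^ 2) ≤ c * (B k z + B k z')) →
      (∀ k z, ¬ gd k z → m k z ≤ c * B k z) →
      ∃ Tops : Set (ℕ × (ℤ × ℤ)),
        (∀ R ∈ Tops, R.1 < n ∧ gd R.1 R.2 ∧ ‖d R.1 R.2 - e‖ ≤ 3 / 20) ∧
        (∀ k z, k < n → gd k z → ‖d k z - e‖ ≤ 1 / 20 →
          ∃ R ∈ Tops, InTree (fun k z => gd k z ∧ ‖d k z - e‖ ≤ 3 / 20) R (k, z)) ∧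
        (∀ R ∈ Tops, ∀ R' ∈ Tops, ∀ Q,
          InTree (fun k z => gd k z ∧ ‖d k z - e‖ ≤ 3 / 20) R Q →
          InTree (fun k z => gd k z ∧ ‖d k z - e‖ ≤ 3 / 20) R' Q → R = R') ∧
        ∑' R, Tops.indicator (fun R => m R.1 R.2) R
          ≤ C * (μ n univ + ∑ k ∈ Finset.range n, bud k + ∑ k ∈ Finset.range n, ∑' z, B k z) := by
  set C1 : ℝ≥0∞ := (3200 * c + 64) * cS_co with hC1
  set K : ℝ≥0∞ := C1 * (c * ((2 * 18 + 1 : ℕ) : ℝ≥0∞) ^ 2) with hK
  set K' : ℝ≥0∞ := K * c + C1 with hK'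
  have hC1t : C1 ≠ ⊤ := ENNReal.mul_ne_top (by finiteness) cS_ne_top_co
  have hKt : K ≠ ⊤ := by finiteness
  have hK't : K' ≠ ⊤ := by finiteness
  refine ⟨K + K', by finiteness, ?_⟩
  intro n m B d e gd μ bud Mt hMt hm h1 h2 h3 h4 h5
  set gw : ℕ → ℤ × ℤ → Prop := fun k z => gd k z ∧ ‖d k z - e‖ ≤ 3 / 20 with hgw
  have main : ∀ i k, k + i = n → ∃ Tops : Set (ℕ × (ℤ × ℤ)),
      (∀ R ∈ Tops, k ≤ R.1 ∧ R.1 < n ∧ gw R.1 R.2) ∧
      (∀ j z, k ≤ j → j < n → gd j z → ‖d j z - e‖ ≤ 1 / 20 → ∃ R ∈ Tops, InTree gw R (j, z)) ∧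
      (∀ R ∈ Tops, ∀ R' ∈ Tops, ∀ Q, InTree gw R Q → InTree gw R' Q → R = R') ∧
      ∑' R, Tops.indicator (fun R => m R.1 R.2) R
          + K * μ k (nbhd {z | ¬ ∃ R ∈ Tops, InTree gw R (k, z)} 6)
        ≤ K * (μ n univ + ∑ j ∈ Finset.Ico k n, bud j)
          + K' * ∑ j ∈ Finset.Ico k n, ∑' z, B j z := by
    intro i
    induction i with
    | zero =>
      intro k hk
      rw [add_zero] at hk
      subst hk
      refine ⟨∅, by simp, fun j z h h' => by omega, by simp, ?_⟩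
      simp only [indicator_empty, tsum_zero, zero_add, Finset.Ico_self, Finset.sum_empty, add_zero,
        mul_zero]
      gcongr
      exact subset_univ _
    | succ i ih =>
      intro k hk
      have hkn : k < n := by omega
      obtain ⟨T', a', b', c', d'⟩ := ih (k + 1) (by omega)
      set Al' : Set (ℤ × ℤ) := {z | ¬ ∃ R ∈ T', InTree gw R (k + 1, z)} with hAl'
      set A : Set (ℤ × ℤ) := par ⁻¹' Al' with hA
      set An := Anch_co A (m k) (d k) e (gd k) with hAn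
      set New : Set (ℤ × ℤ) :=
        {z | z ∈ A ∧ gw k z ∧ ((∃ z' ∈ box z 24, z' ∈ An) ∨ ‖d k z - e‖ ≤ 1 / 20)} with hNew
      set T : Set (ℕ × (ℤ × ℤ)) := T' ∪ (fun z => (k, z)) '' New with hT
      have capt : ∀ z, gw k z → z ∉ A → ∃ R ∈ T, InTree gw R (k, z) := by
        intro z hz hzA
        have : ∃ R ∈ T', InTree gw R (k + 1, par z) := by
          by_contra hcon; exact hzA hcon
        obtain ⟨R, hR, hR'⟩ := this
        exact ⟨R, Or.inl hR, (inTree_iff (a' R hR).1).2 ⟨hz, hR'⟩⟩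
      have captN : ∀ z ∈ New, ∃ R ∈ T, InTree gw R (k, z) := fun z hz =>
        ⟨(k, z), Or.inr ⟨z, hz, rfl⟩, InTree.refl hz.2.1⟩
      have mixed : ∀ R ∈ T', ∀ z ∈ New, ∀ Q, InTree gw R Q → InTree gw (k, z) Q → False := by
        intro R hR z hz Q hQ hQ'
        have e1 : Q.1 ≤ k := hQ'.1
        have e2 : par^[k - Q.1] Q.2 = z := hQ'.2.1
        have := hQ.anc (j := k + 1) (by omega) (a' R hR).1
        rw [show k + 1 - Q.1 = (k - Q.1) + 1 by omega, Function.iterate_succ_apply', e2] at this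
        exact hz.1 ⟨R, hR, this⟩
      refine ⟨T, ?_, ?_, ?_, ?_⟩
      · rintro R (hR | ⟨z, hz, rfl⟩)
        · obtain ⟨x1, x2, x3⟩ := a' R hR
          exact ⟨by omega, x2, x3⟩
        · exact ⟨le_rfl, hkn, hz.2.1⟩
      · intro j z hj hjn hg hd
        rcases hj.eq_or_lt with rfl | hj
        · have hw : gw k z := ⟨hg, by linarith⟩
          by_cases hzA : z ∈ A
          · exact captN z ⟨hzA, hw, Or.inr hd⟩
          · exact capt z hw hzA
        · obtain ⟨R, hR, hR'⟩ := b' j z hj hjn hg hd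
          exact ⟨R, Or.inl hR, hR'⟩
      · rintro R (hR | ⟨z, hz, rfl⟩) R' (hR' | ⟨z', hz', rfl⟩) Q hQ hQ'
        · exact c' R hR R' hR' Q hQ hQ'
        · exact (mixed R hR z' hz' Q hQ hQ').elim
        · exact (mixed R' hR' z hz Q hQ' hQ).elim
        · have e1 : par^[k - Q.1] Q.2 = z := hQ.2.1
          have e2 : par^[k - Q.1] Q.2 = z' := hQ'.2.1
          rw [← e1, ← e2]
      · set Old : Set (ℤ × ℤ) := {z | z ∈ A ∧ gw k z ∧ z ∉ New} with hOld
        -- cost of the tops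
        have s1 : ∑' R, T.indicator (fun R => m R.1 R.2) R
            ≤ ∑' R, T'.indicator (fun R => m R.1 R.2) R + ∑' z, New.indicator (m k) z := by
          have e1 : ∑' z, New.indicator (m k) z
              = ∑' R, ((fun z => (k, z)) '' New).indicator (fun R : ℕ × (ℤ × ℤ) => m R.1 R.2) R := by
            rw [← tsum_subtype, ← tsum_subtype,
              tsum_image (fun R : ℕ × (ℤ × ℤ) => m R.1 R.2)
                (fun a _ b _ h => (Prod.ext_iff.1 h).2)]
          rw [e1, ← ENNReal.tsum_add]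
          refine ENNReal.tsum_le_tsum fun R => ?_
          by_cases hR : R ∈ T
          · rw [indicator_of_mem hR]
            rcases hR with hR | hR
            · rw [indicator_of_mem hR]; exact le_self_add
            · rw [indicator_of_mem hR]; exact le_add_self
          · rw [indicator_of_notMem hR]; exact zero_le
        have s2 : ∑' z, New.indicator (m k) z
            ≤ C1 * (∑' z, An.indicator (m k) z + ∑' z, B k z) :=
          new_cost_co hMt (hm k) (h4 k) (h5 k) (fun z hz => ⟨hz.1, hz.2.1.1, hz.2.2⟩)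
        have s3 : ∑' z, An.indicator (m k) z
            ≤ c * (((2 * 18 + 1 : ℕ) : ℝ≥0∞) ^ 2 * μ k (nbhd An 18)) := by
          refine le_trans ?_ (mul_le_mul_right (tsum_measure_box_le (μ k) An 18) c)
          rw [← ENNReal.tsum_mul_left]
          refine ENNReal.tsum_le_tsum fun z => ?_
          by_cases hz : z ∈ An
          · rw [indicator_of_mem hz, indicator_of_mem hz]
            exact h2 k z hz.2.1 hz.2.2.1
          · rw [indicator_of_notMem hz]; exact zero_le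
        have s4 : μ k (nbhd {z | ¬ ∃ R ∈ T, InTree gw R (k, z)} 6)
            ≤ μ k (nbhd Old 6) + c * ∑' z, B k z := by
          have sub : nbhd {z | ¬ ∃ R ∈ T, InTree gw R (k, z)} 6
              ⊆ nbhd Old 6 ∪ nbhd {z | ¬ gw k z} 6 := by
            rintro w ⟨z, hz, hw⟩
            by_cases hg : gw k z
            · left
              refine ⟨z, ⟨?_, hg, fun hN => hz (captN z hN)⟩, hw⟩
              by_contra hzA
              exact hz (capt z hg hzA)
            · exact Or.inr ⟨z, hg, hw⟩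
          refine (measure_mono sub).trans ((measure_union_le _ _).trans ?_)
          gcongr
          refine (measure_nbhd_le_co _ _ _).trans ?_
          rw [← ENNReal.tsum_mul_left]
          refine ENNReal.tsum_le_tsum fun z => ?_
          by_cases hz : z ∈ {z | ¬ gw k z}
          · rw [indicator_of_mem hz]; exact h3 k z hz
          · rw [indicator_of_notMem hz]; exact zero_le
        have s5 : μ k (nbhd Old 6) + μ k (nbhd An 18) ≤ μ (k + 1) (nbhd Al' 6) + bud k := by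
          refine le_trans ?_ (h1 k Al')
          rw [← measure_union ?_ MeasurableSet.of_discrete]
          · apply measure_mono
            exact union_subset (nbhd_mono_co (fun z hz => hz.1) (by norm_num))
              (nbhd_mono_co (fun z hz => hz.1) le_rfl)
          · rw [Set.disjoint_left]
            rintro w ⟨z, hz, hw⟩ ⟨z', hz', hw'⟩
            exact hz.2.2 ⟨hz.1, hz.2.1, Or.inl ⟨z', mem_box_trans hw (mem_box_comm.1 hw'), hz'⟩⟩
        rw [Finset.sum_eq_sum_Ico_succ_bot hkn, Finset.sum_eq_sum_Ico_succ_bot hkn]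
        calc ∑' R, T.indicator (fun R => m R.1 R.2) R
              + K * μ k (nbhd {z | ¬ ∃ R ∈ T, InTree gw R (k, z)} 6)
            ≤ (∑' R, T'.indicator (fun R => m R.1 R.2) R
                + C1 * (c * (((2 * 18 + 1 : ℕ) : ℝ≥0∞) ^ 2 * μ k (nbhd An 18)) + ∑' z, B k z))
              + K * (μ k (nbhd Old 6) + c * ∑' z, B k z) := by
              gcongr
              exact s1.trans (by gcongr; exact s2.trans (by gcongr))
          _ = ∑' R, T'.indicator (fun R => m R.1 R.2) R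
              + K * (μ k (nbhd Old 6) + μ k (nbhd An 18)) + K' * ∑' z, B k z := by
              rw [hK', hK]; ring
          _ ≤ ∑' R, T'.indicator (fun R => m R.1 R.2) R
              + K * (μ (k + 1) (nbhd Al' 6) + bud k) + K' * ∑' z, B k z := by gcongr
          _ = (∑' R, T'.indicator (fun R => m R.1 R.2) R + K * μ (k + 1) (nbhd Al' 6))
              + K * bud k + K' * ∑' z, B k z := by ring
          _ ≤ (K * (μ n univ + ∑ j ∈ Finset.Ico (k + 1) n, bud j)
              + K' * ∑ j ∈ Finset.Ico (k + 1) n, ∑' z, B j z)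
              + K * bud k + K' * ∑' z, B k z := by gcongr
          _ = _ := by ring
  obtain ⟨T, a, b, c', d'⟩ := main n 0 (zero_add n)
  refine ⟨T, fun R hR => (a R hR).2, fun k z hk => b k z (Nat.zero_le k) hk, c', ?_⟩
  rw [← Finset.range_eq_Ico] at d'
  calc ∑' R, T.indicator (fun R => m R.1 R.2) R ≤ _ := le_self_add
    _ ≤ _ := d'
    _ ≤ (K + K') * (μ n univ + ∑ j ∈ Finset.range n, bud j)
          + (K + K') * ∑ j ∈ Finset.range n, ∑' z, B j z := by
        gcongr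
        · exact le_self_add
        · exact le_add_self
    _ = _ := by ring

end Crest.Agent.R112
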