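import Crest.Agent.R112.Basic

/-! # Row 112: lattices of squares (task L1) -/

open MeasureTheory Set Filter Topology Metric
open scoped ENNReal NNReal RealInnerProductSpace

namespace Crest.Agent.R112

theorem measurable_cellOf (s : ℝ) : Measurable (cellOf s) := by
  unfold cellOf
  exact ((Complex.measurable_re.div_const s).floor).prodMk (Complex.measurable_im.div_const s).floor

theorem measurableSet_boxSet (s : ℝ) (z : ℤ × ℤ) (j : ℕ) : MeasurableSet (boxSet s z j) := by
  exact measurable_cellOf s (MeasurableSet.of_discrete (s := box z j))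

theorem self_mem_box (z : ℤ × ℤ) (j : ℕ) : z ∈ box z j := by
  simp [box]
theorem mem_box_comm {z z' : ℤ × ℤ} {j : ℕ} : z' ∈ box z j ↔ z ∈ box z' j := by
  simp only [box, mem_ofPred_eq, abs_sub_comm z'.1, abs_sub_comm z'.2]
theorem box_mono (z : ℤ × ℤ) {i j : ℕ} (h : i ≤ j) : box z i ⊆ box z j := by
  intro z' hz'
  simp only [box, mem_ofPred_eq, abs_le] at hz' ⊢
  omega
theorem mem_box_trans {z z' z'' : ℤ × ℤ} {i j : ℕ} (h : z' ∈ box z i) (h' : z'' ∈ box z' j) :
    z'' ∈ box z (i + j) := by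
  simp only [box, mem_ofPred_eq, abs_le] at h h' ⊢
  push_cast
  omega
theorem box_finite (z : ℤ × ℤ) (j : ℕ) : (box z j).Finite := by
  refine ((Set.finite_Icc (z.1 - j) (z.1 + j)).prod (Set.finite_Icc (z.2 - j) (z.2 + j))).subset ?_
  intro z' hz'
  simp only [box, mem_ofPred_eq, abs_le, mem_prod, mem_Icc] at hz' ⊢
  omega
theorem box_zero (z : ℤ × ℤ) : box z 0 = {z} := by
  ext z'
  simp only [box, mem_ofPred_eq, abs_le, mem_singleton_iff, Prod.ext_iff]
  push_cast
  omega

theorem lattice_tsum_box (z : ℤ × ℤ) (j : ℕ) (c : ℝ≥0∞) :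
    ∑' z', (box z j).indicator (fun _ => c) z' = ((2 * j + 1 : ℕ) : ℝ≥0∞) ^ 2 * c := by
  have hmem : ∀ z', z' ∈ Finset.Icc (z.1 - j) (z.1 + j) ×ˢ Finset.Icc (z.2 - j) (z.2 + j) ↔
      z' ∈ box z j := by
    intro z'
    simp only [box, mem_ofPred_eq, abs_le, Finset.mem_product, Finset.mem_Icc]
    omega
  rw [tsum_eq_sum (s := Finset.Icc (z.1 - j) (z.1 + j) ×ˢ Finset.Icc (z.2 - j) (z.2 + j))
    fun z' hz' => indicator_of_notMem (fun h => hz' ((hmem z').mpr h)) _,
    Finset.sum_congr rfl fun z' hz' => indicator_of_mem ((hmem z').mp hz') _,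
    Finset.sum_const, Finset.card_product, Int.card_Icc, Int.card_Icc, nsmul_eq_mul]
  have h1 : ∀ a : ℤ, (a + j + 1 - (a - j)).toNat = 2 * j + 1 := fun a => by omega
  rw [h1, h1, Nat.cast_mul (2 * j + 1), sq]

/-- bounded overlap for sums over boxes -/
theorem tsum_tsum_box_le (P : ℤ × ℤ → ℝ≥0∞) (j : ℕ) :
    ∑' z, ∑' z', (box z j).indicator P z' ≤ ((2 * j + 1 : ℕ) : ℝ≥0∞) ^ 2 * ∑' z, P z := by
  rw [ENNReal.tsum_comm, ← ENNReal.tsum_mul_left]
  refine ENNReal.tsum_le_tsum fun z' => le_of_eq ?_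
  rw [← lattice_tsum_box z' j (P z')]
  refine tsum_congr fun z => ?_
  by_cases h : z' ∈ box z j
  · rw [indicator_of_mem h, indicator_of_mem (mem_box_comm.mp h)]
  · rw [indicator_of_notMem h, indicator_of_notMem fun h' => h (mem_box_comm.mp h')]

/-- bounded overlap for measures on the lattice -/
theorem tsum_measure_box_le (μ : Measure (ℤ × ℤ)) (A : Set (ℤ × ℤ)) (j : ℕ) :
    ∑' z, A.indicator (fun z => μ (box z j)) z ≤ ((2 * j + 1 : ℕ) : ℝ≥0∞) ^ 2 * μ (nbhd A j) := by
  have h1 : ∀ z, A.indicator (fun z => μ (box z j)) z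
      = ∫⁻ z', A.indicator (fun z => (box z j).indicator 1 z') z ∂μ := by
    intro z
    by_cases h : z ∈ A
    · simp only [indicator_of_mem h]
      rw [lintegral_indicator_one MeasurableSet.of_discrete]
    · simp only [indicator_of_notMem h, lintegral_zero]
  simp_rw [h1]
  rw [← lintegral_tsum fun z => Measurable.of_discrete.aemeasurable,
    ← lintegral_indicator_const MeasurableSet.of_discrete]
  refine lintegral_mono fun z' => ?_
  by_cases h : z' ∈ nbhd A j
  · rw [indicator_of_mem h, ← mul_one (_ ^ 2), ← lattice_tsum_box z' j 1]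
    refine ENNReal.tsum_le_tsum fun z => ?_
    by_cases h2 : z' ∈ box z j
    · rw [indicator_of_mem (mem_box_comm.mp h2)]
      exact (indicator_le_self _ _ _).trans (indicator_le_self _ _ _)
    · refine (indicator_le_self _ _ _).trans ?_
      simp only [indicator_of_notMem h2, zero_le]
  · rw [indicator_of_notMem h]
    refine le_of_eq (ENNReal.tsum_eq_zero.mpr fun z => ?_)
    by_cases h2 : z ∈ A
    · rw [indicator_of_mem h2, indicator_of_notMem fun h3 => h ⟨z, h2, h3⟩]
    · rw [indicator_of_notMem h2]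

/-- bounded overlap for integrals over box sets -/
theorem tsum_lintegral_boxSet_le (s : ℝ) (j : ℕ) (φ : ℂ → ℝ≥0∞) (hφ : Measurable φ) :
    ∑' z, ∫⁻ y in boxSet s z j, φ y ≤ ((2 * j + 1 : ℕ) : ℝ≥0∞) ^ 2 * ∫⁻ y, φ y := by
  simp_rw [← lintegral_indicator (measurableSet_boxSet s _ j)]
  rw [← lintegral_tsum fun z => (hφ.indicator (measurableSet_boxSet s z j)).aemeasurable,
    ← lintegral_const_mul _ hφ]
  refine lintegral_mono fun y => le_of_eq ?_
  rw [← lattice_tsum_box (cellOf s y) j (φ y)]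
  refine tsum_congr fun z => ?_
  by_cases h : y ∈ boxSet s z j
  · rw [indicator_of_mem h, indicator_of_mem (mem_box_comm.mp h)]
  · rw [indicator_of_notMem h, indicator_of_notMem fun h' => h (mem_box_comm.mp h')]

/-- the squares partition the plane -/
theorem tsum_lintegral_cell (s : ℝ) (φ : ℂ → ℝ≥0∞) :
    ∑' z, ∫⁻ y in boxSet s z 0, φ y = ∫⁻ y, φ y := by
  rw [← lintegral_iUnion (fun z => measurableSet_boxSet s z 0)]
  · have : ⋃ z, boxSet s z 0 = univ :=
      eq_univ_of_forall fun y => mem_iUnion.mpr ⟨cellOf s y, self_mem_box _ _⟩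
    rw [this, Measure.restrict_univ]
  · intro z z' hne
    refine Set.disjoint_left.mpr fun y h h' => hne ?_
    simp only [boxSet, box_zero, mem_ofPred_eq, mem_singleton_iff] at h h'
    rw [← h, h']

theorem volume_cell {s : ℝ} (hs : 0 < s) (z : ℤ × ℤ) :
    volume (boxSet s z 0) = ENNReal.ofReal (s ^ 2) := by
  have h1 : boxSet s z 0 = Complex.measurableEquivRealProd ⁻¹'
      (Ico (z.1 * s) ((z.1 + 1) * s) ×ˢ Ico (z.2 * s) ((z.2 + 1) * s)) := by
    ext y
    simp only [boxSet, box_zero, mem_ofPred_eq, mem_singleton_iff, cellOf, Prod.ext_iff,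
      Int.floor_eq_iff, le_div_iff₀ hs, div_lt_iff₀ hs, mem_preimage, mem_prod, mem_Ico,
      Complex.measurableEquivRealProd_apply]
  rw [h1, Complex.volume_preserving_equiv_real_prod.measure_preimage_equiv, Measure.volume_eq_prod,
    Measure.prod_prod, Real.volume_Ico, Real.volume_Ico, ← ENNReal.ofReal_mul (by linarith)]
  congr 1
  ring

theorem cellOf_corner {s : ℝ} (hs : 0 < s) (z : ℤ × ℤ) : cellOf s (corner s z) = z := by
  simp only [cellOf, corner, mul_div_cancel_left₀ _ hs.ne', Int.floor_intCast]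

/-- points of a square are close to its corner -/
theorem norm_sub_corner_le {s : ℝ} (hs : 0 < s) (y : ℂ) :
    ‖y - corner s (cellOf s y)‖ ≤ 71 / 50 * s := by
  have key : ∀ a : ℝ, |a - s * ⌊a / s⌋| ≤ s := by
    intro a
    have h1 := (le_div_iff₀ hs).mp (Int.floor_le (a / s))
    have h2 := (div_lt_iff₀ hs).mp (Int.lt_floor_add_one (a / s))
    rw [abs_le]; constructor <;> linarith
  refine (pow_le_pow_iff_left₀ (norm_nonneg _) (by positivity) two_ne_zero).mp ?_
  rw [Complex.sq_norm, Complex.normSq_apply]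
  simp only [Complex.sub_re, Complex.sub_im, corner, cellOf]
  have h1 := abs_le.mp (key y.re)
  have h2 := abs_le.mp (key y.im)
  nlinarith [mul_self_le_mul_self (abs_nonneg _) (key y.re),
    mul_self_le_mul_self (abs_nonneg _) (key y.im), abs_mul_abs_self (y.re - s * ⌊y.re / s⌋),
    abs_mul_abs_self (y.im - s * ⌊y.im / s⌋), mul_pos hs hs]

/-- moving by at most `i s` moves the square index by at most `i` -/
theorem cellOf_mem_box {s : ℝ} (hs : 0 < s) {y y' : ℂ} {i : ℕ} (h : ‖y' - y‖ ≤ i * s) :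
    cellOf s y' ∈ box (cellOf s y) i := by
  have key : ∀ a a' : ℝ, a' - a ≤ i * s → ⌊a' / s⌋ ≤ ⌊a / s⌋ + i := by
    intro a a' h
    rw [← Int.floor_add_natCast]
    refine Int.floor_mono ?_
    rw [div_add' _ _ _ hs.ne', div_le_div_iff_of_pos_right hs]
    linarith
  have h1 := abs_le.mp ((Complex.abs_re_le_norm _).trans h)
  have h2 := abs_le.mp ((Complex.abs_im_le_norm _).trans h)
  simp only [Complex.sub_re, Complex.sub_im] at h1 h2
  have k1 := key y.re y'.re h1.2
  have k2 := key y'.re y.re (by linarith [h1.1])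
  have k3 := key y.im y'.im h2.2
  have k4 := key y'.im y.im (by linarith [h2.1])
  simp only [box, cellOf, mem_ofPred_eq, abs_le]
  omega

theorem ball_subset_boxSet {s : ℝ} (hs : 0 < s) (z : ℤ × ℤ) (j : ℕ) :
    ball (corner s z) (j * s) ⊆ boxSet s z j := by
  intro y hy
  have := cellOf_mem_box hs (i := j) (mem_ball_iff_norm.mp hy).le
  rwa [cellOf_corner hs] at this

/-- a box set is contained in a ball around any point of the central square -/
theorem norm_sub_lt_of_boxSet {s : ℝ} (hs : 0 < s) {z : ℤ × ℤ} {j : ℕ} {y y' : ℂ}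
    (hy : cellOf s y = z) (hy' : y' ∈ boxSet s z j) : ‖y' - y‖ < 3 / 2 * (j + 1) * s := by
  subst hy
  have key : ∀ a a' : ℝ, ⌊a' / s⌋ - ⌊a / s⌋ ≤ j → a' - a ≤ (j + 1) * s := by
    intro a a' h
    have h1 := (le_div_iff₀ hs).mp (Int.floor_le (a / s))
    have h2 := (div_lt_iff₀ hs).mp (Int.lt_floor_add_one (a' / s))
    have h3 : (⌊a' / s⌋ : ℝ) - ⌊a / s⌋ ≤ j := by exact_mod_cast h
    nlinarith
  simp only [boxSet, box, cellOf, mem_ofPred_eq, abs_le] at hy'
  have k1 := key y.re y'.re hy'.1.2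
  have k2 := key y'.re y.re (by omega)
  have k3 := key y.im y'.im hy'.2.2
  have k4 := key y'.im y.im (by omega)
  have hp : 0 < ((j : ℝ) + 1) * s := by positivity
  refine (pow_lt_pow_iff_left₀ (norm_nonneg _) (by positivity) two_ne_zero).mp ?_
  rw [Complex.sq_norm, Complex.normSq_apply, mul_assoc]
  simp only [Complex.sub_re, Complex.sub_im]
  generalize ((j : ℝ) + 1) * s = t at *
  have e1 : (y'.re - y.re) * (y'.re - y.re) ≤ t * t := by nlinarith
  have e2 : (y'.im - y.im) * (y'.im - y.im) ≤ t * t := by nlinarith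
  nlinarith [mul_pos hp hp]

theorem par_cellOf {s : ℝ} (hs : 0 < s) (y : ℂ) : par (cellOf s y) = cellOf (4 * s) y := by
  have key : ∀ a : ℝ, ⌊a / s⌋ / 4 = ⌊a / (4 * s)⌋ := by
    intro a
    have := Int.floor_div_natCast (a / s) 4
    rw [div_div, mul_comm] at this
    exact_mod_cast this.symm
  simp only [par, cellOf, key]

theorem iter_par_cellOf (k d : ℕ) (y : ℂ) :
    par^[d] (cellOf (4 ^ k) y) = cellOf (4 ^ (k + d)) y := by
  induction d with
  | zero => rfl
  | succ d ih =>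
    rw [Function.iterate_succ_apply', ih, par_cellOf (by positivity), ← add_assoc, pow_succ']

/-- the corner of a descendant lies in the square of the ancestor -/
theorem cellOf_corner_anc (k d : ℕ) (z : ℤ × ℤ) :
    cellOf (4 ^ (k + d)) (corner (4 ^ k) z) = par^[d] z := by
  rw [← iter_par_cellOf, cellOf_corner (by positivity)]

/-- geometric input of the corona step -/
theorem cellOf_add_mem_nbhd (k : ℕ) (A : Set (ℤ × ℤ)) {y w : ℂ}
    (hy : cellOf (4 ^ k) y ∈ nbhd (par ⁻¹' A) 18) (hw : ‖w‖ ≤ 4 ^ (k + 1)) :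
    cellOf (4 ^ (k + 1)) (y + w) ∈ nbhd A 6 := by
  obtain ⟨z, hz, hyz⟩ := hy
  refine ⟨par z, hz, ?_⟩
  have h1 : cellOf (4 ^ (k + 1)) y ∈ box (par z) 5 := by
    rw [pow_succ', ← par_cellOf (by positivity)]
    generalize cellOf (4 ^ k) y = c at hyz
    simp only [box, par, mem_ofPred_eq, abs_le] at hyz ⊢
    push_cast at hyz ⊢
    omega
  have h2 : cellOf (4 ^ (k + 1)) (y + w) ∈ box (cellOf (4 ^ (k + 1)) y) 1 :=
    cellOf_mem_box (by positivity) (by simpa using hw)
  exact mem_box_trans h1 h2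

theorem InTree.refl {gw : ℕ → ℤ × ℤ → Prop} {R : ℕ × (ℤ × ℤ)} (h : gw R.1 R.2) : InTree gw R R := by
  refine ⟨le_rfl, by simp, fun j h1 h2 => ?_⟩
  obtain rfl : j = R.1 := le_antisymm h2 h1
  simpa using h

theorem InTree.gw_self {gw : ℕ → ℤ × ℤ → Prop} {R Q : ℕ × (ℤ × ℤ)} (h : InTree gw R Q) :
    gw Q.1 Q.2 := by
  simpa using h.2.2 Q.1 le_rfl h.1

/-- ancestors up to the top stay in the tree -/
theorem InTree.anc {gw : ℕ → ℤ × ℤ → Prop} {R Q : ℕ × (ℤ × ℤ)} (h : InTree gw R Q) {j : ℕ}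
    (h1 : Q.1 ≤ j) (h2 : j ≤ R.1) : InTree gw R (j, par^[j - Q.1] Q.2) := by
  refine ⟨h2, ?_, fun i hi1 hi2 => ?_⟩
  · dsimp only
    rw [← Function.iterate_add_apply, show R.1 - j + (j - Q.1) = R.1 - Q.1 by omega]
    exact h.2.1
  · dsimp only at hi1 ⊢
    rw [← Function.iterate_add_apply, show i - j + (j - Q.1) = i - Q.1 by omega]
    exact h.2.2 i (h1.trans hi1) hi2

/-- membership in a tree through the parent -/
theorem inTree_iff {gw : ℕ → ℤ × ℤ → Prop} {R : ℕ × (ℤ × ℤ)} {k : ℕ} {z : ℤ × ℤ} (hk : k < R.1) :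
    InTree gw R (k, z) ↔ gw k z ∧ InTree gw R (k + 1, par z) := by
  constructor
  · intro h
    refine ⟨h.gw_self, ?_⟩
    simpa using h.anc (j := k + 1) (Nat.le_succ k) hk
  · rintro ⟨h1, h2⟩
    refine ⟨hk.le, ?_, fun j hj1 hj2 => ?_⟩
    · have := h2.2.1
      dsimp only at this ⊢
      rwa [← Function.iterate_succ_apply, show (R.1 - (k + 1)).succ = R.1 - k by omega] at this
    · dsimp only at hj1 ⊢
      rcases eq_or_lt_of_le hj1 with rfl | hlt
      · simpa using h1
      · have := h2.2.2 j hlt hj2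
        dsimp only at this
        rwa [← Function.iterate_succ_apply, show (j - (k + 1)).succ = j - k by omega] at this

theorem InTree.eq_of_level {gw : ℕ → ℤ × ℤ → Prop} {R Q : ℕ × (ℤ × ℤ)} (h : InTree gw R Q)
    (hk : Q.1 = R.1) : Q = R := by
  have := h.2.1
  rw [hk, Nat.sub_self] at this
  exact Prod.ext hk this

end Crest.Agent.R112
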