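import Crest.Agent.R112.Lattice

/-! # Row 112: levels, smoothing and the budget (task L2) -/

open MeasureTheory Set Filter Topology Metric
open scoped ENNReal NNReal RealInnerProductSpace

namespace Crest.Agent.R112

theorem isProb_unif {s : ℝ} (hs : 0 < s) : IsProbabilityMeasure (unif s) := by
  constructor
  unfold unif
  rw [Measure.smul_apply, Measure.restrict_apply MeasurableSet.univ, univ_inter, smul_eq_mul]
  exact ENNReal.inv_mul_cancel (measure_ball_pos _ _ hs).ne' measure_ball_lt_top.ne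

theorem unif_ae {s : ℝ} : ∀ᵐ w ∂(unif s), ‖w‖ ≤ s := by
  unfold unif
  refine Measure.ae_smul_measure ?_ _
  filter_upwards [ae_restrict_mem measurableSet_ball] with w hw
  exact (mem_ball_zero_iff.1 hw).le

theorem Sm.refl (G : ℂ → ℂ) {δ : ℝ} (hδ : 0 ≤ δ) : Sm G G δ := by
  refine ⟨Measure.dirac 0, inferInstance, ?_, fun y => by simp⟩
  simpa using hδ

theorem Sm.mono {G G' : ℂ → ℂ} {δ δ' : ℝ} (h : Sm G G' δ) (hδ : δ ≤ δ') : Sm G G' δ' := by
  obtain ⟨τ, h1, h2, h3⟩ := h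
  exact ⟨τ, h1, h2.mono fun w hw => hw.trans hδ, h3⟩

theorem Sm.trans {G G' G'' : ℂ → ℂ} {δ δ' M : ℝ} (h : Sm G G' δ) (h' : Sm G' G'' δ')
    (hm : Measurable G'') (hb : ∀ y, ‖G'' y‖ ≤ M) : Sm G G'' (δ + δ') := by
  obtain ⟨τ, h1, h2, h3⟩ := h
  obtain ⟨τ', h1', h2', h3'⟩ := h'
  have hadd : Measurable fun p : ℂ × ℂ => p.1 + p.2 := by fun_prop
  refine ⟨Measure.map (fun p : ℂ × ℂ => p.1 + p.2) (τ.prod τ'),
    Measure.isProbabilityMeasure_map hadd.aemeasurable, ?_, fun y => ?_⟩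
  · rw [ae_map_iff hadd.aemeasurable (measurableSet_le measurable_norm measurable_const)]
    filter_upwards [Measure.quasiMeasurePreserving_fst.ae h2,
      Measure.quasiMeasurePreserving_snd.ae h2'] with p a b
    exact (norm_add_le _ _).trans (add_le_add a b)
  · have hm' : Measurable fun w => G'' (y - w) := hm.comp (measurable_const.sub measurable_id)
    rw [integral_map hadd.aemeasurable hm'.aestronglyMeasurable, integral_prod, h3]
    · simp only [h3', sub_sub]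
    · refine Integrable.of_bound (C := M) ?_ (ae_of_all _ fun p => hb _)
      exact (hm.comp (measurable_const.sub hadd)).aestronglyMeasurable

theorem lev_measurable {g : ℂ → ℂ} (hg : Measurable g) (j : ℕ) : Measurable (lev g j) := by
  induction j with
  | zero => exact hg
  | succ j ih =>
    have := isProb_unif (s := 4 ^ (j + 1)) (by positivity)
    have h : StronglyMeasurable fun p : ℂ × ℂ => lev g j (p.1 - p.2) :=
      (ih.comp (measurable_fst.sub measurable_snd)).stronglyMeasurable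
    exact (h.integral_prod_right' (ν := unif (4 ^ (j + 1)))).measurable

theorem lev_bound {g : ℂ → ℂ} {M : ℝ} (hM : ∀ y, ‖g y‖ ≤ M) (j : ℕ) (y : ℂ) :
    ‖lev g j y‖ ≤ M := by
  induction j generalizing y with
  | zero => exact hM y
  | succ j ih =>
    have := isProb_unif (s := 4 ^ (j + 1)) (by positivity)
    have h := norm_integral_le_of_norm_le_const (μ := unif (4 ^ (j + 1)))
      (f := fun w => lev g j (y - w)) (C := M) (ae_of_all _ fun w => ih _)
    simpa [lev] using h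

theorem lev_sm {g : ℂ → ℂ} (hg : GOK g) {j j' : ℕ} (h : j ≤ j') :
    Sm (lev g j') (lev g j) (4 / 3 * 4 ^ j') := by
  obtain ⟨hm, ⟨M, hM⟩, -⟩ := hg
  induction j', h using Nat.le_induction with
  | base => exact Sm.refl _ (by positivity)
  | succ j' _ ih =>
    have h1 : Sm (lev g (j' + 1)) (lev g j') (4 ^ (j' + 1)) :=
      ⟨unif (4 ^ (j' + 1)), isProb_unif (by positivity), unif_ae, fun _ => rfl⟩
    refine (h1.trans ih (lev_measurable hm j) (lev_bound hM j)).mono (le_of_eq ?_)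
    ring

theorem lev_node_sm {g : ℂ → ℂ} (hg : GOK g) (k b : ℕ) :
    Sm (lev g (k - nn b)) (lev g (k - nn (b + 1))) (Dl b * 4 ^ k) := by
  have hmono := nn_mono (Nat.le_succ b)
  rcases le_or_gt (nn b) k with h | h
  · refine (lev_sm hg (Nat.sub_le_sub_left hmono k)).mono ?_
    calc (4 / 3 : ℝ) * 4 ^ (k - nn b) ≤ Dl b * 4 ^ nn b * 4 ^ (k - nn b) :=
          mul_le_mul_of_nonneg_right (four_pow_nn b) (by positivity)
      _ = Dl b * 4 ^ k := by rw [mul_assoc, ← pow_add, Nat.add_sub_cancel' h]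
  · have h1 : k - nn b = 0 := by omega
    have h2 : k - nn (b + 1) = 0 := by
      have : nn b ≤ nn (b + 1) := hmono
      omega
    rw [h1, h2]
    exact Sm.refl _ (by have := Dl_pos b; positivity)

theorem lev_node_eq (g : ℂ → ℂ) {k b : ℕ} (h : k ≤ b) : lev g (k - nn b) = g := by
  have := lt_nn b
  rw [show k - nn b = 0 by omega]
  rfl

theorem levels1_swap (τ : Measure ℂ) [IsProbabilityMeasure τ] {φ : ℂ → ℝ≥0∞} (hφ : Measurable φ)
    (A : Set ℂ) : ∫⁻ y in A, ∫⁻ w, φ (y - w) ∂τ = ∫⁻ w, (∫⁻ y in A, φ (y - w)) ∂τ :=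
  lintegral_lintegral_swap (f := fun y w => φ (y - w))
    (hφ.comp (measurable_fst.sub measurable_snd)).aemeasurable

theorem levels1_le (τ : Measure ℂ) [IsProbabilityMeasure τ] {φ : ℂ → ℝ≥0∞} (hφ : Measurable φ)
    {A B : Set ℂ} (hA : MeasurableSet A) (hB : MeasurableSet B)
    (h : ∀ᵐ w ∂τ, ∀ y ∈ A, y - w ∈ B) : ∫⁻ y in A, ∫⁻ w, φ (y - w) ∂τ ≤ ∫⁻ y in B, φ y := by
  rw [levels1_swap τ hφ]
  calc ∫⁻ w, (∫⁻ y in A, φ (y - w)) ∂τ ≤ ∫⁻ _w, (∫⁻ y in B, φ y) ∂τ := by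
        refine lintegral_mono_ae (h.mono fun w hw => ?_)
        rw [← lintegral_indicator hA, ← lintegral_indicator hB,
          ← lintegral_sub_right_eq_self (B.indicator φ) w]
        refine lintegral_mono fun y => ?_
        by_cases hy : y ∈ A
        · rw [indicator_of_mem hy, indicator_of_mem (hw y hy)]
        · rw [indicator_of_notMem hy]; exact zero_le
    _ = _ := by simp

theorem levels1_ge (τ : Measure ℂ) [IsProbabilityMeasure τ] {φ : ℂ → ℝ≥0∞} (hφ : Measurable φ)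
    {A B : Set ℂ} (hA : MeasurableSet A) (hB : MeasurableSet B)
    (h : ∀ᵐ w ∂τ, ∀ y, y - w ∈ B → y ∈ A) : ∫⁻ y in B, φ y ≤ ∫⁻ y in A, ∫⁻ w, φ (y - w) ∂τ := by
  rw [levels1_swap τ hφ]
  calc ∫⁻ y in B, φ y = ∫⁻ _w, (∫⁻ y in B, φ y) ∂τ := by simp
    _ ≤ _ := by
        refine lintegral_mono_ae (h.mono fun w hw => ?_)
        rw [← lintegral_indicator hA, ← lintegral_indicator hB,
          ← lintegral_sub_right_eq_self (B.indicator φ) w]
        refine lintegral_mono fun y => ?_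
        by_cases hy : y - w ∈ B
        · rw [indicator_of_mem hy, indicator_of_mem (hw y hy)]
        · rw [indicator_of_notMem hy]; exact zero_le

theorem levels1_dev_nonneg {d : ℂ} (hd : ‖d‖ ≤ 1) (p : ℂ) : 0 ≤ ‖p‖ - ⟪d, p⟫ := by
  have h1 := real_inner_le_norm d p
  have h2 := mul_le_mul_of_nonneg_right hd (norm_nonneg p)
  linarith

theorem levels1_dev_measurable {G' : ℂ → ℂ} (hm : Measurable G') (d : ℂ) :
    Measurable fun y => ENNReal.ofReal (‖G' y‖ - ⟪d, G' y⟫) :=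
  (hm.norm.sub (measurable_const.inner hm)).ennreal_ofReal

theorem levels1_integrable (τ : Measure ℂ) [IsProbabilityMeasure τ] {G' : ℂ → ℂ}
    (hm : Measurable G') {M : ℝ} (hb : ∀ y, ‖G' y‖ ≤ M) (y : ℂ) :
    Integrable (fun w => G' (y - w)) τ :=
  Integrable.of_bound (C := M) (hm.comp (measurable_const.sub measurable_id)).aestronglyMeasurable
    (ae_of_all _ fun _ => hb _)

theorem levels1_dev_eq (τ : Measure ℂ) [IsProbabilityMeasure τ] {G' : ℂ → ℂ}
    (hm : Measurable G') {M : ℝ} (hb : ∀ y, ‖G' y‖ ≤ M) {d : ℂ} (hd : ‖d‖ ≤ 1) (y : ℂ) :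
    ∫⁻ w, ENNReal.ofReal (‖G' (y - w)‖ - ⟪d, G' (y - w)⟫) ∂τ
      = ENNReal.ofReal (∫ w, ‖G' (y - w)‖ ∂τ - ⟪d, ∫ w, G' (y - w) ∂τ⟫) := by
  have hi := levels1_integrable τ hm hb y
  rw [← integral_inner hi, ← integral_sub hi.norm (hi.const_inner d)]
  exact (ofReal_integral_eq_lintegral_ofReal (hi.norm.sub (hi.const_inner d))
      (ae_of_all _ fun w => levels1_dev_nonneg hd _)).symm

theorem levels1_box {s : ℝ} (hs : 0 < s) {i j : ℕ} {z : ℤ × ℤ} {y y' : ℂ} (h : ‖y' - y‖ ≤ i * s)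
    (hy : y ∈ boxSet s z j) : y' ∈ boxSet s z (j + i) :=
  mem_box_trans hy (cellOf_mem_box hs h)

/-- smoothing decreases any convex 1-homogeneous quantity of the form `‖p‖ - ⟪d, p⟫` (or `‖p‖`,
`d = 0`), with a loss of `i` squares at the boundary -/
theorem Sm.lintegral_dev_le {G G' : ℂ → ℂ} {s : ℝ} (hs : 0 < s) {i : ℕ} (h : Sm G G' (i * s))
    (hm : Measurable G') {M : ℝ} (hb : ∀ y, ‖G' y‖ ≤ M) {d : ℂ} (hd : ‖d‖ ≤ 1) (z : ℤ × ℤ) (j : ℕ) :
    ∫⁻ y in boxSet s z j, ENNReal.ofReal (‖G y‖ - ⟪d, G y⟫)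
      ≤ ∫⁻ y in boxSet s z (j + i), ENNReal.ofReal (‖G' y‖ - ⟪d, G' y⟫) := by
  obtain ⟨τ, h1, h2, h3⟩ := h
  refine le_trans (lintegral_mono fun y => ?_) (levels1_le τ (levels1_dev_measurable hm d)
    (measurableSet_boxSet s z j) (measurableSet_boxSet s z (j + i))
    (h2.mono fun w hw y hy => levels1_box hs (by simpa using hw) hy))
  rw [levels1_dev_eq τ hm hb hd, h3]
  exact ENNReal.ofReal_le_ofReal (sub_le_sub_right (norm_integral_le_integral_norm _) _)

/-- mass cannot disappear under smoothing unless the deviation is large -/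
theorem Sm.lintegral_norm_le {G G' : ℂ → ℂ} {s : ℝ} (hs : 0 < s) {i : ℕ} (h : Sm G G' (i * s))
    (hm : Measurable G') {M : ℝ} (hb : ∀ y, ‖G' y‖ ≤ M) {d : ℂ} (hd : ‖d‖ ≤ 1) (z : ℤ × ℤ) (j : ℕ) :
    ∫⁻ y in boxSet s z j, ‖G' y‖ₑ
      ≤ (∫⁻ y in boxSet s z (j + i), ‖G y‖ₑ)
        + 2 * ∫⁻ y in boxSet s z (j + i + i), ENNReal.ofReal (‖G' y‖ - ⟪d, G' y⟫) := by
  obtain ⟨τ, h1, h2, h3⟩ := h
  have hφ := levels1_dev_measurable hm d
  have a1 := levels1_ge τ hm.enorm (measurableSet_boxSet s z (j + i)) (measurableSet_boxSet s z j)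
    (h2.mono fun w hw y hy => levels1_box hs (by simpa using hw) hy)
  have a2 := levels1_le τ hφ (measurableSet_boxSet s z (j + i))
    (measurableSet_boxSet s z (j + i + i))
    (h2.mono fun w hw y hy => levels1_box hs (by simpa using hw) hy)
  have a3 : ∀ y, ∫⁻ w, ‖G' (y - w)‖ₑ ∂τ
      ≤ ‖G y‖ₑ + ∫⁻ w, ENNReal.ofReal (‖G' (y - w)‖ - ⟪d, G' (y - w)⟫) ∂τ := by
    intro y
    rw [levels1_dev_eq τ hm hb hd, ← h3,
      ← ofReal_integral_norm_eq_lintegral_enorm (levels1_integrable τ hm hb y), ← ofReal_norm]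
    refine le_trans (ENNReal.ofReal_le_ofReal ?_) ENNReal.ofReal_add_le
    have := levels1_dev_nonneg hd (G y)
    linarith
  have hmeas : Measurable fun y => ∫⁻ w, ENNReal.ofReal (‖G' (y - w)‖ - ⟪d, G' (y - w)⟫) ∂τ :=
    (hφ.comp (measurable_fst.sub measurable_snd)).lintegral_prod_right'
  refine a1.trans ((lintegral_mono a3).trans ?_)
  rw [lintegral_add_right _ hmeas, two_mul]
  exact add_le_add le_rfl (a2.trans le_self_add)

theorem lintegral_lev_succ_le {g : ℂ → ℂ} (hg : GOK g) (j : ℕ) :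
    ∫⁻ y, ‖lev g (j + 1) y‖ₑ ≤ ∫⁻ y, ‖lev g j y‖ₑ := by
  have := isProb_unif (s := 4 ^ (j + 1)) (by positivity)
  have h := levels1_le (unif (4 ^ (j + 1))) (lev_measurable hg.1 j).enorm MeasurableSet.univ
    MeasurableSet.univ (ae_of_all _ fun _ _ _ => mem_univ _)
  simp only [Measure.restrict_univ] at h
  exact le_trans (lintegral_mono fun y => enorm_integral_le_lintegral_enorm _) h

theorem lintegral_lev_le {g : ℂ → ℂ} (hg : GOK g) (j : ℕ) :
    ∫⁻ y, ‖lev g j y‖ₑ ≤ ∫⁻ y, ‖g y‖ₑ := by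
  induction j with
  | zero => exact le_rfl
  | succ j ih => exact (lintegral_lev_succ_le hg j).trans ih

theorem tsum_tt_le : ∑' b, ENNReal.ofReal (tt b) ≤ 1 := by
  rw [ENNReal.tsum_eq_iSup_nat]
  refine iSup_le fun n => ?_
  rw [← ENNReal.ofReal_sum_of_nonneg fun b _ => (tt_pos b).le, ENNReal.ofReal_le_one]
  have h1 := sum_tt_pow_le 0 n 1 le_rfl
  simp only [pow_one, ← Finset.range_eq_Ico] at h1
  have h2 := tt_zero_le
  linarith [show (1 : ℝ) / 10 ^ 12 ≤ 1 / 2 by norm_num]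

theorem mhat_le {g : ℂ → ℂ} (hg : GOK g) (k : ℕ) (z : ℤ × ℤ) : mhat g k z ≤ ∫⁻ y, ‖g y‖ₑ := by
  unfold mhat
  calc _ ≤ ∑' b, ENNReal.ofReal (tt b) * ∫⁻ y, ‖g y‖ₑ := by
        refine ENNReal.tsum_le_tsum fun b => mul_le_mul_right ?_ _
        exact (setLIntegral_le_lintegral _ _).trans (lintegral_lev_le hg _)
    _ ≤ 1 * ∫⁻ y, ‖g y‖ₑ := by
        rw [ENNReal.tsum_mul_right]
        exact mul_le_mul_left tsum_tt_le _
    _ = _ := one_mul _

end Crest.Agent.R112
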