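import Crest.Agent.R112.Basic

/-! # Row 112: the analytic inputs of the corona construction (task L3a) -/

open MeasureTheory Set Filter Topology Metric
open scoped ENNReal NNReal RealInnerProductSpace

namespace Crest.Agent.R112

/-- polar decomposition -/
private lemma exists_polar (p : ℂ) : ∃ (r : ℝ) (u : ℂ), 0 ≤ r ∧ ‖u‖ = 1 ∧ p = r • u := by
  by_cases h : p = 0
  · exact ⟨0, 1, le_rfl, norm_one, by simp [h]⟩
  · have h0 : ‖p‖ ≠ 0 := norm_ne_zero_iff.2 h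
    refine ⟨‖p‖, ‖p‖⁻¹ • p, norm_nonneg _, ?_, ?_⟩
    · rw [norm_smul, norm_inv, norm_norm, inv_mul_cancel₀ h0]
    · rw [smul_smul, mul_inv_cancel₀ h0, one_smul]

private lemma norm_polar {r : ℝ} {u : ℂ} (hr : 0 ≤ r) (hu : ‖u‖ = 1) : ‖r • u‖ = r := by
  rw [norm_smul, hu, mul_one, Real.norm_of_nonneg hr]

private lemma Hf_polar (e : ℂ) {r : ℝ} {u : ℂ} (hr : 0 ≤ r) (hu : ‖u‖ = 1) :
    Hf e (r • u) = r * (max (⟪e, u⟫ - 127 / 128) 0) ^ 2 := by
  unfold Hf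
  rw [norm_polar hr hu, real_inner_smul_right]
  rcases hr.eq_or_lt with h | h
  · subst h; simp
  · rw [show r * ⟪e, u⟫ - 127 / 128 * r = r * (⟪e, u⟫ - 127 / 128) by ring,
      show max (r * (⟪e, u⟫ - 127 / 128)) 0 = r * max (⟪e, u⟫ - 127 / 128) 0 by
        rw [mul_max_of_nonneg _ _ hr, mul_zero]]
    field_simp

private lemma dev_polar (d : ℂ) {r : ℝ} {u : ℂ} (hr : 0 ≤ r) (hu : ‖u‖ = 1) :
    ‖r • u‖ - ⟪d, r • u⟫ = r * (1 - ⟪d, u⟫) := by
  rw [norm_polar hr hu, real_inner_smul_right]; ring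

private lemma one_sub_inner {d u : ℂ} (hd : ‖d‖ = 1) (hu : ‖u‖ = 1) :
    1 - ⟪d, u⟫ = ‖d - u‖ ^ 2 / 2 := by
  rw [norm_sub_sq_real, hd, hu]; ring

private lemma max_le_unit {e u : ℂ} (he : ‖e‖ = 1) (hu : ‖u‖ = 1) :
    max (⟪e, u⟫ - 127 / 128) 0 ≤ 1 / 128 := by
  have := one_sub_inner he hu
  have := sq_nonneg ‖e - u‖
  exact max_le (by linarith) (by norm_num)

theorem Hf_nonneg (e p : ℂ) : 0 ≤ Hf e p := by
  unfold Hf; positivity

theorem Hf_le_norm {e : ℂ} (he : ‖e‖ = 1) (p : ℂ) : Hf e p ≤ ‖p‖ := by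
  obtain ⟨r, u, hr, hu, rfl⟩ := exists_polar p
  rw [Hf_polar e hr hu, norm_polar hr hu]
  have h1 := max_le_unit he hu
  have h2 : 0 ≤ max (⟪e, u⟫ - 127 / 128) 0 := le_max_right _ _
  exact mul_le_of_le_one_right hr (by nlinarith)

theorem measurable_Hf (e : ℂ) : Measurable (Hf e) := by
  unfold Hf
  have h1 : Continuous fun p : ℂ => (max (⟪e, p⟫ - 127 / 128 * ‖p‖) 0) ^ 2 := by fun_prop
  exact h1.measurable.div continuous_norm.measurable

/-- lower bound near the axis -/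
theorem Hf_lower {e d : ℂ} (he : ‖e‖ = 1) (hd : ‖d‖ = 1) (h : ‖d - e‖ ≤ 1 / 10) (p : ℂ) :
    2 / 10 ^ 6 * ‖p‖ ≤ Hf e p + (‖p‖ - ⟪d, p⟫) := by
  obtain ⟨r, u, hr, hu, rfl⟩ := exists_polar p
  rw [Hf_polar e hr hu, dev_polar d hr hu, norm_polar hr hu, ← mul_add, mul_comm]
  refine mul_le_mul_of_nonneg_left ?_ hr
  rw [one_sub_inner hd hu]
  have h0 := norm_nonneg (d - u)
  rcases le_total (1 / 80) ‖d - u‖ with h1 | h1
  · have := sq_nonneg (max (⟪e, u⟫ - 127 / 128) 0)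
    nlinarith
  · have h2 : ‖e - u‖ ≤ 9 / 80 := by
      have := norm_sub_le_norm_sub_add_norm_sub e d u
      rw [norm_sub_rev e d] at this
      linarith
    have h3 := one_sub_inner he hu
    have h4 := norm_nonneg (e - u)
    have h5 : 19 / 12800 ≤ max (⟪e, u⟫ - 127 / 128) 0 := le_max_of_le_left (by nlinarith)
    nlinarith

/-- upper bound away from the axis -/
theorem Hf_upper {e d : ℂ} (he : ‖e‖ = 1) (hd : ‖d‖ = 1) (h : 3 / 20 < ‖d - e‖) (p : ℂ) :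
    Hf e p ≤ 4000 * (‖p‖ - ⟪d, p⟫) := by
  obtain ⟨r, u, hr, hu, rfl⟩ := exists_polar p
  rw [Hf_polar e hr hu, dev_polar d hr hu, mul_left_comm]
  refine mul_le_mul_of_nonneg_left ?_ hr
  rw [one_sub_inner hd hu]
  rcases le_total (⟪e, u⟫ - 127 / 128) 0 with h1 | h1
  · rw [max_eq_right h1]; nlinarith [sq_nonneg ‖d - u‖]
  · have h3 := one_sub_inner he hu
    have h4 := norm_nonneg (e - u)
    have h5 : ‖e - u‖ ≤ 1 / 8 := by nlinarith
    have h6 : 1 / 40 ≤ ‖d - u‖ := by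
      have := norm_sub_le_norm_sub_add_norm_sub d u e
      rw [norm_sub_rev u e] at this
      linarith
    have h7 := max_le_unit he hu
    have h8 : 0 ≤ max (⟪e, u⟫ - 127 / 128) 0 := le_max_right _ _
    nlinarith

private lemma pos_sq_le (x y : ℝ) :
    (max x 0) ^ 2 ≤ (max y 0) ^ 2 + 2 * max y 0 * (x - y) + (x - y) ^ 2 := by
  rcases le_total x 0 with hx | hx <;> rcases le_total y 0 with hy | hy
  · rw [max_eq_right hx, max_eq_right hy]; nlinarith [sq_nonneg (x - y)]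
  · rw [max_eq_right hx, max_eq_left hy]; nlinarith [sq_nonneg x]
  · rw [max_eq_left hx, max_eq_right hy]; nlinarith
  · rw [max_eq_left hx, max_eq_left hy]; nlinarith

/-- semiconcavity: a linear functional touching from above up to the deviation -/
theorem Hf_semiconcave {e : ℂ} (he : ‖e‖ = 1) (q : ℂ) :
    ∃ lam d : ℂ, ‖d‖ = 1 ∧ ⟪d, q⟫ = ‖q‖ ∧ ⟪lam, q⟫ ≤ Hf e q ∧
      ∀ p, Hf e p ≤ ⟪lam, p⟫ + 10 * (‖p‖ - ⟪d, p⟫) := by
  obtain ⟨ρ, d, hρ, hd, rfl⟩ := exists_polar q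
  have hdd : ⟪d, d⟫ = 1 := by rw [real_inner_self_eq_norm_sq, hd]; norm_num
  set c : ℝ := ⟪e, d⟫ with hc
  set s : ℝ := max (c - 127 / 128) 0 with hs
  have hs0 : 0 ≤ s := le_max_right _ _
  have hs1 : s ≤ 1 / 128 := max_le_unit he hd
  have hsc : 0 ≤ s * c := by
    rcases le_total (c - 127 / 128) 0 with h1 | h1
    · rw [hs, max_eq_right h1, zero_mul]
    · exact mul_nonneg hs0 (by linarith)
  have hlam : ∀ u : ℂ, ⟪(s ^ 2 - 2 * s * c) • d + (2 * s) • e, u⟫ =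
      (s ^ 2 - 2 * s * c) * ⟪d, u⟫ + 2 * s * ⟪e, u⟫ := by
    intro u
    rw [inner_add_left, real_inner_smul_left, real_inner_smul_left]
  refine ⟨(s ^ 2 - 2 * s * c) • d + (2 * s) • e, d, hd, ?_, ?_, fun p => ?_⟩
  · rw [real_inner_smul_right, hdd, mul_one, norm_polar hρ hd]
  · rw [real_inner_smul_right, hlam, hdd, Hf_polar e hρ hd, ← hc, ← hs]
    exact le_of_eq (by ring)
  · obtain ⟨r, u, hr, hu, rfl⟩ := exists_polar p
    rw [Hf_polar e hr hu, dev_polar d hr hu, real_inner_smul_right, mul_left_comm, ← mul_add]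
    refine mul_le_mul_of_nonneg_left ?_ hr
    rw [hlam]
    have h1 := pos_sq_le (⟪e, u⟫ - 127 / 128) (c - 127 / 128)
    rw [← hs] at h1
    have h2 := one_sub_inner hd hu
    have h3 : (c - ⟪e, u⟫) ^ 2 ≤ ‖d - u‖ ^ 2 := by
      have h4 := abs_real_inner_le_norm e (d - u)
      rw [he, one_mul, inner_sub_right, ← hc] at h4
      exact sq_le_sq' (abs_le.1 h4).1 (abs_le.1 h4).2
    have h5 : 0 ≤ 1 - ⟪d, u⟫ := by rw [h2]; positivity
    have h6 : s ^ 2 ≤ 1 := by nlinarith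
    have h7 := mul_nonneg hsc h5
    have h8 := mul_le_mul_of_nonneg_right h6 h5
    nlinarith

/-- the bad part with respect to the cone of `e` is controlled by the deviation from `d` -/
theorem bad_cone_le {e d : ℂ} (he : ‖e‖ = 1) (hd : ‖d‖ = 1) (h : ‖d - e‖ ≤ 3 / 20) (p : ℂ) :
    bad (cone e) p ≤ 800 * (‖p‖ - ⟪d, p⟫) := by
  obtain ⟨r, u, hr, hu, rfl⟩ := exists_polar p
  rw [dev_polar d hr hu, one_sub_inner hd hu]
  unfold bad
  split_ifs with hp
  · positivity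
  · rw [norm_polar hr hu]
    have h1 : 1 / 5 ≤ ‖u - e‖ := by
      by_contra h2
      apply hp
      show ‖r • u - ‖r • u‖ • e‖ ≤ ‖r • u‖ / 5
      rw [norm_polar hr hu, ← smul_sub, norm_smul, Real.norm_of_nonneg hr]
      nlinarith [not_le.1 h2]
    have h2 : 1 / 20 ≤ ‖d - u‖ := by
      have := norm_sub_le_norm_sub_add_norm_sub u d e
      rw [norm_sub_rev u d] at this
      linarith
    have h3 : 1 ≤ 800 * (‖d - u‖ ^ 2 / 2) := by nlinarith
    nlinarith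

theorem measurableSet_cone (e : ℂ) : MeasurableSet (cone e) := by
  refine IsClosed.measurableSet (isClosed_le ?_ ?_) <;> fun_prop

end Crest.Agent.R112
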