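import Crest.Agent.R112.Levels1
import Crest.Agent.R112.Levels2a

/-! # Row 112: inputs F1-F5 of the corona construction (task L3b) -/

open MeasureTheory Set Filter Topology Metric
open scoped ENNReal NNReal RealInnerProductSpace

namespace Crest.Agent.R112

lemma l2_Hm_apply {g : ℂ → ℂ} (e : ℂ) (k : ℕ) (S : Set (ℤ × ℤ)) :
    Hm g e k S = ∫⁻ y in cellOf (4 ^ k) ⁻¹' S, ENNReal.ofReal (Hf e (lev g k y)) := by
  have hS : MeasurableSet S := MeasurableSet.of_discrete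
  rw [Hm, Measure.map_apply (measurable_cellOf _) hS,
    withDensity_apply _ (measurable_cellOf _ hS)]

lemma l2_Hm_box {g : ℂ → ℂ} (e : ℂ) (k : ℕ) (z : ℤ × ℤ) (j : ℕ) :
    Hm g e k (box z j) = ∫⁻ y in boxSet (4 ^ k) z j, ENNReal.ofReal (Hf e (lev g k y)) :=
  l2_Hm_apply e k _

/-- pointwise semiconcavity under averaging -/
lemma l2_jensen {e : ℂ} (he : ‖e‖ = 1) (τ : Measure ℂ) [IsProbabilityMeasure τ] {P : ℂ → ℂ}
    (hP : Measurable P) {M : ℝ} (hM : ∀ w, ‖P w‖ ≤ M) :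
    ∫⁻ w, ENNReal.ofReal (Hf e (P w)) ∂τ
      ≤ ENNReal.ofReal (Hf e (∫ w, P w ∂τ)) + 10 * (∫⁻ w, ‖P w‖ₑ ∂τ - ‖∫ w, P w ∂τ‖ₑ) := by
  have hi : Integrable P τ :=
    Integrable.of_bound hP.aestronglyMeasurable M (Eventually.of_forall hM)
  have hH : Integrable (fun w => Hf e (P w)) τ :=
    Integrable.of_bound ((measurable_Hf e).comp hP).aestronglyMeasurable M
      (Eventually.of_forall fun w => by
        rw [Real.norm_of_nonneg (Hf_nonneg _ _)]
        exact (Hf_le_norm he _).trans (hM w))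
  set q := ∫ w, P w ∂τ with hq
  obtain ⟨lam, d, -, hdq, hlq, hp⟩ := Hf_semiconcave he q
  have h1 : ∀ v : ℂ, ∫ w, ⟪v, P w⟫ ∂τ = ⟪v, q⟫ := fun v => integral_inner hi v
  have h2 : ∀ v : ℂ, Integrable (fun w => ⟪v, P w⟫) τ := fun v => hi.const_inner v
  have h3 : ∫ w, Hf e (P w) ∂τ ≤ Hf e q + 10 * (∫ w, ‖P w‖ ∂τ - ‖q‖) := by
    calc ∫ w, Hf e (P w) ∂τ ≤ ∫ w, (⟪lam, P w⟫ + 10 * (‖P w‖ - ⟪d, P w⟫)) ∂τ :=
          integral_mono hH ((h2 lam).add ((hi.norm.sub (h2 d)).const_mul 10)) fun w => hp _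
      _ = ⟪lam, q⟫ + 10 * (∫ w, ‖P w‖ ∂τ - ⟪d, q⟫) := by
          have h5 : Integrable (fun w => 10 * (‖P w‖ - ⟪d, P w⟫)) τ :=
            (hi.norm.sub (h2 d)).const_mul 10
          rw [integral_add (h2 lam) h5, integral_const_mul,
            integral_sub hi.norm (h2 d), h1, h1]
      _ ≤ _ := by rw [hdq]; linarith
  have h4 : ‖q‖ ≤ ∫ w, ‖P w‖ ∂τ := norm_integral_le_integral_norm _
  rw [← ofReal_integral_eq_lintegral_ofReal hH (Eventually.of_forall fun w => Hf_nonneg _ _),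
    ← ofReal_integral_norm_eq_lintegral_enorm hi, ← ofReal_norm,
    ← ENNReal.ofReal_sub _ (norm_nonneg _), ← ENNReal.ofReal_ofNat 10,
    ← ENNReal.ofReal_mul (by norm_num), ← ENNReal.ofReal_add (Hf_nonneg _ _) (by linarith)]
  exact ENNReal.ofReal_le_ofReal h3

lemma l2_swap (τ : Measure ℂ) [IsProbabilityMeasure τ] {φ : ℂ → ℝ≥0∞} (hφ : Measurable φ) :
    ∫⁻ y, ∫⁻ w, φ (y - w) ∂τ = ∫⁻ y, φ y := by
  rw [lintegral_lintegral_swap (f := fun y w => φ (y - w))
    (hφ.comp (measurable_fst.sub measurable_snd)).aemeasurable]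
  simp only [lintegral_sub_right_eq_self φ, lintegral_const, measure_univ, mul_one]

/-- level budgets (input F1 of the corona construction) -/
theorem F1 {g : ℂ → ℂ} (hg : GOK g) : ∃ bud : ℕ → ℝ≥0∞,
    (∀ n, ∑ k ∈ Finset.range n, bud k ≤ 10 * ∫⁻ y, ‖g y‖ₑ) ∧
    ∀ (e : ℂ), ‖e‖ = 1 → ∀ (k : ℕ) (A : Set (ℤ × ℤ)),
      Hm g e k (nbhd (par ⁻¹' A) 18) ≤ Hm g e (k + 1) (nbhd A 6) + bud k := by
  obtain ⟨hm, ⟨M, hM⟩, hi⟩ := hg
  have hP : ∀ k : ℕ, IsProbabilityMeasure (unif (4 ^ (k + 1))) := fun k =>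
    isProb_unif (by positivity)
  let D : ℕ → ℂ → ℝ≥0∞ := fun k y =>
    10 * (∫⁻ w, ‖lev g k (y - w)‖ₑ ∂(unif (4 ^ (k + 1))) - ‖lev g (k + 1) y‖ₑ)
  have hD : ∀ k, Measurable (D k) := fun k => by
    have := hP k
    refine Measurable.const_mul (Measurable.sub ?_ (lev_measurable hm (k + 1)).enorm) _
    exact Measurable.lintegral_prod_right'
      (f := fun p : ℂ × ℂ => ‖lev g k (p.1 - p.2)‖ₑ)
      ((lev_measurable hm k).comp (measurable_fst.sub measurable_snd)).enorm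
  refine ⟨fun k => ∫⁻ y, D k y, fun n => ?_, fun e he k A => ?_⟩
  · have key : ∀ k, (∫⁻ y, D k y) + 10 * ∫⁻ y, ‖lev g (k + 1) y‖ₑ
        ≤ 10 * ∫⁻ y, ‖lev g k y‖ₑ := fun k => by
      have := hP k
      rw [← l2_swap (unif (4 ^ (k + 1))) (lev_measurable hm k).enorm,
        ← lintegral_const_mul _ (lev_measurable hm (k + 1)).enorm, ← lintegral_add_left (hD k),
        ← lintegral_const_mul' _ _ (by norm_num)]
      refine lintegral_mono fun y => le_of_eq ?_
      simp only [D]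
      rw [← mul_add, tsub_add_cancel_of_le]
      exact enorm_integral_le_lintegral_enorm _
    have key2 : ∀ n, ∑ k ∈ Finset.range n, (∫⁻ y, D k y) + 10 * ∫⁻ y, ‖lev g n y‖ₑ
        ≤ 10 * ∫⁻ y, ‖g y‖ₑ := fun n => by
      induction n with
      | zero => simp [lev]
      | succ n ih =>
        rw [Finset.sum_range_succ, add_assoc]
        exact (add_le_add le_rfl (key n)).trans ih
    exact le_self_add.trans (key2 n)
  · have := hP k
    set τ := unif (4 ^ (k + 1)) with hτ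
    rw [l2_Hm_apply, l2_Hm_apply]
    set S := cellOf (4 ^ k) ⁻¹' nbhd (par ⁻¹' A) 18 with hS
    set S' := cellOf (4 ^ (k + 1)) ⁻¹' nbhd A 6 with hS'
    have hSm : MeasurableSet S := measurable_cellOf _ MeasurableSet.of_discrete
    have hSm' : MeasurableSet S' := measurable_cellOf _ MeasurableSet.of_discrete
    have hφ : Measurable fun y => ENNReal.ofReal (Hf e (lev g k y)) :=
      ((measurable_Hf e).comp (lev_measurable hm k)).ennreal_ofReal
    calc ∫⁻ y in S, ENNReal.ofReal (Hf e (lev g k y))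
        = ∫⁻ y, ∫⁻ w, S.indicator (fun y => ENNReal.ofReal (Hf e (lev g k y))) (y - w) ∂τ := by
          rw [l2_swap τ (hφ.indicator hSm), lintegral_indicator hSm]
      _ ≤ ∫⁻ y, (S'.indicator (fun y => ENNReal.ofReal (Hf e (lev g (k + 1) y))) y + D k y) := by
          refine lintegral_mono fun y => ?_
          by_cases hy : y ∈ S'
          · rw [indicator_of_mem hy]
            refine le_trans (lintegral_mono fun w => indicator_le_self _ _ _) ?_
            exact l2_jensen he τ (P := fun w => lev g k (y - w))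
              ((lev_measurable hm k).comp (measurable_const.sub measurable_id))
              (fun w => lev_bound hM k _)
          · refine le_trans (le_of_eq ?_) bot_le
            refine (lintegral_congr_ae ?_).trans lintegral_zero
            filter_upwards [unif_ae (s := 4 ^ (k + 1))] with w hw
            refine indicator_of_notMem (fun h => hy ?_) _
            have := cellOf_add_mem_nbhd k A (y := y - w) (w := w) h hw
            rwa [sub_add_cancel] at this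
      _ = _ := by
          rw [lintegral_add_right _ (hD k), lintegral_indicator hSm']

theorem Hm_univ_le {g : ℂ → ℂ} (hg : GOK g) {e : ℂ} (he : ‖e‖ = 1) (k : ℕ) :
    Hm g e k univ ≤ ∫⁻ y, ‖g y‖ₑ := by
  rw [l2_Hm_apply, preimage_univ, Measure.restrict_univ]
  refine le_trans (lintegral_mono fun y => ?_) (lintegral_lev_le hg k)
  rw [← ofReal_norm]
  exact ENNReal.ofReal_le_ofReal (Hf_le_norm he _)

lemma l2_boxSet_mono (s : ℝ) (z : ℤ × ℤ) {i j : ℕ} (h : i ≤ j) : boxSet s z i ⊆ boxSet s z j :=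
  fun _ hy => box_mono z h hy

lemma l2_sm {g : ℂ → ℂ} (hg : GOK g) (k b : ℕ) :
    Sm (lev g k) (lev g (k - nn b)) (((2 : ℕ) : ℝ) * 4 ^ k) :=
  (lev_sm hg (Nat.sub_le k (nn b))).mono (by
    have : (0 : ℝ) < 4 ^ k := by positivity
    push_cast
    linarith)

lemma l2_inv_mul {x : ℝ} (hx : 0 < x) {a b : ℝ≥0∞} (h : ENNReal.ofReal x * a ≤ b) :
    a ≤ ENNReal.ofReal x⁻¹ * b := by
  calc a = ENNReal.ofReal x⁻¹ * (ENNReal.ofReal x * a) := by
        rw [← mul_assoc, ← ENNReal.ofReal_mul (by positivity), inv_mul_cancel₀ hx.ne',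
          ENNReal.ofReal_one, one_mul]
    _ ≤ _ := by gcongr

/-- the deviation of level `k` is controlled by the budget -/
lemma l2_dev_le {g : ℂ → ℂ} (hg : GOK g) (k : ℕ) (z : ℤ × ℤ) {d : ℂ} (hd : ‖d‖ = 1) {j : ℕ}
    (hj : j + 2 ≤ 40) :
    ∫⁻ y in boxSet (4 ^ k) z j, ENNReal.ofReal (‖lev g k y‖ - ⟪d, lev g k y⟫)
      ≤ ENNReal.ofReal (tt 0)⁻¹ * Bud g k z d := by
  obtain ⟨M, hM⟩ := hg.2.1
  refine l2_inv_mul (tt_pos 0) (le_trans (mul_le_mul_right ?_ _) (ENNReal.le_tsum 0))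
  exact ((l2_sm hg k 0).lintegral_dev_le (by positivity) (lev_measurable hg.1 _)
    (lev_bound hM _) hd.le z j).trans (lintegral_mono_set (l2_boxSet_mono _ _ hj))

lemma l2_norm_le {g : ℂ → ℂ} (hg : GOK g) (k : ℕ) (z : ℤ × ℤ) {j : ℕ} (hj : j + 2 ≤ 16) :
    ∫⁻ y in boxSet (4 ^ k) z j, ‖lev g k y‖ₑ ≤ ENNReal.ofReal (tt 0)⁻¹ * mhat g k z := by
  obtain ⟨M, hM⟩ := hg.2.1
  refine l2_inv_mul (tt_pos 0) (le_trans (mul_le_mul_right ?_ _) (ENNReal.le_tsum 0))
  have := (l2_sm hg k 0).lintegral_dev_le (by positivity) (lev_measurable hg.1 _)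
    (lev_bound hM _) (d := 0) (by simp) z j
  simp only [inner_zero_left, sub_zero, ofReal_norm] at this
  exact this.trans (lintegral_mono_set (l2_boxSet_mono _ _ hj))

lemma l2_mhat_le {g : ℂ → ℂ} (hg : GOK g) (k : ℕ) (z : ℤ × ℤ) {d : ℂ} (hd : ‖d‖ = 1) :
    mhat g k z ≤ (∫⁻ y in boxSet (4 ^ k) z 18, ‖lev g k y‖ₑ) + 2 * Bud g k z d := by
  obtain ⟨M, hM⟩ := hg.2.1
  set X := ∫⁻ y in boxSet (4 ^ k) z 18, ‖lev g k y‖ₑ
  calc mhat g k z ≤ ∑' b, (ENNReal.ofReal (tt b) * X + 2 * (ENNReal.ofReal (tt b) *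
        ∫⁻ y in boxSet (4 ^ k) z 40,
          ENNReal.ofReal (‖lev g (k - nn b) y‖ - ⟪d, lev g (k - nn b) y⟫))) := by
        refine ENNReal.tsum_le_tsum fun b => ?_
        rw [mul_left_comm, ← mul_add]
        gcongr
        refine ((l2_sm hg k b).lintegral_norm_le (by positivity) (lev_measurable hg.1 _)
          (lev_bound hM _) hd.le z 16).trans ?_
        gcongr
        exact l2_boxSet_mono _ _ (by norm_num)
    _ = (∑' b, ENNReal.ofReal (tt b)) * X + 2 * Bud g k z d := by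
        rw [ENNReal.tsum_add, ENNReal.tsum_mul_right, ENNReal.tsum_mul_left, Bud]
    _ ≤ 1 * X + 2 * Bud g k z d := by
        gcongr
        exact tsum_tt_le
    _ = _ := by rw [one_mul]

lemma l2_dev_nonneg {d : ℂ} (hd : ‖d‖ = 1) (p : ℂ) : 0 ≤ ‖p‖ - ⟪d, p⟫ := by
  have := real_inner_le_norm d p
  rw [hd, one_mul] at this
  linarith

lemma l2_dev_meas {g : ℂ → ℂ} (hg : GOK g) (k : ℕ) (d : ℂ) :
    Measurable fun y => ENNReal.ofReal (‖lev g k y‖ - ⟪d, lev g k y⟫) :=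
  ((lev_measurable hg.1 k).norm.sub ((lev_measurable hg.1 k).const_inner)).ennreal_ofReal

lemma l2_F2 {g : ℂ → ℂ} (hg : GOK g) {d e : ℂ} (hd : ‖d‖ = 1) (he : ‖e‖ = 1) (k : ℕ)
    (z : ℤ × ℤ) (hgood : Bud g k z d ≤ ENNReal.ofReal eps * mhat g k z) (h : ‖d - e‖ ≤ 1 / 10) :
    mhat g k z ≤ 1000000 * Hm g e k (box z 18) := by
  have hfin : mhat g k z ≠ ⊤ :=
    ne_top_of_le_ne_top hg.2.2.hasFiniteIntegral.ne (mhat_le hg k z)
  set X := ∫⁻ y in boxSet (4 ^ k) z 18, ‖lev g k y‖ₑ with hX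
  have h1 : X ≤ 500000 * (Hm g e k (box z 18) + ENNReal.ofReal (tt 0)⁻¹ * Bud g k z d) := by
    refine le_trans ?_ (mul_le_mul_right
      (add_le_add le_rfl (l2_dev_le hg k z hd (j := 18) (by norm_num))) _)
    rw [l2_Hm_box, ← lintegral_add_right _ (l2_dev_meas hg k d),
      ← lintegral_const_mul' _ _ (by norm_num)]
    refine lintegral_mono fun y => ?_
    have := Hf_lower he hd h (lev g k y)
    rw [← ofReal_norm, ← ENNReal.ofReal_add (Hf_nonneg _ _) (l2_dev_nonneg hd _),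
      ← ENNReal.ofReal_ofNat 500000, ← ENNReal.ofReal_mul (by norm_num)]
    exact ENNReal.ofReal_le_ofReal (by linarith)
  have h2 : (500000 * ENNReal.ofReal (tt 0)⁻¹ + 2) * ENNReal.ofReal eps ≤ 2⁻¹ := by
    have h0 := tt_pos 0
    have h3 := tt_le_one 0
    rw [← ENNReal.ofReal_ofNat 500000, ← ENNReal.ofReal_mul (by norm_num),
      ← ENNReal.ofReal_ofNat 2, ← ENNReal.ofReal_add (by positivity) (by norm_num),
      ← ENNReal.ofReal_mul (by positivity), ← ENNReal.ofReal_inv_of_pos (by norm_num)]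
    refine ENNReal.ofReal_le_ofReal ?_
    have : (500000 * (tt 0)⁻¹ + 2) * eps = 500000 / 10 ^ 7 + 2 * tt 0 / 10 ^ 7 := by
      unfold eps; field_simp
    rw [this]
    linarith
  have h3 : mhat g k z ≤ 500000 * Hm g e k (box z 18) + 2⁻¹ * mhat g k z := by
    calc mhat g k z ≤ X + 2 * Bud g k z d := l2_mhat_le hg k z hd
      _ ≤ 500000 * (Hm g e k (box z 18) + ENNReal.ofReal (tt 0)⁻¹ * Bud g k z d)
            + 2 * Bud g k z d := by gcongr
      _ = 500000 * Hm g e k (box z 18)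
            + (500000 * ENNReal.ofReal (tt 0)⁻¹ + 2) * Bud g k z d := by ring
      _ ≤ 500000 * Hm g e k (box z 18)
            + (500000 * ENNReal.ofReal (tt 0)⁻¹ + 2) * (ENNReal.ofReal eps * mhat g k z) := by
          gcongr
      _ ≤ _ := by
          rw [← mul_assoc]
          gcongr
  have h4 : 2⁻¹ * mhat g k z + 2⁻¹ * mhat g k z = mhat g k z := by
    rw [← add_mul, ENNReal.inv_two_add_inv_two, one_mul]
  have h5 : 2⁻¹ * mhat g k z ≤ 500000 * Hm g e k (box z 18) := by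
    refine ENNReal.le_of_add_le_add_right (a := 2⁻¹ * mhat g k z)
      (ENNReal.mul_ne_top (by norm_num) hfin) ?_
    rw [h4]
    exact h3
  calc mhat g k z = 2⁻¹ * mhat g k z + 2⁻¹ * mhat g k z := h4.symm
    _ ≤ 500000 * Hm g e k (box z 18) + 500000 * Hm g e k (box z 18) := add_le_add h5 h5
    _ = _ := by ring

lemma l2_dir {d d' : ℂ} (hd : ‖d‖ = 1) (hd' : ‖d'‖ = 1) (p : ℂ) :
    ‖p‖ * ‖d - d'‖ ^ 2 ≤ 4 * ((‖p‖ - ⟪d, p⟫) + (‖p‖ - ⟪d', p⟫)) := by
  have h1 := real_inner_le_norm (d + d') p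
  rw [inner_add_left] at h1
  have h2 := parallelogram_law_with_norm ℝ d d'
  rw [hd, hd'] at h2
  have h3 : ‖d - d'‖ ^ 2 = 4 - ‖d + d'‖ ^ 2 := by nlinarith
  rw [h3]
  nlinarith [mul_nonneg (norm_nonneg p) (sq_nonneg (‖d + d'‖ - 2))]

lemma l2_F4 {g : ℂ → ℂ} (hg : GOK g) {d d' : ℂ} (hd : ‖d‖ = 1) (hd' : ‖d'‖ = 1) (k : ℕ)
    {z z' : ℤ × ℤ} (hz : z' ∈ box z 24) :
    mhat g k z * ENNReal.ofReal (‖d - d'‖ ^ 2) ≤ 4 * (Bud g k z d + Bud g k z' d') := by
  rw [mhat, Bud, Bud, ← ENNReal.tsum_add, ← ENNReal.tsum_mul_right, ← ENNReal.tsum_mul_left]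
  refine ENNReal.tsum_le_tsum fun b => ?_
  rw [← mul_add, mul_left_comm, mul_assoc]
  refine mul_le_mul_right ?_ _
  have h1 : boxSet (4 ^ k) z 16 ⊆ boxSet (4 ^ k) z 40 := l2_boxSet_mono _ _ (by norm_num)
  have h2 : boxSet (4 ^ k) z 16 ⊆ boxSet (4 ^ k) z' 40 := fun y hy =>
    mem_box_trans (mem_box_comm.mp hz) hy
  refine le_trans ?_ (mul_le_mul_right
    (add_le_add (lintegral_mono_set h1) (lintegral_mono_set h2)) _)
  rw [← lintegral_add_right _ (l2_dev_meas hg _ d'), ← lintegral_const_mul' _ _ (by norm_num),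
    ← lintegral_mul_const' _ _ ENNReal.ofReal_ne_top]
  refine lintegral_mono fun y => ?_
  rw [← ofReal_norm, ← ENNReal.ofReal_add (l2_dev_nonneg hd _) (l2_dev_nonneg hd' _),
    ← ENNReal.ofReal_ofNat 4, ← ENNReal.ofReal_mul (norm_nonneg _),
    ← ENNReal.ofReal_mul (by norm_num)]
  exact ENNReal.ofReal_le_ofReal (l2_dir hd hd' _)

/-- inputs F2-F5 of the corona construction -/
theorem F2345 : ∃ c : ℝ≥0∞, c ≠ ⊤ ∧ ∀ (g : ℂ → ℂ), GOK g → ∀ (d : ℕ → ℤ × ℤ → ℂ),
    (∀ k z, ‖d k z‖ = 1) → ∀ e : ℂ, ‖e‖ = 1 → ∀ (k : ℕ) (z : ℤ × ℤ),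
      (GoodNode g d k z → ‖d k z - e‖ ≤ 1 / 10 → mhat g k z ≤ c * Hm g e k (box z 18)) ∧
      (¬ GW g d e k z → Hm g e k (box z 6) ≤ c * Bud g k z (d k z)) ∧
      (∀ z' ∈ box z 24, mhat g k z * ENNReal.ofReal (‖d k z - d k z'‖ ^ 2)
        ≤ c * (Bud g k z (d k z) + Bud g k z' (d k z'))) ∧
      (¬ GoodNode g d k z → mhat g k z ≤ c * Bud g k z (d k z)) := by
  set T := ENNReal.ofReal (tt 0)⁻¹
  set E := ENNReal.ofReal eps⁻¹
  have hT : T ≠ ⊤ := ENNReal.ofReal_ne_top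
  have hE : E ≠ ⊤ := ENNReal.ofReal_ne_top
  refine ⟨1000000 + 4000 * T + T * E + 4 + E, by finiteness, fun g hg d hd e he k z => ?_⟩
  have h5 : ¬ GoodNode g d k z → mhat g k z ≤ E * Bud g k z (d k z) := fun h =>
    l2_inv_mul eps_pos (not_le.mp h).le
  refine ⟨fun h1 h2 => ?_, fun h => ?_, fun z' hz' => ?_, fun h => ?_⟩
  · refine (l2_F2 hg (hd k z) he k z h1 h2).trans ?_
    gcongr
    calc (1000000 : ℝ≥0∞) ≤ 1000000 + (4000 * T + T * E + 4 + E) := le_self_add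
      _ = _ := by ring
  · by_cases hgd : GoodNode g d k z
    · have h2 : 3 / 20 < ‖d k z - e‖ := not_le.mp fun h' => h ⟨hgd, h'⟩
      calc Hm g e k (box z 6) ≤ 4000 * ∫⁻ y in boxSet (4 ^ k) z 6,
            ENNReal.ofReal (‖lev g k y‖ - ⟪d k z, lev g k y⟫) := by
            rw [l2_Hm_box, ← lintegral_const_mul' _ _ (by norm_num)]
            refine lintegral_mono fun y => ?_
            rw [← ENNReal.ofReal_ofNat 4000, ← ENNReal.ofReal_mul (by norm_num)]
            exact ENNReal.ofReal_le_ofReal (Hf_upper he (hd k z) h2 _)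
        _ ≤ 4000 * (T * Bud g k z (d k z)) := by
            gcongr
            exact l2_dev_le hg k z (hd k z) (by norm_num)
        _ ≤ _ := by
            rw [← mul_assoc]
            gcongr
            calc 4000 * T ≤ 4000 * T + (1000000 + T * E + 4 + E) := le_self_add
              _ = _ := by ring
    · calc Hm g e k (box z 6) ≤ ∫⁻ y in boxSet (4 ^ k) z 6, ‖lev g k y‖ₑ := by
            rw [l2_Hm_box]
            refine lintegral_mono fun y => ?_
            rw [← ofReal_norm]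
            exact ENNReal.ofReal_le_ofReal (Hf_le_norm he _)
        _ ≤ T * mhat g k z := l2_norm_le hg k z (by norm_num)
        _ ≤ T * (E * Bud g k z (d k z)) := by
            gcongr
            exact h5 hgd
        _ ≤ _ := by
            rw [← mul_assoc]
            gcongr
            calc T * E ≤ T * E + (1000000 + 4000 * T + 4 + E) := le_self_add
              _ = _ := by ring
  · refine (l2_F4 hg (hd k z) (hd k z') k hz').trans ?_
    gcongr
    calc (4 : ℝ≥0∞) ≤ 4 + (1000000 + 4000 * T + T * E + E) := le_self_add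
      _ = _ := by ring
  · refine (h5 h).trans ?_
    gcongr
    exact le_add_self

end Crest.Agent.R112
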