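import Crest.Agent.R112.Tree
import Crest.Agent.R112.Corona
import Crest.Agent.R112.Budget
import Crest.Agent.R112.Avg

/-! # Row 112: the main theorem for `C¹` functions and truncated radii (task F) -/

open MeasureTheory Set Filter Topology Metric
open scoped ENNReal NNReal RealInnerProductSpace

namespace Crest.Agent.R112

theorem main_net : ∃ E : Finset ℂ, (∀ e ∈ E, ‖e‖ = 1) ∧
    ∀ u : ℂ, ‖u‖ = 1 → ∃ e ∈ E, ‖u - e‖ ≤ 1 / 20 := by
  obtain ⟨t, hts, ht, hc⟩ := finite_cover_balls_of_compact (isCompact_sphere (0 : ℂ) 1)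
    (e := 1 / 20) (by norm_num)
  refine ⟨ht.toFinset, fun e he => ?_, fun u hu => ?_⟩
  · simpa using hts (ht.mem_toFinset.1 he)
  · obtain ⟨e, he, hue⟩ := mem_iUnion₂.1 (hc (show u ∈ sphere (0 : ℂ) 1 by simpa using hu))
    exact ⟨e, ht.mem_toFinset.2 he, by rw [mem_ball, dist_eq_norm] at hue; exact hue.le⟩

theorem main_level {n : ℕ} (hn : 1 ≤ n) {r : ℝ} (hr : r ∈ Icc (1 : ℝ) (4 ^ n)) :
    ∃ k < n, r ∈ Icc ((4 : ℝ) ^ k) (4 ^ (k + 1)) := by
  obtain ⟨k, h1, h2⟩ := exists_nat_pow_near hr.1 (show (1 : ℝ) < 4 by norm_num)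
  by_cases hk : k < n
  · exact ⟨k, hk, h1, h2.le⟩
  · obtain ⟨m, rfl⟩ := Nat.exists_eq_add_of_le' hn
    refine ⟨m, by omega, ?_, hr.2⟩
    exact le_trans (pow_le_pow_right₀ (by norm_num) (by omega)) h1

theorem main_enorm_le (L : ℂ →L[ℝ] ℝ) :
    ‖L‖ₑ ≤ ∑ v ∈ ({1, -1, Complex.I, -Complex.I} : Finset ℂ), ENNReal.ofReal (-L v) := by
  have h1 : ‖L‖ ≤ |L 1| + |L Complex.I| := by
    refine L.opNorm_le_bound (by positivity) fun z => ?_
    have hz : z = z.re • (1 : ℂ) + z.im • Complex.I := by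
      simp [Complex.re_add_im]
    have : L z = z.re * L 1 + z.im * L Complex.I := by
      conv_lhs => rw [hz]
      rw [map_add, map_smul, map_smul, smul_eq_mul, smul_eq_mul]
    rw [this, Real.norm_eq_abs]
    have h2 := Complex.abs_re_le_norm z
    have h3 := Complex.abs_im_le_norm z
    calc _ ≤ |z.re| * |L 1| + |z.im| * |L Complex.I| := by
          rw [← abs_mul, ← abs_mul]; exact abs_add_le _ _
      _ ≤ ‖z‖ * |L 1| + ‖z‖ * |L Complex.I| := by gcongr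
      _ = _ := by ring
  have habs : ∀ t : ℝ, ENNReal.ofReal |t| ≤ ENNReal.ofReal (-t) + ENNReal.ofReal (- -t) := by
    intro t
    rcases abs_cases t with h | h
    · rw [h.1, neg_neg]; exact le_add_self
    · rw [h.1]; exact le_self_add
  have e1 : (1 : ℂ) ∉ ({-1, Complex.I, -Complex.I} : Finset ℂ) := by
    simp [Complex.ext_iff]; norm_num
  have e2 : (-1 : ℂ) ∉ ({Complex.I, -Complex.I} : Finset ℂ) := by
    simp [Complex.ext_iff]
  have e3 : Complex.I ∉ ({-Complex.I} : Finset ℂ) := by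
    simp [Complex.ext_iff]; norm_num
  rw [Finset.sum_insert e1, Finset.sum_insert e2, Finset.sum_insert e3, Finset.sum_singleton,
    map_neg, map_neg, ← add_assoc, ← ofReal_norm]
  refine (ENNReal.ofReal_le_ofReal h1).trans ?_
  rw [ENNReal.ofReal_add (abs_nonneg _) (abs_nonneg _)]
  exact add_le_add (habs _) (habs _)

theorem main_cont {f : ℂ → ℝ} {g : ℂ → ℂ} (hf : IsGrad f g) : Continuous f :=
  continuous_iff_continuousAt.2 fun y => (hf y).continuousAt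

theorem main_lip {f : ℂ → ℝ} {g : ℂ → ℂ} (hf : IsGrad f g) (hg : GOK g) {a b : ℝ} (hab : a ≤ b) :
    ∃ L : ℝ≥0, LipschitzWith L (Mx f a b) := by
  obtain ⟨M, hM⟩ := hg.2.1
  have h1 : LipschitzWith M.toNNReal f := hf.lipschitz fun y => (hM y).trans (Real.le_coe_toNNReal M)
  rw [Mx_eq_Wv f hab]
  exact ⟨_, Wv_lip h1 ((LipschitzWith.const a).weaken zero_le_one) b⟩

/-- contribution of the bad nodes -/
theorem main_bad : ∃ C : ℝ≥0∞, C ≠ ⊤ ∧
    ∀ (f : ℂ → ℝ) (g : ℂ → ℂ), IsGrad f g → Continuous g → GOK g → ∀ n : ℕ, 1 ≤ n →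
      ∀ d : ℕ → ℤ × ℤ → ℂ, (∀ k z, ‖d k z‖ = 1) →
      ∃ Φ : ℂ → ℝ≥0∞, Measurable Φ ∧
        ∫⁻ x, Φ x ≤ C * ∑ k ∈ Finset.range n, ∑' z, Bud g k z (d k z) ∧
        ∀ x, DifferentiableAt ℝ (Mx f 1 (4 ^ n)) x → ∀ k < n,
          ∀ r ∈ Icc ((4 : ℝ) ^ k) (4 ^ (k + 1)), Mx f 1 (4 ^ n) x = avg f x r →
          ¬ GoodNode g d k (cellOf (4 ^ k) x) → ‖fderiv ℝ (Mx f 1 (4 ^ n)) x‖ₑ ≤ Φ x := by
  classical
  obtain ⟨Cs, hCs, Hs⟩ := tail_scaled
  obtain ⟨c, hc, Hc⟩ := F2345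
  refine ⟨4 * (Cs * c), by finiteness, fun f g hf hgc hg n hn d hd => ?_⟩
  obtain ⟨M, hM⟩ := hg.2.1
  have h4n : (1 : ℝ) < 4 ^ n := one_lt_pow₀ (by norm_num) (by omega)
  have key : ∀ (k : ℕ) (z : ℤ × ℤ) (v : ℂ), ∃ Ψ : ℂ → ℝ≥0∞, Measurable Ψ ∧
      (‖v‖ = 1 → ∫⁻ x, Ψ x ≤ Cs * mhat g k z ∧
        ∀ x, DifferentiableAt ℝ (Mx f 1 (4 ^ n)) x → k < n → cellOf (4 ^ k) x = z →
          ∀ r ∈ Icc ((4 : ℝ) ^ k) (4 ^ (k + 1)), Mx f 1 (4 ^ n) x = avg f x r →
          ENNReal.ofReal (-fderiv ℝ (Mx f 1 (4 ^ n)) x v) ≤ Ψ x) := by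
    intro k z v
    by_cases hv : ‖v‖ = 1
    swap
    · exact ⟨0, measurable_const, fun h => absurd h hv⟩
    have hl : (0 : ℝ) < 4 ^ k := by positivity
    have hS : ∀ b, ENNReal.ofReal (tt b) * ∫⁻ y in ball (corner (4 ^ k) z) (15 * 4 ^ k),
        ENNReal.ofReal (bad ∅ (lev g (k - nn b) y)) ≤ mhat g k z := by
      intro b
      refine le_trans ?_ (ENNReal.le_tsum b)
      refine mul_le_mul_right ?_ _
      have hsub : ball (corner (4 ^ k) z) (15 * 4 ^ k) ⊆ boxSet (4 ^ k) z 16 := by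
        refine subset_trans ?_ (ball_subset_boxSet hl z 16)
        refine ball_subset_ball ?_
        push_cast
        linarith
      refine le_trans (lintegral_mono fun y => ?_) (lintegral_mono_set hsub)
      simp [bad]
    obtain ⟨Ψ, hΨ, hI, H⟩ := Hs f g (fun b => lev g (k - nn b)) M k (corner (4 ^ k) z) (4 ^ k) ∅ v v
      (mhat g k z) (fun _ => 1) (4 ^ n) hf hgc (fun b => lev_measurable hg.1 _)
      (fun b y => lev_bound hM _ y) (fun b hb => lev_node_eq g hb) hl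
      (fun b => lev_node_sm hg k b) MeasurableSet.empty (empty_subset _) hv hv (by simp)
      hS ((LipschitzWith.const 1).weaken zero_le)
    · refine ⟨Ψ, hΨ, fun _ => ⟨hI, fun x hx hk hz r hr hM => ?_⟩⟩
      have h1 : (1 : ℝ) ≤ 4 ^ k := one_le_pow₀ (by norm_num)
      refine H _ x r ?_ ?_ ?_ (h1.trans hr.1) ?_ h4n hM (fun x' s h1 h2 => ?_) hx
      · have := norm_sub_corner_le hl x
        rw [hz] at this
        linarith
      · linarith [hr.1]
      · have := hr.2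
        rw [pow_succ] at this
        linarith
      · exact hr.2.trans (pow_le_pow_right₀ (by norm_num) hk)
      · rw [Mx_eq_Wv f h4n.le]
        exact le_Wv (main_cont hf) _ _ _ h1 h2
  choose Ψ hΨ H using key
  set V : Finset ℂ := {1, -1, Complex.I, -Complex.I} with hV
  have hV1 : ∀ v ∈ V, ‖v‖ = 1 := by
    intro v hv
    simp only [hV, Finset.mem_insert, Finset.mem_singleton] at hv
    rcases hv with rfl | rfl | rfl | rfl <;> simp
  have hV4 : V.card ≤ 4 := Finset.card_le_four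
  set Θ : ℕ → ℤ × ℤ → ℂ → ℝ≥0∞ := fun k z x =>
    if GoodNode g d k z then 0 else ∑ v ∈ V, Ψ k z v x with hΘ
  have hΘm : ∀ k z, Measurable (Θ k z) := by
    intro k z
    by_cases h : GoodNode g d k z
    · simp only [hΘ, if_pos h]; exact measurable_const
    · simp only [hΘ, if_neg h]; exact Finset.measurable_fun_sum _ fun v _ => hΨ k z v
  have hΘi : ∀ k z, ∫⁻ x, Θ k z x ≤ 4 * (Cs * c) * Bud g k z (d k z) := by
    intro k z
    by_cases h : GoodNode g d k z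
    · simp [hΘ, if_pos h]
    · simp only [hΘ, if_neg h]
      rw [lintegral_finsetSum _ fun v _ => hΨ k z v]
      calc _ ≤ ∑ _v ∈ V, Cs * (c * Bud g k z (d k z)) :=
            Finset.sum_le_sum fun v hv => ((H k z v (hV1 v hv)).1).trans
              (mul_le_mul_right ((Hc g hg d hd 1 (by simp) k z).2.2.2 h) _)
        _ = V.card * (Cs * (c * Bud g k z (d k z))) := by rw [Finset.sum_const, nsmul_eq_mul]
        _ ≤ 4 * (Cs * (c * Bud g k z (d k z))) := by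
            gcongr; exact_mod_cast hV4
        _ = _ := by ring
  refine ⟨fun x => ∑ k ∈ Finset.range n, ∑' z, Θ k z x,
    Finset.measurable_fun_sum _ fun k _ => Measurable.ennreal_tsum (hΘm k), ?_, ?_⟩
  · rw [lintegral_finsetSum _ fun k _ => Measurable.ennreal_tsum (hΘm k), Finset.mul_sum]
    refine Finset.sum_le_sum fun k _ => ?_
    rw [lintegral_tsum fun z => (hΘm k z).aemeasurable, ← ENNReal.tsum_mul_left]
    exact ENNReal.tsum_le_tsum (hΘi k)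
  · intro x hx k hk r hr hM hb
    refine le_trans ?_ (Finset.single_le_sum (f := fun k => ∑' z, Θ k z x)
      (fun _ _ => zero_le) (Finset.mem_range.2 hk))
    refine le_trans ?_ (ENNReal.le_tsum (cellOf (4 ^ k) x))
    simp only [hΘ, if_neg hb]
    exact (main_enorm_le _).trans (Finset.sum_le_sum fun v hv =>
      (H k _ v (hV1 v hv)).2 x hx hk rfl r hr hM)

/-- contribution of the good nodes with direction near `e` -/
theorem main_good : ∃ C : ℝ≥0∞, C ≠ ⊤ ∧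
    ∀ (f : ℂ → ℝ) (g : ℂ → ℂ), IsGrad f g → Continuous g → GOK g → ∀ n : ℕ, 1 ≤ n →
      ∀ d : ℕ → ℤ × ℤ → ℂ, (∀ k z, ‖d k z‖ = 1) → ∀ e : ℂ, ‖e‖ = 1 →
      ∃ Φ : ℂ → ℝ≥0∞, Measurable Φ ∧
        ∫⁻ x, Φ x ≤ C * ((∫⁻ y, ‖g y‖ₑ) + ∑ k ∈ Finset.range n, ∑' z, Bud g k z (d k z)) ∧
        ∀ᵐ x, DifferentiableAt ℝ (Mx f 1 (4 ^ n)) x → ∀ k < n,
          ∀ r ∈ Icc ((4 : ℝ) ^ k) (4 ^ (k + 1)), Mx f 1 (4 ^ n) x = avg f x r →
          GoodNode g d k (cellOf (4 ^ k) x) → ‖d k (cellOf (4 ^ k) x) - e‖ ≤ 1 / 20 →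
          ‖fderiv ℝ (Mx f 1 (4 ^ n)) x‖ₑ ≤ Φ x := by
  classical
  obtain ⟨c, hc, Hc⟩ := F2345
  obtain ⟨Cc, hCc, Hcor⟩ := corona c hc
  obtain ⟨Ct, hCt, Ht⟩ := tree_est
  refine ⟨Ct * (Cc * 11 + 1), by finiteness, fun f g hf hgc hg n hn d hd e he => ?_⟩
  obtain ⟨bud, hbud, Hbud⟩ := F1 hg
  set Mt := ∫⁻ y, ‖g y‖ₑ with hMt
  set S := ∑ k ∈ Finset.range n, ∑' z, Bud g k z (d k z) with hS
  obtain ⟨Tops, hT1, hT2, hT3, hT4⟩ := Hcor n (mhat g) (fun k z => Bud g k z (d k z)) d e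
    (GoodNode g d) (Hm g e) bud Mt hg.2.2.2.ne (mhat_le hg) (Hbud e he)
    (fun k z => (Hc g hg d hd e he k z).1) (fun k z => (Hc g hg d hd e he k z).2.1)
    (fun k z => (Hc g hg d hd e he k z).2.2.1) (fun k z => (Hc g hg d hd e he k z).2.2.2)
  change ∀ k z, _ → _ → _ → ∃ R ∈ Tops, InTree (GW g d e) R (k, z) at hT2
  change ∀ R ∈ Tops, ∀ R' ∈ Tops, ∀ Q, InTree (GW g d e) R Q → InTree (GW g d e) R' Q → _ at hT3
  have key : ∀ R : ℕ × (ℤ × ℤ), ∃ W : ℂ → ℝ, (∃ L : ℝ≥0, LipschitzWith L W) ∧ (R ∈ Tops →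
      (∀ x, W x ≤ Mx f 1 (4 ^ n) x) ∧
        (∀ Q, InTree (GW g d e) R Q → ∀ x, cellOf (4 ^ Q.1) x = Q.2 →
          ∀ r ∈ Icc ((4 : ℝ) ^ Q.1) (4 ^ (Q.1 + 1)), avg f x r ≤ W x) ∧
        ∫⁻ x in boxSet (4 ^ R.1) R.2 0, ‖fderiv ℝ W x‖ₑ
          ≤ Ct * (mhat g R.1 R.2 + ∑' Q : ℕ × (ℤ × ℤ),
            if InTree (GW g d e) R Q then Bud g Q.1 Q.2 (d Q.1 Q.2) else 0)) := by
    intro R
    by_cases hR : R ∈ Tops
    · obtain ⟨W, h1, h2⟩ := Ht f g hf hgc hg n d e R hd he (hT1 R hR).1 (hT1 R hR).2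
      exact ⟨W, h1, fun _ => h2⟩
    · exact ⟨fun _ => 0, ⟨0, LipschitzWith.const 0⟩, fun h => absurd h hR⟩
  choose W hWl H using key
  set Θ : ℕ × (ℤ × ℤ) → ℂ → ℝ≥0∞ := fun R x =>
    if R ∈ Tops then (boxSet (4 ^ R.1) R.2 0).indicator (fun x => ‖fderiv ℝ (W R) x‖ₑ) x else 0
    with hΘ
  have hΘm : ∀ R, Measurable (Θ R) := by
    intro R
    by_cases h : R ∈ Tops
    · simp only [hΘ, if_pos h]
      exact (measurable_fderiv ℝ (W R)).enorm.indicator (measurableSet_boxSet _ _ _)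
    · simp only [hΘ, if_neg h]; exact measurable_const
  have hΘi : ∀ R, ∫⁻ x, Θ R x ≤ Ct * (Tops.indicator (fun R => mhat g R.1 R.2) R +
      ∑' Q : ℕ × (ℤ × ℤ),
        if R ∈ Tops ∧ InTree (GW g d e) R Q then Bud g Q.1 Q.2 (d Q.1 Q.2) else 0) := by
    intro R
    by_cases h : R ∈ Tops
    · simp only [hΘ, if_pos h, h, true_and, indicator_of_mem h, if_true]
      rw [lintegral_indicator (measurableSet_boxSet _ _ _)]
      exact (H R h).2.2
    · simp [hΘ, if_neg h]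
  have hdisj : ∑' R : ℕ × (ℤ × ℤ), ∑' Q : ℕ × (ℤ × ℤ),
      (if R ∈ Tops ∧ InTree (GW g d e) R Q then Bud g Q.1 Q.2 (d Q.1 Q.2) else 0) ≤ S := by
    rw [ENNReal.tsum_comm]
    calc _ ≤ ∑' Q : ℕ × (ℤ × ℤ), (if Q.1 < n then Bud g Q.1 Q.2 (d Q.1 Q.2) else 0) := by
          refine ENNReal.tsum_le_tsum fun Q => ?_
          by_cases h : ∃ R, R ∈ Tops ∧ InTree (GW g d e) R Q
          · obtain ⟨R, hR⟩ := h
            rw [tsum_eq_single R, if_pos hR, if_pos (hR.2.1.trans_lt (hT1 R hR.1).1)]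
            intro R' hR'
            exact if_neg fun h' => hR' (hT3 R' h'.1 R hR.1 Q h'.2 hR.2)
          · rw [ENNReal.tsum_eq_zero.2 fun R => if_neg fun h' => h ⟨R, h'⟩]
            exact zero_le
      _ = S := by
          rw [ENNReal.tsum_prod', tsum_eq_sum (s := Finset.range n)]
          · refine Finset.sum_congr rfl fun k hk => ?_
            simp only [Finset.mem_range.1 hk, if_true]
          · intro k hk
            simp only [Finset.mem_range] at hk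
            simp [hk]
  refine ⟨fun x => ∑' R, Θ R x, Measurable.ennreal_tsum hΘm, ?_, ?_⟩
  · rw [lintegral_tsum fun R => (hΘm R).aemeasurable]
    refine (ENNReal.tsum_le_tsum hΘi).trans ?_
    rw [ENNReal.tsum_mul_left, ENNReal.tsum_add, mul_assoc]
    refine mul_le_mul_right ?_ _
    calc _ ≤ Cc * (Mt + 10 * Mt + S) + S := by
          refine add_le_add (hT4.trans (mul_le_mul_right ?_ _)) hdisj
          exact add_le_add (add_le_add (Hm_univ_le hg he n) (hbud n)) le_rfl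
      _ ≤ Cc * (11 * (Mt + S)) + (Mt + S) := by
          refine add_le_add (mul_le_mul_right ?_ _) le_add_self
          calc Mt + 10 * Mt + S = 11 * Mt + 1 * S := by ring
            _ ≤ 11 * Mt + 11 * S := by gcongr; norm_num
            _ = _ := by ring
      _ = _ := by ring
  · have hae : ∀ᵐ x : ℂ, ∀ R, DifferentiableAt ℝ (W R) x := by
      rw [ae_all_iff]
      intro R
      obtain ⟨L, hL⟩ := hWl R
      exact hL.ae_differentiableAt
    filter_upwards [hae] with x hx hM k hk r hr hMx hgd hde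
    obtain ⟨R, hR, hRQ⟩ := hT2 k _ hk hgd hde
    obtain ⟨h1, h2, -⟩ := H R hR
    have h3 : W R x = Mx f 1 (4 ^ n) x :=
      le_antisymm (h1 x) (hMx ▸ h2 _ hRQ x rfl r hr)
    have h4 := fderiv_eq_of_le (hx R) hM h3 (Eventually.of_forall h1)
    refine le_trans ?_ (ENNReal.le_tsum R)
    have h5 : x ∈ boxSet (4 ^ R.1) R.2 0 := by
      have h6 := hRQ.2.1
      have h7 := hRQ.1
      simp only at h6 h7
      rw [iter_par_cellOf, Nat.add_sub_cancel' h7] at h6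
      change cellOf (4 ^ R.1) x ∈ box R.2 0
      rw [h6]
      exact self_mem_box _ _
    simp only [hΘ, if_pos hR, indicator_of_mem h5, h4, le_refl]

theorem MT_one : ∃ C : ℝ≥0∞, C ≠ ⊤ ∧
    ∀ (f : ℂ → ℝ) (g : ℂ → ℂ), IsGrad f g → Continuous g → GOK g → ∀ n : ℕ, 1 ≤ n →
      ∫⁻ x, ‖fderiv ℝ (Mx f 1 (4 ^ n)) x‖ₑ ≤ C * ∫⁻ y, ‖g y‖ₑ := by
  classical
  obtain ⟨Cb, hCb, Hb⟩ := budget
  obtain ⟨C₁, hC₁, H₁⟩ := main_bad
  obtain ⟨C₂, hC₂, H₂⟩ := main_good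
  obtain ⟨E, hE1, hE2⟩ := main_net
  refine ⟨C₁ * Cb + E.card * (C₂ * (1 + Cb)), by finiteness, fun f g hf hgc hg n hn => ?_⟩
  obtain ⟨d, hd, hS⟩ := Hb g hg n
  obtain ⟨Φ, hΦ, hΦi, hΦp⟩ := H₁ f g hf hgc hg n hn d hd
  choose! Ψ hΨ hΨi hΨp using H₂ f g hf hgc hg n hn d hd
  have h4n : (1 : ℝ) ≤ 4 ^ n := one_le_pow₀ (by norm_num)
  obtain ⟨L, hL⟩ := main_lip hf hg h4n
  have hae : ∀ᵐ x : ℂ, ‖fderiv ℝ (Mx f 1 (4 ^ n)) x‖ₑ ≤ Φ x + ∑ e ∈ E, Ψ e x := by
    filter_upwards [hL.ae_differentiableAt,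
      (ae_ball_iff E.countable_toSet).2 fun e he => hΨp e (hE1 e he)] with x hx hx'
    obtain ⟨r, hr, hM⟩ := Wv_attained (main_cont hf) (fun _ => 1) (4 ^ n) x
    rw [← Mx_eq_Wv f h4n] at hM
    rw [min_eq_left h4n] at hr
    obtain ⟨k, hk, hr'⟩ := main_level hn hr
    by_cases hgd : GoodNode g d k (cellOf (4 ^ k) x)
    · obtain ⟨e, he, hde⟩ := hE2 _ (hd k (cellOf (4 ^ k) x))
      refine le_add_left ((hx' e he hx k hk r hr' hM hgd hde).trans ?_)
      exact Finset.single_le_sum (f := fun e => Ψ e x) (fun _ _ => zero_le) he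
    · exact le_add_right (hΦp x hx k hk r hr' hM hgd)
  refine (lintegral_mono_ae hae).trans ?_
  rw [lintegral_add_left hΦ, lintegral_finsetSum _ fun e he => hΨ e (hE1 e he), add_mul]
  refine add_le_add (hΦi.trans ?_) ?_
  · rw [mul_assoc]; exact mul_le_mul_right hS _
  · rw [mul_assoc, ← nsmul_eq_mul, ← Finset.sum_const]
    refine Finset.sum_le_sum fun e he => (hΨi e (hE1 e he)).trans ?_
    rw [mul_assoc, add_mul, one_mul]
    exact mul_le_mul_right (add_le_add le_rfl hS) _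

theorem main_scale {a : ℝ} (ha : 0 < a) (F : ℂ → ℝ) :
    ∫⁻ x, ‖fderiv ℝ (fun y => F (a • y)) x‖ₑ =
      ENNReal.ofReal a * ENNReal.ofReal |(a ^ 2)⁻¹| * ∫⁻ x, ‖fderiv ℝ F x‖ₑ := by
  have hm : Measurable fun x => ‖fderiv ℝ F x‖ₑ := (measurable_fderiv ℝ F).enorm
  simp only [fderiv_comp_smul, enorm_smul]
  rw [lintegral_const_mul' _ _ enorm_ne_top, ← lintegral_map hm (measurable_const_smul a),
    Measure.map_addHaar_smul volume ha.ne', lintegral_smul_measure, Complex.finrank_real_complex,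
    Real.enorm_eq_ofReal ha.le, smul_eq_mul, mul_assoc]

theorem main_Mx_scale (f : ℂ → ℝ) {a : ℝ} (ha : 0 < a) (b : ℝ) :
    Mx (fun y => f (a • y)) 1 b = fun x => Mx f a (b * a) (a • x) := by
  funext x
  unfold Mx
  congr 1
  have h1 : ∀ r, avg (fun y => f (a • y)) x r = avg f (a • x) (r * a) := by
    intro r
    unfold avg
    simp only [smul_add, smul_smul, mul_comm a r]
  ext t
  constructor
  · rintro ⟨r, hr, rfl⟩
    refine ⟨r * a, ⟨?_, ?_⟩, (h1 r).symm⟩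
    · nlinarith [hr.1]
    · nlinarith [hr.2]
  · rintro ⟨r, hr, rfl⟩
    refine ⟨r / a, ⟨?_, ?_⟩, ?_⟩
    · rw [le_div_iff₀ ha]; linarith [hr.1]
    · rw [div_le_iff₀ ha]; exact hr.2
    · simp only [h1, div_mul_cancel₀ r ha.ne']

theorem MT : ∃ C : ℝ≥0∞, C ≠ ⊤ ∧ MTstmt C := by
  obtain ⟨C, hC, H⟩ := MT_one
  refine ⟨C, hC, fun f hf hfs a n ha hn => ?_⟩
  set F : ℂ → ℝ := fun y => f (a • y) with hF
  have hF1 : ContDiff ℝ 1 F := hf.comp (contDiff_const_smul a)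
  have hF2 : HasCompactSupport F := hfs.comp_smul ha.ne'
  have hc : Continuous (gradient F) :=
    (InnerProductSpace.toDual ℝ ℂ).symm.continuous.comp (hF1.continuous_fderiv one_ne_zero)
  have hs : HasCompactSupport (gradient F) :=
    (hF2.fderiv (𝕜 := ℝ)).comp_left (g := (InnerProductSpace.toDual ℝ ℂ).symm) (map_zero _)
  have hok : GOK (gradient F) :=
    ⟨hc.measurable, hc.bounded_above_of_compact_support hs, hc.integrable_of_hasCompactSupport hs⟩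
  have h1 := H F _ (isGrad_gradient (hF1.differentiable one_ne_zero)) hc hok n hn
  have h2 : ∀ y, ‖gradient F y‖ₑ = ‖fderiv ℝ F y‖ₑ := fun y => by
    rw [← ofReal_norm, ← ofReal_norm, gradient, LinearIsometryEquiv.norm_map]
  simp only [h2] at h1
  rw [hF, main_Mx_scale f ha, main_scale ha, main_scale ha, mul_left_comm] at h1
  refine (ENNReal.mul_le_mul_iff_right ?_ ?_).1 h1
  · refine mul_ne_zero ?_ ?_
    · simpa using ha
    · simpa using ha.ne'
  · finiteness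

end Crest.Agent.R112
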