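import Crest.Agent.R112.TailDet3

/-! # Row 112: oscillation lemma (task O) -/

open MeasureTheory Set Filter Topology Metric
open scoped ENNReal NNReal RealInnerProductSpace

namespace Crest.Agent.R112

theorem osc_measurable_shell (β : ℂ → ℝ≥0∞) (hβ : Measurable β) (x w : ℂ) (r lam δ : ℝ)
    (U : Set ℂ) (hU : MeasurableSet U) :
    Measurable fun s : ℝ => ∫⁻ y in shell (x + s • w) (r + s * lam) δ ∩ U, β y := by
  have hS : MeasurableSet {p : ℝ × ℂ | p.2 ∈ shell (x + p.1 • w) (r + p.1 * lam) δ ∩ U} := by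
    refine MeasurableSet.inter ?_ (measurable_snd hU)
    exact (isClosed_le (f := fun p : ℝ × ℂ => |‖p.2 - (x + p.1 • w)‖ - (r + p.1 * lam)|)
      (by fun_prop) continuous_const).measurableSet
  have h1 := Measurable.lintegral_prod_right' (ν := (volume : Measure ℂ))
    ((hβ.comp measurable_snd).indicator hS)
  convert h1 using 2 with s
  rw [← lintegral_indicator ((measurableSet_shell _ _ _).inter hU)]
  rfl

namespace TData

variable (D : TData)

theorem osc_Gam0 (hK : D.K = ∅) (l : ℕ) (x : ℂ) (r : ℝ) : D.Gam0 l x r = 0 := by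
  simp [Gam0, Gam, gam, good, hK]

theorem osc_davg_le (hK : D.K = ∅) {x w : ℂ} {r lam : ℝ} (h : Adm x r) (hr : 1 / 4 ≤ r)
    (hlam : |lam| ≤ 8 * r) (hw : ‖w‖ + |lam| ≤ 9) :
    |davg D.g x r w lam| ≤ 16 * (10 + 9 / tt 0) + 144 * ∑ b ∈ Finset.Ico 0 D.L, D.A b x r := by
  have hr0 : 0 < r := by linarith
  have hB : ‖((lam / r : ℝ) : ℂ)‖ = |lam| / r := by
    rw [Complex.norm_real, Real.norm_eq_abs, abs_div, abs_of_pos hr0]
  have hM : ∀ y, ‖y - x‖ ≤ r → ‖w + ((lam / r : ℝ) : ℂ) * (y - x)‖ ≤ 9 := by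
    intro y hy
    refine (norm_add_le _ _).trans ?_
    rw [norm_mul, hB]
    have : |lam| / r * ‖y - x‖ ≤ |lam| / r * r := by gcongr
    rw [div_mul_cancel₀ _ hr0.ne'] at this
    linarith
  have h1 := D.end_le h hM
  have h2 := D.abs_le le_rfl h (by rw [hB, div_le_iff₀ hr0]; exact hlam) hM
  rw [D.osc_Gam0 hK] at h2
  have h3 : D.Xi0 D.L x r ≤ 1 / tt 0 + ∑ b ∈ Finset.Ico 0 D.L, D.A b x r :=
    add_le_add (D.chi_bet_le (Nat.zero_le _) h) (Finset.sum_le_sum fun b _ => D.kap_bet_le_A b x r)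
  have h4 := tt_le_one D.L
  have h5 : |∫ y in ball x r, ⟪w + ((lam / r : ℝ) : ℂ) * (y - x), D.g y⟫|
      ≤ 10 + 9 / tt 0 + 9 * ∑ b ∈ Finset.Ico 0 D.L, D.A b x r := by
    have h6 := abs_sub_abs_le_abs_sub
      (∫ y in ball x r, ⟪w + ((lam / r : ℝ) : ℂ) * (y - x), D.g y⟫)
      (D.I D.L x r w ((lam / r : ℝ) : ℂ))
    have h7 : 9 / tt 0 = 9 * (1 / tt 0) := by ring
    linarith
  have hpos : 0 < Real.pi * r ^ 2 := by positivity
  rw [davg_eq_ball _ _ hr0, abs_div, abs_of_pos hpos, div_le_iff₀ hpos]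
  simp only [Complex.real_smul]
  have h8 : 1 ≤ 16 * (Real.pi * r ^ 2) := by nlinarith [Real.pi_gt_three]
  refine h5.trans ((le_mul_of_one_le_right ((abs_nonneg _).trans h5) h8).trans_eq ?_)
  ring

theorem osc_path (hK : D.K = ∅) {x w : ℂ} {r lam a b : ℝ} (hab : a ≤ b) (hab' : b - a ≤ 7)
    (hwl : ‖w‖ + 1 ≤ |lam|) (hw : ‖w‖ + |lam| ≤ 9)
    (h : ∀ s ∈ Icc a b, Adm (x + s • w) (r + s * lam) ∧ 1 / 4 ≤ r + s * lam ∧
      |lam| ≤ 8 * (r + s * lam)) :
    |avg D.f (x + b • w) (r + b * lam) - avg D.f (x + a • w) (r + a * lam)|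
      ≤ 7 * (16 * (10 + 9 / tt 0)) + 144 * 20 := by
  have ht0 := tt_pos 0
  have hc : Continuous fun s : ℝ => davg D.g (x + s • w) (r + s * lam) w lam :=
    (continuous_davg D.hg w lam).comp (f := fun s : ℝ => (x + s • w, r + s * lam)) (by fun_prop)
  rw [← intervalIntegral.integral_eq_sub_of_hasDerivAt
    (fun s _ => hasDerivAt_avg D.hf D.hg x w r lam s) (hc.intervalIntegrable a b),
    intervalIntegral.integral_of_le hab]
  let F : ℕ → ℝ → ℝ≥0∞ := fun j s => ∫⁻ y in shell (x + s • w) (r + s * lam) (5 * Dl j) ∩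
    ball (0 : ℂ) 15, ENNReal.ofReal (D.bet (j + 1) y)
  have hF : ∀ j, Measurable (F j) := fun j =>
    osc_measurable_shell _ (D.measurable_bet _).ennreal_ofReal _ _ _ _ _ _ measurableSet_ball
  have h1 : ∀ s ∈ Ioc a b, ‖davg D.g (x + s • w) (r + s * lam) w lam‖ₑ ≤
      ENNReal.ofReal (16 * (10 + 9 / tt 0)) + 144 * ∑ j ∈ Finset.Ico 0 D.L, F j s := by
    intro s hs
    obtain ⟨h2, h3, h4⟩ := h s (Ioc_subset_Icc_self hs)
    rw [Real.enorm_eq_ofReal_abs]
    refine (ENNReal.ofReal_le_ofReal (D.osc_davg_le hK h2 h3 h4 hw)).trans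
      (ENNReal.ofReal_add_le.trans (add_le_add le_rfl ?_))
    rw [ENNReal.ofReal_mul (by norm_num), ENNReal.ofReal_sum_of_nonneg fun j _ => D.A_nonneg _ _ _,
      ENNReal.ofReal_ofNat]
    refine mul_le_mul_right (Finset.sum_le_sum fun j _ => ?_) _
    have h5 : 5 * Dl j ≤ 1 / 4 := by have := Dl_le j; linarith
    simp only [F]
    rw [inter_eq_left.mpr (shell_subset_ball h2 h5), A,
      integral_eq_lintegral_of_nonneg_ae (Eventually.of_forall (D.bet_nonneg _))
        (D.measurable_bet _).aestronglyMeasurable]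
    exact ENNReal.ofReal_toReal_le
  have h2 : ∀ j ∈ Finset.Ico 0 D.L, ∫⁻ s in Ioc a b, F j s ≤ ENNReal.ofReal (10 * tt j ^ 196) := by
    intro j hj
    refine (lintegral_shell_path _ (D.measurable_bet _).ennreal_ofReal x w r lam _ hwl _ _
      measurableSet_ball).trans ?_
    have h3 : IntegrableOn (D.bet (j + 1)) (ball (0 : ℂ) 15) :=
      Measure.integrableOn_of_bounded (M := D.Mg) measure_ball_lt_top.ne
        (D.measurable_bet _).aestronglyMeasurable (Eventually.of_forall fun y => by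
          rw [Real.norm_of_nonneg (D.bet_nonneg _ _)]; exact D.bet_le _ _)
    have hD := Dl_pos j
    rw [← ofReal_integral_eq_lintegral_ofReal h3 (Eventually.of_forall (D.bet_nonneg _)),
      ← ENNReal.ofReal_mul (by positivity)]
    refine ENNReal.ofReal_le_ofReal ?_
    have h4 := D.bet_set_le (b := j + 1) (Finset.mem_Ico.mp hj).2 subset_rfl
    refine (mul_le_mul_of_nonneg_left h4 (by positivity)).trans_eq ?_
    have := (tt_pos j).ne'
    rw [tt_succ, Dl]
    field_simp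
    norm_num
  have h3 : ∑ j ∈ Finset.Ico 0 D.L, 10 * tt j ^ 196 ≤ 20 := by
    rw [← Finset.mul_sum]
    have := sum_tt_pow_le 0 D.L 196 (by norm_num)
    have := pow_le_one₀ (n := 196) ht0.le (tt_le_one 0)
    linarith
  rw [← ENNReal.ofReal_le_ofReal_iff (by positivity), ← Real.enorm_eq_ofReal_abs]
  refine (enorm_integral_le_lintegral_enorm _).trans
    ((setLIntegral_mono' measurableSet_Ioc h1).trans ?_)
  rw [lintegral_add_left measurable_const, lintegral_const_mul _ (Finset.measurable_fun_sum _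
    fun j _ => hF j), lintegral_finsetSum _ fun j _ => hF j, setLIntegral_const, Real.volume_Ioc,
    ENNReal.ofReal_add (by positivity) (by norm_num)]
  refine add_le_add ?_ ?_
  · rw [← ENNReal.ofReal_mul (by positivity), mul_comm]
    exact ENNReal.ofReal_le_ofReal (mul_le_mul_of_nonneg_right hab' (by positivity))
  · rw [ENNReal.ofReal_mul (by norm_num), ENNReal.ofReal_ofNat 144]
    refine mul_le_mul_right ((Finset.sum_le_sum h2).trans ?_) _
    rw [← ENNReal.ofReal_sum_of_nonneg fun j _ => by have := tt_pos j; positivity]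
    exact ENNReal.ofReal_le_ofReal h3

end TData

/-- Oscillation lemma at unit scale (everything counted as bad). -/
theorem osc_unit : ∃ C : ℝ, ∀ D : TData, D.K = ∅ → ∀ (x : ℂ) (r : ℝ), ‖x‖ ≤ 3 →
    r ∈ Icc (1 / 4 : ℝ) 4 → |avg D.f x r - avg D.f 0 1| ≤ C := by
  refine ⟨2 * (7 * (16 * (10 + 9 / tt 0)) + 144 * 20), fun D hK x r hx hr => ?_⟩
  have h1 := D.osc_path hK (x := 0) (w := x) (r := 1) (lam := 6) (a := 0) (b := 1) zero_le_one
    (by norm_num) (by rw [abs_of_pos (by norm_num)]; linarith)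
    (by rw [abs_of_pos (by norm_num)]; linarith) (by
      intro s hs
      have h2 : ‖(0 : ℂ) + s • x‖ ≤ 3 := by
        rw [zero_add, norm_smul, Real.norm_of_nonneg hs.1]
        nlinarith [hs.1, hs.2, norm_nonneg x]
      rw [abs_of_pos (by norm_num)]
      exact ⟨⟨by linarith [hs.1], by linarith [hs.2], by linarith [hs.2]⟩, by linarith [hs.1],
        by linarith [hs.1]⟩)
  have h2 := D.osc_path hK (x := x) (w := 0) (r := 0) (lam := 1) (a := r) (b := 7)
    (by linarith [hr.2]) (by linarith [hr.1]) (by simp) (by norm_num) (by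
      intro s hs
      simp only [smul_zero, add_zero, mul_one, zero_add, abs_one]
      exact ⟨⟨by linarith [hs.1, hr.1], by linarith [hs.2], by linarith [hs.2]⟩,
        by linarith [hs.1, hr.1], by linarith [hs.1, hr.1]⟩)
  norm_num only [one_smul, zero_smul, zero_add, add_zero, smul_zero, mul_one, zero_mul] at h1 h2
  rw [abs_le] at h1 h2 ⊢
  constructor <;> linarith [h1.1, h1.2, h2.1, h2.2]

end Crest.Agent.R112
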