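import Crest.Agent.R112.Basic

/-! # Row 112: approximation of Sobolev functions and of their absolute values (task G0) -/

open MeasureTheory Set Filter Topology Metric
open scoped ENNReal NNReal RealInnerProductSpace Convolution

namespace Crest.Agent.R112

/-- dominated convergence in `L¹` -/
theorem dct_sob1 {E : Type} [NormedAddCommGroup E] {F : ℕ → ℂ → E} {f : ℂ → E} {b : ℂ → ℝ}
    (hF : ∀ n, AEStronglyMeasurable (F n) volume) (hb : Integrable b)
    (hFb : ∀ n y, ‖F n y‖ ≤ b y) (hlim : ∀ᵐ y, Tendsto (fun n => F n y) atTop (𝓝 (f y)))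
    {η : ℝ≥0∞} (hη : 0 < η) : ∀ᶠ n in atTop, ∫⁻ y, ‖F n y - f y‖ₑ ≤ η := by
  have := tendsto_lintegral_norm_of_dominated_convergence hF hb.2
    (fun n => Eventually.of_forall (hFb n)) hlim
  simp only [ofReal_norm] at this
  exact this.eventually (ge_mem_nhds hη)

/-- Scheffe's lemma -/
theorem scheffe_sob1 {E : Type} [NormedAddCommGroup E] {F : ℕ → ℂ → E} {f : ℂ → E}
    (hF : ∀ n, Integrable (F n)) (hf : Integrable f)
    (hle : ∀ n, ∫ y, ‖F n y‖ ≤ ∫ y, ‖f y‖)
    (hlim : ∀ᵐ y, Tendsto (fun n => F n y) atTop (𝓝 (f y)))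
    {η : ℝ≥0∞} (hη : 0 < η) : ∀ᶠ n in atTop, ∫⁻ y, ‖F n y - f y‖ₑ ≤ η := by
  have hk : Tendsto (fun n => ∫ y, (‖F n y - f y‖ - ‖F n y‖ + ‖f y‖)) atTop
      (𝓝 (∫ _ : ℂ, (0 : ℝ))) := by
    refine tendsto_integral_of_dominated_convergence (fun y => 2 * ‖f y‖)
      (fun n => ((((hF n).sub hf).norm.sub (hF n).norm).add hf.norm).1) (hf.norm.const_mul 2)
      (fun n => Eventually.of_forall fun y => ?_) ?_
    · rw [Real.norm_eq_abs, abs_le]
      have h1 := norm_sub_le (F n y) (f y)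
      have h2 := norm_sub_norm_le (F n y) (f y)
      have h3 := norm_nonneg (f y)
      constructor <;> linarith
    · filter_upwards [hlim] with y hy
      have := ((hy.sub_const (f y)).norm.sub hy.norm).add_const ‖f y‖
      simpa using this
  rw [integral_zero] at hk
  have hk2 : Tendsto (fun n => ENNReal.ofReal (∫ y, (‖F n y - f y‖ - ‖F n y‖ + ‖f y‖))) atTop
      (𝓝 0) := by simpa using ENNReal.tendsto_ofReal hk
  filter_upwards [hk2.eventually (ge_mem_nhds hη)] with n hn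
  refine le_trans ?_ hn
  have hi : Integrable fun y => F n y - f y := (hF n).sub hf
  rw [← ofReal_integral_norm_eq_lintegral_enorm hi]
  apply ENNReal.ofReal_le_ofReal
  have hi2 : Integrable fun y => ‖F n y - f y‖ - ‖F n y‖ := hi.norm.sub (hF n).norm
  rw [integral_add hi2 hf.norm, integral_sub hi.norm (hF n).norm]
  linarith [hle n]

theorem lintegral_tri_sob1 {E : Type} [NormedAddCommGroup E] {a b c : ℂ → E}
    (hb : AEStronglyMeasurable b volume) (hc : AEStronglyMeasurable c volume) :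
    ∫⁻ y, ‖a y - c y‖ₑ ≤ (∫⁻ y, ‖a y - b y‖ₑ) + ∫⁻ y, ‖b y - c y‖ₑ := by
  have hm : AEMeasurable (fun y => ‖b y - c y‖ₑ) volume := (hb.sub hc).enorm
  rw [← lintegral_add_right' _ hm]
  refine lintegral_mono fun y => ?_
  have : a y - c y = (a y - b y) + (b y - c y) := by abel
  rw [this]
  exact enorm_add_le _ _

/-- `Approx` is closed under `L¹` limits -/
theorem approx_closure_sob1 {F : ℂ → ℝ} {G : ℂ → ℂ} (hF : AEStronglyMeasurable F volume)
    (hG : AEStronglyMeasurable G volume)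
    (h : ∀ η : ℝ≥0∞, 0 < η → ∃ (F₁ : ℂ → ℝ) (G₁ : ℂ → ℂ), AEStronglyMeasurable F₁ volume ∧
      AEStronglyMeasurable G₁ volume ∧ Approx F₁ G₁ ∧ ∫⁻ y, ‖F₁ y - F y‖ₑ ≤ η ∧
        ∫⁻ y, ‖G₁ y - G y‖ₑ ≤ η) : Approx F G := by
  intro η hη
  have hη2 : 0 < η / 2 := ENNReal.half_pos hη.ne'
  obtain ⟨F₁, G₁, m1, m2, hA, h1, h2⟩ := h _ hη2
  obtain ⟨F', c1, c2, h3, h4⟩ := hA _ hη2
  refine ⟨F', c1, c2, ?_, ?_⟩
  · exact (lintegral_tri_sob1 m1 hF).trans ((add_le_add h3 h1).trans (ENNReal.add_halves η).le)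
  · exact (lintegral_tri_sob1 m2 hG).trans ((add_le_add h4 h2).trans (ENNReal.add_halves η).le)

theorem norm_gradient_sob1 (F : ℂ → ℝ) (y : ℂ) : ‖gradient F y‖ = ‖fderiv ℝ F y‖ := by
  simp [gradient]

theorem continuous_gradient_sob1 {F : ℂ → ℝ} (hF : ContDiff ℝ 1 F) : Continuous (gradient F) :=
  (InnerProductSpace.toDual ℝ ℂ).symm.continuous.comp (hF.continuous_fderiv one_ne_zero)

theorem gradient_mul_sob1 {a b : ℂ → ℝ} {y : ℂ} (ha : DifferentiableAt ℝ a y)
    (hb : DifferentiableAt ℝ b y) :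
    gradient (fun z => a z * b z) y = a y • gradient b y + b y • gradient a y := by
  unfold gradient
  rw [fderiv_fun_mul ha hb, map_add]
  simp

theorem gradient_comp_sob1 {Φ : ℝ → ℝ} {a : ℂ → ℝ} {y : ℂ} {d : ℝ} (hΦ : HasDerivAt Φ d (a y))
    (ha : DifferentiableAt ℝ a y) :
    gradient (fun z => Φ (a z)) y = d • gradient a y := by
  unfold gradient
  have := (hΦ.comp_hasFDerivAt y ha.hasFDerivAt).fderiv
  rw [show (fun z => Φ (a z)) = Φ ∘ a from rfl, this]
  simp

/-- truncation -/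
theorem approx_smooth_sob1 {F : ℂ → ℝ} (hF : ContDiff ℝ 1 F) (hi : Integrable F)
    (hi' : Integrable (gradient F)) : Approx F (gradient F) := by
  intro η hη
  let χ : ContDiffBump (0 : ℂ) := ⟨1, 2, one_pos, one_lt_two⟩
  have hχ : ContDiff ℝ 1 χ := χ.contDiff
  obtain ⟨C, hC⟩ := (hχ.continuous_fderiv one_ne_zero).bounded_above_of_compact_support
    (χ.hasCompactSupport.fderiv ℝ)
  let c : ℕ → ℝ := fun n => 1 / ((n : ℝ) + 1)
  have hc0 : ∀ n, 0 < c n := fun n => by positivity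
  have hc1 : ∀ n, c n ≤ 1 := fun n => by
    rw [div_le_one (by positivity)]; linarith [Nat.cast_nonneg (α := ℝ) n]
  let ψ : ℕ → ℂ → ℝ := fun n y => χ (c n • y)
  have hψ : ∀ n, ContDiff ℝ 1 (ψ n) := fun n => hχ.comp (contDiff_id.const_smul (c n))
  have hψc : ∀ n, HasCompactSupport (ψ n) := fun n =>
    χ.hasCompactSupport.comp_homeomorph (Homeomorph.smulOfNeZero (c n) (hc0 n).ne')
  have hψd : ∀ n y, ‖gradient (ψ n) y‖ ≤ C := by
    intro n y
    rw [norm_gradient_sob1]
    have h1 : HasFDerivAt (ψ n) ((fderiv ℝ χ (c n • y)).comp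
        (c n • ContinuousLinearMap.id ℝ ℂ)) y :=
      ((hχ.differentiable one_ne_zero) _).hasFDerivAt.comp y ((hasFDerivAt_id y).const_smul (c n))
    rw [h1.fderiv]
    refine (ContinuousLinearMap.opNorm_comp_le _ _).trans ?_
    have h2 : ‖c n • ContinuousLinearMap.id ℝ ℂ‖ ≤ 1 := by
      rw [norm_smul, Real.norm_of_nonneg (hc0 n).le]
      exact mul_le_one₀ (hc1 n) (norm_nonneg _) ContinuousLinearMap.norm_id_le
    calc _ ≤ C * 1 := mul_le_mul (hC _) h2 (norm_nonneg _) ((norm_nonneg _).trans (hC 0))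
      _ = C := mul_one C
  have hev : ∀ y : ℂ, ∀ᶠ n in atTop, (fun z => ψ n z * F z) =ᶠ[𝓝 y] F := by
    intro y
    have h1 : Tendsto (fun n => c n • y) atTop (𝓝 ((0 : ℝ) • y)) :=
      tendsto_one_div_add_atTop_nhds_zero_nat.smul_const y
    rw [zero_smul] at h1
    filter_upwards [h1.eventually (ball_mem_nhds (0 : ℂ) one_pos)] with n hn
    have h2 : ∀ᶠ z in 𝓝 y, c n • z ∈ ball (0 : ℂ) 1 :=
      (continuous_const_smul (c n)).continuousAt.eventually (isOpen_ball.mem_nhds hn)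
    filter_upwards [h2] with z hz
    have : χ (c n • z) = 1 := χ.one_of_mem_closedBall (ball_subset_closedBall hz)
    simp only [ψ, this, one_mul]
  have hP : ∀ n, ContDiff ℝ 1 fun z => ψ n z * F z := fun n => (hψ n).mul hF
  have e1 := dct_sob1 (F := fun n z => ψ n z * F z) (f := F) (b := fun z => ‖F z‖)
    (fun n => (hP n).continuous.aestronglyMeasurable) hi.norm
    (fun n y => by
      rw [norm_mul, Real.norm_of_nonneg χ.nonneg]
      exact mul_le_of_le_one_left (norm_nonneg _) χ.le_one)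
    (Eventually.of_forall fun y =>
      tendsto_const_nhds.congr' ((hev y).mono fun n hn => hn.eq_of_nhds.symm)) hη
  have e2 := dct_sob1 (F := fun n => gradient fun z => ψ n z * F z) (f := gradient F)
    (b := fun z => ‖gradient F z‖ + ‖F z‖ * C)
    (fun n => (continuous_gradient_sob1 (hP n)).aestronglyMeasurable)
    (hi'.norm.add (hi.norm.mul_const C))
    (fun n y => by
      rw [gradient_mul_sob1 (((hψ n).differentiable one_ne_zero) y)
        ((hF.differentiable one_ne_zero) y)]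
      refine (norm_add_le _ _).trans (add_le_add ?_ ?_)
      · rw [norm_smul, Real.norm_of_nonneg χ.nonneg]
        exact mul_le_of_le_one_left (norm_nonneg _) χ.le_one
      · rw [norm_smul]
        exact mul_le_mul_of_nonneg_left (hψd n y) (norm_nonneg _))
    (Eventually.of_forall fun y =>
      tendsto_const_nhds.congr' ((hev y).mono fun n hn => hn.gradient_eq.symm)) hη
  obtain ⟨n, h1, h2⟩ := (e1.and e2).exists
  exact ⟨_, hP n, (hψc n).mul_right, h1, h2⟩

/-- Young's inequality in `L¹` -/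
theorem young_sob1 {E : Type} [NormedAddCommGroup E] [NormedSpace ℝ E] [CompleteSpace E]
    (φ : ContDiffBump (0 : ℂ)) {h : ℂ → E} (hh : Integrable h) :
    ∫ y, ‖(φ.normed volume ⋆[ContinuousLinearMap.lsmul ℝ ℝ, volume] h) y‖ ≤ ∫ y, ‖h y‖ := by
  have h1 := integral_convolution (ContinuousLinearMap.lsmul ℝ ℝ) (φ.integrable_normed (μ := volume))
    hh.norm
  rw [φ.integral_normed] at h1
  simp only [ContinuousLinearMap.lsmul_apply, smul_eq_mul, one_mul] at h1
  rw [← h1]
  refine integral_mono (φ.integrable_normed.integrable_convolution _ hh).norm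
    (φ.integrable_normed.integrable_convolution _ hh.norm) fun y => ?_
  simp only [convolution_lsmul]
  refine (norm_integral_le_integral_norm _).trans (le_of_eq ?_)
  refine integral_congr_ae (Eventually.of_forall fun t => ?_)
  simp only [norm_smul, smul_eq_mul, Real.norm_of_nonneg (φ.nonneg_normed t)]

theorem moll_sob1 {E : Type} [NormedAddCommGroup E] [NormedSpace ℝ E] [CompleteSpace E]
    (φ : ℕ → ContDiffBump (0 : ℂ)) (h1 : Tendsto (fun i => (φ i).rOut) atTop (𝓝 0))
    (h2 : ∀ i, (φ i).rOut ≤ 2 * (φ i).rIn) {h : ℂ → E} (hh : Integrable h) {η : ℝ≥0∞}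
    (hη : 0 < η) : ∀ᶠ n in atTop,
      ∫⁻ y, ‖((φ n).normed volume ⋆[ContinuousLinearMap.lsmul ℝ ℝ, volume] h) y - h y‖ₑ ≤ η :=
  scheffe_sob1 (fun n => (φ n).integrable_normed.integrable_convolution _ hh) hh
    (fun n => young_sob1 (φ n) hh)
    (ContDiffBump.ae_convolution_tendsto_right_of_locallyIntegrable h1 (Eventually.of_forall h2)
      hh.locallyIntegrable) hη

theorem gradient_conv_sob1 {f : ℂ → ℝ} {g : ℂ → ℂ} (h : WG f g) {φ : ℂ → ℝ}
    (hφ : ContDiff ℝ (⊤ : ℕ∞) φ) (hφc : HasCompactSupport φ) (x : ℂ) :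
    gradient (φ ⋆[ContinuousLinearMap.lsmul ℝ ℝ, volume] f) x =
      (φ ⋆[ContinuousLinearMap.lsmul ℝ ℝ, volume] g) x := by
  have hφ1 : ContDiff ℝ 1 φ := hφ.of_le (by exact_mod_cast le_top)
  apply ext_inner_right ℝ
  intro v
  rw [inner_gradient_left, ← convolution_flip,
    (hφc.hasFDerivAt_convolution_right _ h.1 hφ1 x).fderiv,
    convolution_precompR_apply _ h.1 (hφc.fderiv ℝ) (hφ1.continuous_fderiv one_ne_zero),
    convolution_def, convolution_lsmul_swap]
  have hψ : ContDiff ℝ (⊤ : ℕ∞) fun t => φ (x - t) := hφ.comp (contDiff_const.sub contDiff_id)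
  have hψc : HasCompactSupport fun t => φ (x - t) := hφc.comp_homeomorph (Homeomorph.subLeft x)
  have h3 := h.2.2 _ hψ hψc v
  have h4 : ∀ t, fderiv ℝ (fun t => φ (x - t)) t v = -fderiv ℝ φ (x - t) v := by
    intro t
    have := (((hφ1.differentiable one_ne_zero) (x - t)).hasFDerivAt.comp t
      ((hasFDerivAt_id t).const_sub x)).fderiv
    rw [show (fun t => φ (x - t)) = φ ∘ HSub.hSub x from rfl, this]
    simp
  simp only [h4, mul_neg, integral_neg, neg_inj] at h3
  have hint : Integrable fun t => φ (x - t) • g t :=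
    h.2.1.integrable_smul_left_of_hasCompactSupport hψ.continuous hψc
  rw [real_inner_comm, ← integral_inner hint]
  simp only [ContinuousLinearMap.flip_apply, ContinuousLinearMap.lsmul_apply, smul_eq_mul]
  simp only [mul_comm _ (f _), h3, real_inner_smul_right]
  refine integral_congr_ae (Eventually.of_forall fun t => ?_)
  simp only
  rw [real_inner_comm, mul_comm]

/-- mollification and truncation -/
theorem approx_of_WG {f : ℂ → ℝ} {g : ℂ → ℂ} (hf : Integrable f) (hg : Integrable g)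
    (h : WG f g) : Approx f g := by
  refine approx_closure_sob1 hf.1 hg.1 fun η hη => ?_
  let φ : ℕ → ContDiffBump (0 : ℂ) := fun n =>
    ⟨1 / ((n : ℝ) + 1), 2 * (1 / ((n : ℝ) + 1)), by positivity, by
      have : 0 < 1 / ((n : ℝ) + 1) := by positivity
      linarith⟩
  have h1 : Tendsto (fun i => (φ i).rOut) atTop (𝓝 0) := by
    have := (tendsto_one_div_add_atTop_nhds_zero_nat (𝕜 := ℝ)).const_mul (2 : ℝ)
    rwa [mul_zero] at this
  have h2 : ∀ i, (φ i).rOut ≤ 2 * (φ i).rIn := fun i => le_rfl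
  obtain ⟨n, e1, e2⟩ := ((moll_sob1 φ h1 h2 hf hη).and (moll_sob1 φ h1 h2 hg hη)).exists
  have i1 := (φ n).integrable_normed.integrable_convolution (ContinuousLinearMap.lsmul ℝ ℝ) hf
  have i2 := (φ n).integrable_normed.integrable_convolution (ContinuousLinearMap.lsmul ℝ ℝ) hg
  have e : gradient ((φ n).normed volume ⋆[ContinuousLinearMap.lsmul ℝ ℝ, volume] f) =
      ((φ n).normed volume ⋆[ContinuousLinearMap.lsmul ℝ ℝ, volume] g) :=
    funext fun x => gradient_conv_sob1 h (φ n).contDiff_normed (φ n).hasCompactSupport_normed x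
  refine ⟨_, _, i1.1, i2.1, ?_, e1, e2⟩
  rw [← e]
  exact approx_smooth_sob1
    ((φ n).hasCompactSupport_normed.contDiff_convolution_left _ (φ n).contDiff_normed h.1) i1
    (e ▸ i2)

/-- chain rule -/
theorem Approx.comp_sob1 {f : ℂ → ℝ} {g : ℂ → ℂ} (hf : Integrable f) (hg : Integrable g)
    (h : Approx f g) {Φ : ℝ → ℝ} (hΦ : ContDiff ℝ 1 Φ) (h0 : Φ 0 = 0)
    (h1 : ∀ s, |deriv Φ s| ≤ 1) :
    Approx (fun y => Φ (f y)) (fun y => deriv Φ (f y) • g y) := by
  intro η hη
  have hη2 : 0 < η / 2 := ENNReal.half_pos hη.ne'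
  have hd := hΦ.differentiable one_ne_zero
  have hdc : Continuous (deriv Φ) := hΦ.continuous_deriv le_rfl
  have hlip : LipschitzWith 1 Φ := lipschitzWith_of_nnnorm_deriv_le hd fun s => by
    rw [← NNReal.coe_le_coe]; simpa using h1 s
  choose F c1 c2 c3 c4 using fun n : ℕ => h ((2⁻¹ : ℝ≥0∞) ^ n) (by
    apply ENNReal.pow_pos; simp)
  have hm : ∀ n, AEMeasurable (fun y => ‖F n y - f y‖ₑ) volume := fun n =>
    ((c1 n).continuous.aestronglyMeasurable.sub hf.1).enorm
  have hae : ∀ᵐ y, Tendsto (fun n => F n y) atTop (𝓝 (f y)) := by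
    have : ∫⁻ y, ∑' n, ‖F n y - f y‖ₑ ≠ ∞ := by
      rw [lintegral_tsum hm]
      refine ne_top_of_le_ne_top ?_ (ENNReal.tsum_le_tsum c3)
      rw [ENNReal.tsum_geometric]
      simp
    filter_upwards [ae_lt_top' (AEMeasurable.tsum hm) this] with y hy
    have h2 := ENNReal.tendsto_atTop_zero_of_tsum_ne_top hy.ne
    rw [tendsto_iff_edist_tendsto_0]
    simpa only [edist_eq_enorm_sub] using h2
  have hmG : ∀ n, AEStronglyMeasurable (fun y => deriv Φ (F n y) • g y) volume := fun n =>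
    (hdc.comp (c1 n).continuous).aestronglyMeasurable.smul hg.1
  have e1 := dct_sob1 (F := fun n y => deriv Φ (F n y) • g y)
    (f := fun y => deriv Φ (f y) • g y) (b := fun y => ‖g y‖) hmG hg.norm
    (fun n y => by
      rw [norm_smul]
      exact mul_le_of_le_one_left (norm_nonneg _) (h1 _))
    (hae.mono fun y hy => ((hdc.tendsto _).comp hy).smul_const (g y)) hη2
  have e2 : ∀ᶠ n : ℕ in atTop, (2⁻¹ : ℝ≥0∞) ^ n ≤ η / 2 :=
    (ENNReal.tendsto_pow_atTop_nhds_zero_of_lt_one (by simp)).eventually (ge_mem_nhds hη2)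
  obtain ⟨n, e1, e2⟩ := (e1.and e2).exists
  refine ⟨fun y => Φ (F n y), hΦ.comp (c1 n), (c2 n).comp_left h0, ?_, ?_⟩
  · refine le_trans (lintegral_mono fun y => ?_) ((c3 n).trans (e2.trans ENNReal.half_le_self))
    have := hlip.edist_le_mul (F n y) (f y)
    simpa only [edist_eq_enorm_sub, ENNReal.coe_one, one_mul] using this
  · refine (lintegral_tri_sob1 (hmG n) ((hdc.comp_aestronglyMeasurable hf.1).smul hg.1)).trans
      ((add_le_add ?_ e1).trans (ENNReal.add_halves η).le)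
    refine le_trans (lintegral_mono fun y => ?_) ((c4 n).trans e2)
    rw [gradient_comp_sob1 (hd _).hasDerivAt (((c1 n).differentiable one_ne_zero) y), ← smul_sub,
      enorm_smul]
    refine mul_le_of_le_one_left' ?_
    rw [← ofReal_norm, ← ENNReal.ofReal_one]
    exact ENNReal.ofReal_le_ofReal (h1 _)

/-- chain rule for the absolute value -/
theorem Approx.abs {f : ℂ → ℝ} {g : ℂ → ℂ} (hf : Integrable f) (hg : Integrable g)
    (h : Approx f g) :
    ∃ G : ℂ → ℂ, Integrable G ∧ (∀ y, ‖G y‖ ≤ ‖g y‖) ∧ Approx (fun y => |f y|) G := by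
  have hs : ∀ s : ℝ, |s / (|s|)| ≤ 1 := fun s => by
    rw [abs_div, abs_abs]; exact div_self_le_one _
  have hsm : Measurable fun s : ℝ => s / |s| := by fun_prop
  have hb : ∀ y, ‖(f y / |f y|) • g y‖ ≤ ‖g y‖ := fun y => by
    rw [norm_smul]; exact mul_le_of_le_one_left (norm_nonneg _) (hs _)
  have hGm : AEStronglyMeasurable (fun y => (f y / |f y|) • g y) volume :=
    (hsm.comp_aemeasurable hf.1.aemeasurable).aestronglyMeasurable.smul hg.1
  refine ⟨fun y => (f y / |f y|) • g y, hg.norm.mono' hGm (Eventually.of_forall hb), hb, ?_⟩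
  refine approx_closure_sob1 hf.abs.1 hGm fun η hη => ?_
  let c : ℕ → ℝ := fun n => 1 / ((n : ℝ) + 1)
  have hc0 : ∀ n, 0 < c n := fun n => by positivity
  have hc : Tendsto c atTop (𝓝 0) := tendsto_one_div_add_atTop_nhds_zero_nat
  let Φ : ℕ → ℝ → ℝ := fun n s => √(s ^ 2 + c n ^ 2) - c n
  have hpos : ∀ n (s : ℝ), 0 < s ^ 2 + c n ^ 2 := fun n s => by have := hc0 n; positivity
  have hΦ : ∀ n, ContDiff ℝ 1 (Φ n) := fun n =>
    (ContDiff.sqrt (by fun_prop) fun s => (hpos n s).ne').sub contDiff_const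
  have hΦd : ∀ n s, deriv (Φ n) s = s / √(s ^ 2 + c n ^ 2) := by
    intro n s
    have h1 : HasDerivAt (fun s : ℝ => s ^ 2 + c n ^ 2) (2 * s) s := by
      simpa using (hasDerivAt_pow 2 s).add_const (c n ^ 2)
    have := ((h1.sqrt (hpos n s).ne').sub_const (c n)).deriv
    rw [this]
    field_simp
  have hΦ0 : ∀ n, Φ n 0 = 0 := fun n => by
    simp only [Φ]
    rw [zero_pow two_ne_zero, zero_add, Real.sqrt_sq (hc0 n).le, sub_self]
  have hΦ1 : ∀ n s, |deriv (Φ n) s| ≤ 1 := by
    intro n s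
    rw [hΦd, abs_div, abs_of_nonneg (Real.sqrt_nonneg _)]
    apply div_le_one_of_le₀ _ (Real.sqrt_nonneg _)
    apply Real.abs_le_sqrt
    nlinarith [sq_nonneg (c n)]
  have hsq : ∀ s : ℝ, Tendsto (fun n => √(s ^ 2 + c n ^ 2)) atTop (𝓝 |s|) := by
    intro s
    have := ((hc.pow 2).const_add (s ^ 2)).sqrt
    rwa [zero_pow two_ne_zero, add_zero, Real.sqrt_sq_eq_abs] at this
  have m1 : ∀ n, AEStronglyMeasurable (fun y => Φ n (f y)) volume := fun n =>
    (hΦ n).continuous.comp_aestronglyMeasurable hf.1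
  have m2 : ∀ n, AEStronglyMeasurable (fun y => deriv (Φ n) (f y) • g y) volume := fun n =>
    (((hΦ n).continuous_deriv le_rfl).comp_aestronglyMeasurable hf.1).smul hg.1
  have e1 := dct_sob1 (F := fun n y => Φ n (f y)) (f := fun y => |f y|) (b := fun y => ‖f y‖)
    m1 hf.norm
    (fun n y => by
      have hlip : LipschitzWith 1 (Φ n) := lipschitzWith_of_nnnorm_deriv_le
        ((hΦ n).differentiable one_ne_zero) fun s => by
          rw [← NNReal.coe_le_coe]; simpa using hΦ1 n s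
      simpa [hΦ0 n] using hlip.dist_le_mul (f y) 0)
    (Eventually.of_forall fun y => by simpa using (hsq (f y)).sub hc) hη
  have e2 := dct_sob1 (F := fun n y => deriv (Φ n) (f y) • g y)
    (f := fun y => (f y / |f y|) • g y) (b := fun y => ‖g y‖) m2 hg.norm
    (fun n y => by
      rw [norm_smul]
      exact mul_le_of_le_one_left (norm_nonneg _) (hΦ1 n _))
    (Eventually.of_forall fun y => by
      apply Tendsto.smul_const
      simp only [hΦd]
      by_cases h0 : f y = 0
      · simp [h0]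
      · exact tendsto_const_nhds.div (hsq (f y)) (abs_ne_zero.2 h0)) hη
  obtain ⟨n, e1, e2⟩ := (e1.and e2).exists
  exact ⟨_, _, m1 n, m2 n, h.comp_sob1 hf hg (hΦ n) (hΦ0 n) (hΦ1 n), e1, e2⟩

end Crest.Agent.R112
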