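import Crest.Agent.R112.Sob2a

/-! # Row 112: localisation (task G1b) -/

open MeasureTheory Set Filter Topology Metric
open scoped ENNReal NNReal RealInnerProductSpace

namespace Crest.Agent.R112

theorem sob2_enorm_zero : ‖(0 : ℂ →L[ℝ] ℝ)‖ₑ = 0 := by
  rw [← ofReal_norm_eq_enorm, norm_zero, ENNReal.ofReal_zero]

theorem sob2_enorm_add (A B : ℂ →L[ℝ] ℝ) : ‖A + B‖ₑ ≤ ‖A‖ₑ + ‖B‖ₑ := by
  rw [← ofReal_norm_eq_enorm, ← ofReal_norm_eq_enorm, ← ofReal_norm_eq_enorm,
    ← ENNReal.ofReal_add (norm_nonneg _) (norm_nonneg _)]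
  exact ENNReal.ofReal_le_ofReal (norm_add_le _ _)

theorem sob2_int_lin (L : ℂ →L[ℝ] ℝ) : ∫ ξ in ball (0 : ℂ) 1, L ξ = 0 := by
  rw [← integral_indicator measurableSet_ball]
  have h := integral_neg_eq_self ((ball (0 : ℂ) 1).indicator fun ξ => L ξ) volume
  have h2 : (fun x : ℂ => (ball (0 : ℂ) 1).indicator (fun ξ => L ξ) (-x)) =
      fun x => -(ball (0 : ℂ) 1).indicator (fun ξ => L ξ) x := by
    funext x
    by_cases hx : x ∈ ball (0 : ℂ) 1
    · rw [indicator_of_mem hx, indicator_of_mem (by simpa using hx), map_neg]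
    · rw [indicator_of_notMem hx, indicator_of_notMem (by simpa using hx), neg_zero]
  rw [h2, integral_neg] at h
  linarith

/-- centred averages reproduce affine functions -/
theorem sob2_avg_sub {F : ℂ → ℝ} (hF : Continuous F) (L : ℂ →L[ℝ] ℝ) (α : ℝ) (x : ℂ) (r : ℝ) :
    avg (fun y => F y - L y - α) x r = avg F x r - (L x + α) := by
  have hint : ∀ g : ℂ → ℝ, Continuous g → IntegrableOn g (ball (0 : ℂ) 1) := fun g hg =>
    (hg.continuousOn.integrableOn_compact (isCompact_closedBall (0 : ℂ) 1)).mono_set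
      ball_subset_closedBall
  have h1 : (fun ξ : ℂ => F (x + r • ξ) - L (x + r • ξ) - α) =
      fun ξ => F (x + r • ξ) - ((L x + α) + r * L ξ) := by
    funext ξ
    rw [map_add, map_smul, smul_eq_mul]
    ring
  unfold avg
  rw [h1, integral_sub (hint _ (by fun_prop)) (hint _ (by fun_prop)),
    integral_add (hint _ (by fun_prop)) (hint _ (by fun_prop)), integral_const_mul, sob2_int_lin,
    setIntegral_const, measureReal_def, Complex.volume_ball]
  simp only [ENNReal.ofReal_one, one_pow, one_mul, ENNReal.coe_toReal, NNReal.coe_real_pi,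
    smul_eq_mul, mul_zero, add_zero]
  field_simp

theorem sob2_Mx_local {F Ft : ℂ → ℝ} (hF : Continuous F) (L : ℂ →L[ℝ] ℝ) (α : ℝ) {c : ℂ}
    {a b : ℝ} (ha : 0 < a) (hab : a ≤ b) (h : ∀ y ∈ ball c (3 * b), Ft y = F y - L y - α)
    {x : ℂ} (hx : x ∈ ball c (2 * b)) : Mx Ft a b x = Mx F a b x - (L x + α) := by
  have h1 : ∀ r ∈ Icc a b, avg Ft x r = avg F x r - (L x + α) := by
    intro r hr
    rw [← sob2_avg_sub hF]
    unfold avg
    congr 1
    refine setIntegral_congr_fun measurableSet_ball fun ξ hξ => h _ ?_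
    rw [mem_ball_iff_norm] at hx ⊢
    rw [mem_ball_zero_iff] at hξ
    have h2 : ‖r • ξ‖ ≤ b := by
      rw [norm_smul, Real.norm_of_nonneg (ha.le.trans hr.1)]
      nlinarith [hr.1, hr.2, norm_nonneg ξ]
    calc ‖x + r • ξ - c‖ = ‖(x - c) + r • ξ‖ := by congr 1; abel
      _ ≤ ‖x - c‖ + ‖r • ξ‖ := norm_add_le _ _
      _ < 3 * b := by linarith
  have hc : Continuous fun r : ℝ => avg F x r :=
    (continuous_avg hF).comp (Continuous.prodMk_right x)
  unfold Mx
  rw [image_congr h1, ← image_image (fun t => t - (L x + α)) (fun r => avg F x r)]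
  symm
  exact Monotone.map_csSup_of_continuousAt (f := fun t => t - (L x + α)) (by fun_prop)
    (fun s t hst => sub_le_sub_right hst _) ((nonempty_Icc.2 hab).image _)
    (isCompact_Icc.image hc).bddAbove

/-- cut-off functions at all scales -/
theorem sob2_cutoff : ∃ C₀ : ℝ, 0 ≤ C₀ ∧ ∀ (c : ℂ) (b : ℝ), 0 < b → ∃ χ : ℂ → ℝ,
    ContDiff ℝ 1 χ ∧ (∀ y ∈ ball c (3 * b), χ y = 1) ∧
      (∀ y, y ∉ closedBall c (7 / 2 * b) → χ y = 0) ∧ (∀ y, |χ y| ≤ 1) ∧
      ∀ y, ‖fderiv ℝ χ y‖ ≤ C₀ / b := by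
  let χ₀ : ContDiffBump (0 : ℂ) := ⟨3, 7 / 2, by norm_num, by norm_num⟩
  have hχ : ContDiff ℝ 1 χ₀ := χ₀.contDiff
  obtain ⟨C₀, hC₀⟩ := (χ₀.hasCompactSupport.fderiv ℝ).exists_bound_of_continuous
    (hχ.continuous_fderiv one_ne_zero)
  refine ⟨C₀, (norm_nonneg _).trans (hC₀ 0), fun c b hb => ?_⟩
  have hn : ∀ y, ‖b⁻¹ • (y - c)‖ = ‖y - c‖ / b := fun y => by
    rw [norm_smul, Real.norm_of_nonneg (inv_pos.2 hb).le, div_eq_inv_mul]
  refine ⟨fun y => χ₀ (b⁻¹ • (y - c)), hχ.comp (by fun_prop), fun y hy => ?_, fun y hy => ?_,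
    fun y => ?_, fun y => ?_⟩
  · refine χ₀.one_of_mem_closedBall ?_
    rw [mem_closedBall_zero_iff, hn, div_le_iff₀ hb]
    exact (mem_ball_iff_norm.1 hy).le
  · refine χ₀.zero_of_le_dist ?_
    rw [dist_zero_right, hn, le_div_iff₀ hb]
    rw [mem_closedBall_iff_norm, not_le] at hy
    exact hy.le
  · rw [abs_of_nonneg χ₀.nonneg]; exact χ₀.le_one
  · have h1 : HasFDerivAt (fun y : ℂ => b⁻¹ • (y - c)) (b⁻¹ • ContinuousLinearMap.id ℝ ℂ) y :=
      ((hasFDerivAt_id y).sub_const c).const_smul b⁻¹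
    have h2 := (hχ.differentiable one_ne_zero (b⁻¹ • (y - c))).hasFDerivAt.comp y h1
    rw [show fderiv ℝ (fun y => χ₀ (b⁻¹ • (y - c))) y = _ from h2.fderiv]
    refine (ContinuousLinearMap.opNorm_comp_le _ _).trans ?_
    rw [norm_smul, Real.norm_of_nonneg (inv_pos.2 hb).le, ContinuousLinearMap.norm_id, mul_one,
      div_eq_mul_inv]
    exact mul_le_mul_of_nonneg_right (hC₀ _) (inv_pos.2 hb).le

/-- localisation of a function modulo constants -/
theorem sob2_localise : ∃ K : ℝ≥0∞, K ≠ ⊤ ∧ ∀ (φ : ℂ → ℝ), ContDiff ℝ 1 φ → ∀ (c : ℂ) (b : ℝ),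
    0 < b → ∃ (α : ℝ) (Ft : ℂ → ℝ), ContDiff ℝ 1 Ft ∧ HasCompactSupport Ft ∧
      (∀ y ∈ ball c (3 * b), Ft y = φ y - α) ∧
      ∫⁻ y, ‖fderiv ℝ Ft y‖ₑ ≤ K * ∫⁻ y in ball c (12 * b), ‖fderiv ℝ φ y‖ₑ := by
  obtain ⟨C₀, hC₀, hcut⟩ := sob2_cutoff
  refine ⟨1 + ENNReal.ofReal (32 * C₀), by finiteness, fun φ hφ c b hb => ?_⟩
  obtain ⟨χ, hχ, h1, h0, hle, hD⟩ := hcut c b hb
  obtain ⟨α, hα⟩ := poincare hφ c (s := 4 * b) (by positivity)
  rw [show 3 * (4 * b) = 12 * b by ring] at hα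
  have hz : ∀ y, y ∉ closedBall c (7 / 2 * b) → χ y * (φ y - α) = 0 := fun y hy => by
    rw [h0 y hy, zero_mul]
  refine ⟨α, fun y => χ y * (φ y - α), hχ.mul (hφ.sub contDiff_const),
    HasCompactSupport.intro (isCompact_closedBall c (7 / 2 * b)) hz,
    fun y hy => by beta_reduce; rw [h1 y hy, one_mul], ?_⟩
  have hpt : ∀ y, ‖fderiv ℝ (fun y => χ y * (φ y - α)) y‖ₑ ≤ (ball c (4 * b)).indicator
      (fun y => ‖fderiv ℝ φ y‖ₑ + ENNReal.ofReal (C₀ / b) * ‖φ y - α‖ₑ) y := by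
    intro y
    by_cases hy : y ∈ ball c (4 * b)
    · rw [indicator_of_mem hy]
      have d1 := (hχ.differentiable one_ne_zero y).hasFDerivAt
      have d2 := (hφ.differentiable one_ne_zero y).hasFDerivAt.sub_const α
      rw [show fderiv ℝ (fun y => χ y * (φ y - α)) y = _ from (d1.mul d2).fderiv,
        ← ofReal_norm_eq_enorm, ← ofReal_norm_eq_enorm, ← ofReal_norm_eq_enorm,
        ← ENNReal.ofReal_mul (by positivity), ← ENNReal.ofReal_add (by positivity) (by positivity)]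
      refine ENNReal.ofReal_le_ofReal ((norm_add_le _ _).trans (add_le_add ?_ ?_))
      · rw [norm_smul]
        exact mul_le_of_le_one_left (norm_nonneg _) (hle y)
      · rw [norm_smul, mul_comm]
        exact mul_le_mul_of_nonneg_right (hD y) (norm_nonneg _)
    · rw [indicator_of_notMem hy]
      have hy' : y ∈ (closedBall c (7 / 2 * b))ᶜ := fun h =>
        hy (closedBall_subset_ball (by linarith) h)
      have : (fun y => χ y * (φ y - α)) =ᶠ[𝓝 y] fun _ => 0 := by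
        filter_upwards [isClosed_closedBall.isOpen_compl.mem_nhds hy'] with w hw using hz w hw
      rw [this.fderiv_eq, fderiv_const_apply, sob2_enorm_zero]
  refine (lintegral_mono hpt).trans ?_
  rw [lintegral_indicator measurableSet_ball,
    lintegral_add_left (measurable_fderiv ℝ φ).enorm,
    lintegral_const_mul' _ _ ENNReal.ofReal_ne_top, add_mul, one_mul]
  refine add_le_add (lintegral_mono_set (ball_subset_ball (by linarith))) ?_
  refine (mul_le_mul_right hα _).trans (le_of_eq ?_)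
  rw [← mul_assoc, ← ENNReal.ofReal_mul (by positivity)]
  congr 2
  field_simp
  ring

/-- the estimate on one square -/
theorem sob2_cell {C : ℝ≥0∞} (hC : C ≠ ⊤) (hMT : MTstmt C) : ∃ C₁ : ℝ≥0∞, C₁ ≠ ⊤ ∧
    ∀ (a : ℝ) (n : ℕ), 0 < a → 1 ≤ n → ∀ F : ℂ → ℝ, ContDiff ℝ 1 F → HasCompactSupport F →
      ∀ (L : ℂ →L[ℝ] ℝ) (z : ℤ × ℤ),
        ∫⁻ x in boxSet (4 ^ n * a) z 0, ‖fderiv ℝ (Mx F a (4 ^ n * a)) x - L‖ₑ ≤
          C₁ * ∫⁻ y in ball (corner (4 ^ n * a) z) (12 * (4 ^ n * a)), ‖fderiv ℝ F y - L‖ₑ := by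
  obtain ⟨K, hK, hloc⟩ := sob2_localise
  refine ⟨C * K, ENNReal.mul_ne_top hC hK, fun a n ha hn F hF hFc L z => ?_⟩
  set b := 4 ^ n * a with hb
  have hab : a ≤ b := le_mul_of_one_le_left ha.le (one_le_pow₀ (by norm_num))
  have hb0 : 0 < b := ha.trans_le hab
  obtain ⟨α, Ft, h1, h2, h3, h4⟩ := hloc (fun y => F y - L y) (hF.sub L.contDiff) (corner b z) b hb0
  have hD : ∀ y, fderiv ℝ (fun y => F y - L y) y = fderiv ℝ F y - L := fun y =>
    ((hF.differentiable one_ne_zero y).hasFDerivAt.sub L.hasFDerivAt).fderiv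
  simp only [hD] at h4
  obtain ⟨M, hM⟩ := hF.lipschitzWith_of_hasCompactSupport hFc one_ne_zero
  have hlip : LipschitzWith (2 * M) (Mx F a b) := by
    rw [Mx_eq_Wv F hab]
    exact Wv_lip hM ((LipschitzWith.const a).weaken zero_le_one) b
  calc _ = ∫⁻ x in boxSet b z 0, ‖fderiv ℝ (Mx Ft a b) x‖ₑ := by
        refine lintegral_congr_ae ?_
        rw [EventuallyEq, ae_restrict_iff' (measurableSet_boxSet b z 0)]
        filter_upwards [hlip.ae_differentiableAt (μ := volume)] with x hx hxz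
        have hz : cellOf b x = z := by
          have : cellOf b x ∈ box z 0 := hxz
          rwa [box_zero] at this
        have hx2 : x ∈ ball (corner b z) (2 * b) := by
          have := norm_sub_corner_le hb0 x
          rw [hz] at this
          rw [mem_ball_iff_norm]
          linarith
        have hev : Mx Ft a b =ᶠ[𝓝 x] fun y => Mx F a b y - (L y + α) := by
          filter_upwards [isOpen_ball.mem_nhds hx2] with y hy
          exact sob2_Mx_local hF.continuous L α ha hab h3 hy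
        rw [hev.fderiv_eq,
          show fderiv ℝ (fun y => Mx F a b y - (L y + α)) x = _ from
            (hx.hasFDerivAt.sub (L.hasFDerivAt.add_const α)).fderiv]
    _ ≤ ∫⁻ x, ‖fderiv ℝ (Mx Ft a b) x‖ₑ := setLIntegral_le_lintegral _ _
    _ ≤ C * ∫⁻ x, ‖fderiv ℝ Ft x‖ₑ := hMT Ft h1 h2 a n ha hn
    _ ≤ _ := by rw [mul_assoc]; exact mul_le_mul_right h4 _

/-- localisation of the main theorem: for small radii the gradient of the maximal function is
close in `L¹` to the gradient of the function -/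
theorem local_est {C : ℝ≥0∞} (hC : C ≠ ⊤) (hMT : MTstmt C) : ∃ C' : ℝ≥0∞, C' ≠ ⊤ ∧
    ∀ F₀ : ℂ → ℝ, ContDiff ℝ 1 F₀ → HasCompactSupport F₀ → ∀ η : ℝ≥0∞, 0 < η →
      ∃ b₀ : ℝ, 0 < b₀ ∧ ∀ (a : ℝ) (n : ℕ), 0 < a → 1 ≤ n → 4 ^ n * a ≤ b₀ →
        ∀ F : ℂ → ℝ, ContDiff ℝ 1 F → HasCompactSupport F →
          ∫⁻ x, ‖fderiv ℝ (Mx F a (4 ^ n * a)) x - fderiv ℝ F₀ x‖ₑ
            ≤ C' * (∫⁻ x, ‖fderiv ℝ F x - fderiv ℝ F₀ x‖ₑ) + η := by
  obtain ⟨C₁, hC₁, hcell⟩ := sob2_cell hC hMT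
  refine ⟨C₁ * ((2 * 12 + 1 : ℕ) : ℝ≥0∞) ^ 2, by finiteness, fun F₀ hF₀ hF₀c η hη => ?_⟩
  have hcont : Continuous (fderiv ℝ F₀) := hF₀.continuous_fderiv one_ne_zero
  have hcs : HasCompactSupport (fderiv ℝ F₀) := hF₀c.fderiv ℝ
  obtain ⟨R, hR⟩ := hcs.isCompact.isBounded.subset_closedBall (0 : ℂ)
  have hR0 : ∀ y : ℂ, R < ‖y‖ → fderiv ℝ F₀ y = 0 := fun y hy =>
    image_eq_zero_of_notMem_tsupport fun h => by
      have := hR h
      rw [mem_closedBall_zero_iff] at this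
      linarith
  obtain ⟨δ, hδ, hδη⟩ := ENNReal.exists_nnreal_pos_mul_lt
    (a := (C₁ + 1) * (((2 * 12 + 1 : ℕ) : ℝ≥0∞) ^ 2 * volume (closedBall (0 : ℂ) (R + 12))))
    (ENNReal.mul_ne_top (by finiteness)
      (ENNReal.mul_ne_top (by finiteness) measure_closedBall_lt_top.ne)) hη.ne'
  obtain ⟨ρ, hρ, huc⟩ := Metric.uniformContinuous_iff.1
    (hcont.uniformContinuous_of_tendsto_cocompact hcs.is_zero_at_infty) δ (by exact_mod_cast hδ)
  refine ⟨min 1 (ρ / 12), by positivity, fun a n ha hn hb₀ F hF hFc => ?_⟩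
  set b := 4 ^ n * a with hb
  have hb0 : 0 < b := by positivity
  have hb1 : b ≤ 1 := hb₀.trans (min_le_left _ _)
  have hb2 : 12 * b ≤ ρ := by linarith [hb₀.trans (min_le_right _ _)]
  let ω : ℂ → ℝ≥0∞ := (closedBall (0 : ℂ) (R + 12)).indicator fun _ => (δ : ℝ≥0∞)
  have hω : Measurable ω := measurable_const.indicator measurableSet_closedBall
  have hE : Measurable fun y => ‖fderiv ℝ F y - fderiv ℝ F₀ y‖ₑ :=
    ((hF.continuous_fderiv one_ne_zero).sub hcont).measurable.enorm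
  have hsub : ∀ z, ball (corner b z) (12 * b) ⊆ boxSet b z 12 := fun z => by
    simpa using ball_subset_boxSet hb0 z 12
  have hosc : ∀ z, ∀ y ∈ ball (corner b z) (12 * b),
      ‖fderiv ℝ F₀ y - fderiv ℝ F₀ (corner b z)‖ₑ ≤ ω y := by
    intro z y hy
    by_cases hyR : y ∈ closedBall (0 : ℂ) (R + 12)
    · simp only [ω, indicator_of_mem hyR]
      have := huc ((mem_ball.1 hy).trans_le hb2)
      rw [dist_eq_norm] at this
      rw [← ofReal_norm_eq_enorm, ← ENNReal.ofReal_coe_nnreal]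
      exact ENNReal.ofReal_le_ofReal this.le
    · rw [mem_closedBall_zero_iff, not_le] at hyR
      have h1 := mem_ball_iff_norm.1 hy
      have h2 := norm_sub_norm_le y (corner b z)
      rw [hR0 y (by linarith), hR0 (corner b z) (by linarith), sub_zero, sob2_enorm_zero]
      exact zero_le
  have hz : ∀ z, ∫⁻ x in boxSet b z 0, ‖fderiv ℝ (Mx F a b) x - fderiv ℝ F₀ x‖ₑ ≤
      C₁ * (∫⁻ y in boxSet b z 12, ‖fderiv ℝ F y - fderiv ℝ F₀ y‖ₑ) +
        (C₁ + 1) * ∫⁻ y in boxSet b z 12, ω y := by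
    intro z
    set L := fderiv ℝ F₀ (corner b z) with hL
    have h1 : ∫⁻ x in boxSet b z 0, ‖fderiv ℝ (Mx F a b) x - fderiv ℝ F₀ x‖ₑ ≤
        ∫⁻ x in boxSet b z 0, (ω x + ‖fderiv ℝ (Mx F a b) x - L‖ₑ) := by
      refine setLIntegral_mono' (measurableSet_boxSet b z 0) fun x hx => ?_
      have hxz : cellOf b x = z := by
        have : cellOf b x ∈ box z 0 := hx
        rwa [box_zero] at this
      have hx2 : x ∈ ball (corner b z) (12 * b) := by
        have := norm_sub_corner_le hb0 x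
        rw [hxz] at this
        rw [mem_ball_iff_norm]
        linarith
      have e : fderiv ℝ (Mx F a b) x - fderiv ℝ F₀ x =
          (fderiv ℝ (Mx F a b) x - L) - (fderiv ℝ F₀ x - L) := by abel
      rw [e, add_comm]
      exact enorm_sub_le.trans (add_le_add le_rfl (hosc z x hx2))
    have h2 : ∫⁻ y in ball (corner b z) (12 * b), ‖fderiv ℝ F y - L‖ₑ ≤
        ∫⁻ y in boxSet b z 12, (‖fderiv ℝ F y - fderiv ℝ F₀ y‖ₑ + ω y) := by
      refine le_trans (setLIntegral_mono' measurableSet_ball fun y hy => ?_)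
        (lintegral_mono_set (hsub z))
      have e : fderiv ℝ F y - L = (fderiv ℝ F y - fderiv ℝ F₀ y) + (fderiv ℝ F₀ y - L) := by abel
      rw [e]
      exact (sob2_enorm_add _ _).trans (add_le_add le_rfl (hosc z y hy))
    rw [lintegral_add_left hω] at h1
    rw [lintegral_add_left hE] at h2
    have h3 : ∫⁻ x in boxSet b z 0, ω x ≤ ∫⁻ x in boxSet b z 12, ω x :=
      lintegral_mono_set fun x hx => box_mono z (by norm_num) hx
    refine h1.trans ((add_le_add h3 ((hcell a n ha hn F hF hFc L z).trans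
      (mul_le_mul_right h2 _))).trans (le_of_eq ?_))
    ring
  rw [← tsum_lintegral_cell b]
  refine (ENNReal.tsum_le_tsum hz).trans ?_
  rw [ENNReal.tsum_add, ENNReal.tsum_mul_left, ENNReal.tsum_mul_left, mul_assoc]
  refine add_le_add (mul_le_mul_right (tsum_lintegral_boxSet_le b 12 _ hE) _) ?_
  refine (mul_le_mul_right (tsum_lintegral_boxSet_le b 12 _ hω) _).trans
    (le_trans (le_of_eq ?_) hδη.le)
  rw [lintegral_indicator_const measurableSet_closedBall]
  ring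

end Crest.Agent.R112
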