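import Crest.Agent.R112.Avg
import Crest.Agent.R112.Lattice

/-! # Row 112: translation estimate, lower semicontinuity, Poincare, localisation (task G1a) -/

open MeasureTheory Set Filter Topology Metric
open scoped ENNReal NNReal RealInnerProductSpace

namespace Crest.Agent.R112

/-- averaging a density along segments -/
theorem seg_avg_sob2a {D : ℂ → ℝ≥0∞} (hD : Measurable D) {A A' : Set ℂ} (hA : MeasurableSet A)
    (hA' : MeasurableSet A') (h : ℂ) (hAA : ∀ y ∈ A, ∀ t ∈ Ioc (0 : ℝ) 1, y + t • h ∈ A') :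
    ∫⁻ y in A, ∫⁻ t in Ioc (0 : ℝ) 1, D (y + t • h) ≤ ∫⁻ y in A', D y := by
  have hm : Measurable (Function.uncurry fun (y : ℂ) (t : ℝ) => D (y + t • h)) :=
    hD.comp (by fun_prop)
  rw [lintegral_lintegral_swap hm.aemeasurable]
  calc ∫⁻ t in Ioc (0 : ℝ) 1, ∫⁻ y in A, D (y + t • h)
      ≤ ∫⁻ _ in Ioc (0 : ℝ) 1, ∫⁻ y in A', D y := by
        refine setLIntegral_mono' measurableSet_Ioc fun t ht => ?_
        rw [← lintegral_indicator hA, ← lintegral_indicator hA',
          ← lintegral_add_right_eq_self (A'.indicator D) (t • h)]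
        refine lintegral_mono fun y => ?_
        by_cases hy : y ∈ A
        · rw [indicator_of_mem hy, indicator_of_mem (hAA y hy t ht)]
        · rw [indicator_of_notMem hy]; exact zero_le
    _ = ∫⁻ y in A', D y := by simp

theorem enorm_intervalIntegral_sob2a (γ : ℝ → ℝ) :
    ‖∫ t in (0 : ℝ)..1, γ t‖ₑ ≤ ∫⁻ t in Ioc (0 : ℝ) 1, ‖γ t‖ₑ := by
  rw [intervalIntegral.integral_of_le zero_le_one]
  exact enorm_integral_le_lintegral_enorm _

/-- translation estimate for Lipschitz functions -/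
theorem lintegral_transl_le {w : ℂ → ℝ} {L : ℝ≥0} (hw : LipschitzWith L w) (h : ℂ) :
    ∫⁻ x, ‖w (x + h) - w x‖ₑ ≤ ‖h‖ₑ * ∫⁻ x, ‖fderiv ℝ w x‖ₑ := by
  have hD : Measurable fun x => ‖lineDeriv ℝ w x h‖ₑ := (measurable_lineDeriv hw.continuous).enorm
  have h1 : ∀ x, ‖w (x + h) - w x‖ₑ ≤ ∫⁻ t in Ioc (0 : ℝ) 1, ‖lineDeriv ℝ w (x + t • h) h‖ₑ := by
    intro x
    have hl : LipschitzWith ‖h‖₊ fun t : ℝ => x + t • h := by
      refine LipschitzWith.of_dist_le_mul fun s t => ?_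
      rw [dist_add_left, dist_eq_norm, ← sub_smul, norm_smul, dist_eq_norm, mul_comm]
      rfl
    have hac := ((hw.comp hl).lipschitzOnWith (s := uIcc 0 1)).absolutelyContinuousOnInterval
    have h2 := hac.integral_deriv_eq_sub
    simp only [Function.comp_apply, one_smul, zero_smul, add_zero] at h2
    rw [← h2]
    refine (enorm_intervalIntegral_sob2a _).trans (le_of_eq ?_)
    refine lintegral_congr fun t => ?_
    congr 1
    unfold lineDeriv
    have := deriv_comp_const_add (w ∘ fun t : ℝ => x + t • h) t 0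
    rw [add_zero] at this
    rw [← this]
    congr 1
    funext s
    simp only [Function.comp_apply, add_smul, add_assoc]
  calc ∫⁻ x, ‖w (x + h) - w x‖ₑ
      ≤ ∫⁻ x in univ, ∫⁻ t in Ioc (0 : ℝ) 1, ‖lineDeriv ℝ w (x + t • h) h‖ₑ := by
        rw [Measure.restrict_univ]; exact lintegral_mono h1
    _ ≤ ∫⁻ x in univ, ‖lineDeriv ℝ w x h‖ₑ :=
        seg_avg_sob2a hD MeasurableSet.univ MeasurableSet.univ h fun _ _ _ _ => mem_univ _
    _ ≤ ∫⁻ x, ‖h‖ₑ * ‖fderiv ℝ w x‖ₑ := by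
        rw [Measure.restrict_univ]
        refine lintegral_mono_ae ?_
        filter_upwards [hw.ae_differentiableAt (μ := volume)] with x hx
        rw [hx.lineDeriv_eq_fderiv, mul_comm]
        exact (fderiv ℝ w x).le_opENorm h
    _ = _ := lintegral_const_mul' _ _ enorm_ne_top

theorem lsc_dir_sob2a {w : ℂ → ℝ} {u : ℕ → ℂ → ℝ} {L : ℝ≥0} (hw : LipschitzWith L w)
    (hu : ∀ j, ∃ L' : ℝ≥0, LipschitzWith L' (u j))
    (hlim : ∀ x, Tendsto (fun j => u j x) atTop (𝓝 (w x))) {v : ℂ} (hv : ‖v‖ = 1) :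
    ∫⁻ x, ‖fderiv ℝ w x v‖ₑ ≤ liminf (fun j => ∫⁻ x, ‖fderiv ℝ (u j) x‖ₑ) atTop := by
  let c : ℕ → ℝ := fun k => 1 / ((k : ℝ) + 1)
  have hc0 : ∀ k, 0 < c k := fun k => by positivity
  have hc : Tendsto c atTop (𝓝[≠] 0) :=
    tendsto_nhdsWithin_iff.2 ⟨tendsto_one_div_add_atTop_nhds_zero_nat,
      Eventually.of_forall fun k => (hc0 k).ne'⟩
  have huc : ∀ j, Continuous (u j) := fun j => (hu j).choose_spec.continuous
  have hwc := hw.continuous
  have step : ∀ k, ∫⁻ x, ‖(c k)⁻¹ • (w (x + c k • v) - w x)‖ₑ ≤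
      liminf (fun j => ∫⁻ x, ‖fderiv ℝ (u j) x‖ₑ) atTop := by
    intro k
    calc ∫⁻ x, ‖(c k)⁻¹ • (w (x + c k • v) - w x)‖ₑ
        = ∫⁻ x, liminf (fun j => ‖(c k)⁻¹ • (u j (x + c k • v) - u j x)‖ₑ) atTop := by
          refine lintegral_congr fun x => (Tendsto.liminf_eq ?_).symm
          exact (((hlim _).sub (hlim _)).const_smul _).enorm
      _ ≤ liminf (fun j => ∫⁻ x, ‖(c k)⁻¹ • (u j (x + c k • v) - u j x)‖ₑ) atTop := by
          refine lintegral_liminf_le fun j => ?_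
          have := huc j
          exact (Continuous.measurable (by fun_prop)).enorm
      _ ≤ _ := by
          refine liminf_le_liminf (Eventually.of_forall fun j => ?_)
          obtain ⟨L', hL'⟩ := hu j
          simp only [enorm_smul]
          rw [lintegral_const_mul' _ _ enorm_ne_top]
          refine (mul_le_mul_right (lintegral_transl_le hL' _) _).trans (le_of_eq ?_)
          rw [← mul_assoc, ← enorm_smul, smul_smul, inv_mul_cancel₀ (hc0 k).ne', one_smul,
            ← ofReal_norm, hv, ENNReal.ofReal_one, one_mul]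
  calc ∫⁻ x, ‖fderiv ℝ w x v‖ₑ
      = ∫⁻ x, liminf (fun k => ‖(c k)⁻¹ • (w (x + c k • v) - w x)‖ₑ) atTop := by
        refine lintegral_congr_ae ?_
        filter_upwards [hw.ae_differentiableAt (μ := volume)] with x hx
        refine (Tendsto.liminf_eq ?_).symm
        have h1 : HasLineDerivAt ℝ w (fderiv ℝ w x v) x v := hx.hasFDerivAt.hasLineDerivAt v
        exact (h1.tendsto_slope_zero.comp hc).enorm
    _ ≤ liminf (fun k => ∫⁻ x, ‖(c k)⁻¹ • (w (x + c k • v) - w x)‖ₑ) atTop :=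
        lintegral_liminf_le fun k => (Continuous.measurable (by fun_prop)).enorm
    _ ≤ _ := liminf_le_of_frequently_le' (Frequently.of_forall step)

/-- lower semicontinuity of the variation (up to a factor 2) -/
theorem lsc {w : ℂ → ℝ} {u : ℕ → ℂ → ℝ} {L : ℝ≥0} (hw : LipschitzWith L w)
    (hu : ∀ j, ∃ L' : ℝ≥0, LipschitzWith L' (u j))
    (hlim : ∀ x, Tendsto (fun j => u j x) atTop (𝓝 (w x))) :
    ∫⁻ x, ‖fderiv ℝ w x‖ₑ ≤ 2 * liminf (fun j => ∫⁻ x, ‖fderiv ℝ (u j) x‖ₑ) atTop := by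
  have key : ∀ T : ℂ →L[ℝ] ℝ, ‖T‖ₑ ≤ ‖T 1‖ₑ + ‖T Complex.I‖ₑ := by
    intro T
    rw [← ofReal_norm, ← ofReal_norm, ← ofReal_norm,
      ← ENNReal.ofReal_add (norm_nonneg _) (norm_nonneg _)]
    refine ENNReal.ofReal_le_ofReal (T.opNorm_le_bound (by positivity) fun z => ?_)
    have e : z = z.re • (1 : ℂ) + z.im • Complex.I := by
      apply Complex.ext <;> simp
    have e2 : T z = z.re • T 1 + z.im • T Complex.I := by
      conv_lhs => rw [e]
      rw [map_add, map_smul, map_smul]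
    rw [e2, add_mul]
    refine (norm_add_le _ _).trans (add_le_add ?_ ?_)
    · rw [norm_smul, mul_comm]
      exact mul_le_mul_of_nonneg_left (Complex.abs_re_le_norm z) (norm_nonneg _)
    · rw [norm_smul, mul_comm]
      exact mul_le_mul_of_nonneg_left (Complex.abs_im_le_norm z) (norm_nonneg _)
  calc ∫⁻ x, ‖fderiv ℝ w x‖ₑ ≤ ∫⁻ x, (‖fderiv ℝ w x 1‖ₑ + ‖fderiv ℝ w x Complex.I‖ₑ) :=
        lintegral_mono fun x => key _
    _ = (∫⁻ x, ‖fderiv ℝ w x 1‖ₑ) + ∫⁻ x, ‖fderiv ℝ w x Complex.I‖ₑ :=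
        lintegral_add_left (measurable_fderiv_apply_const ℝ w 1).enorm _
    _ ≤ _ := by
        rw [two_mul]
        exact add_le_add (lsc_dir_sob2a hw hu hlim norm_one)
          (lsc_dir_sob2a hw hu hlim Complex.norm_I)

theorem transl_local_sob2a {φ : ℂ → ℝ} (hφ : ContDiff ℝ 1 φ) (c : ℂ) {s : ℝ} {h : ℂ}
    (hh : h ∈ ball (0 : ℂ) (2 * s)) :
    ∫⁻ y in ball c s, ‖φ (y + h) - φ y‖ₑ ≤
      ENNReal.ofReal (2 * s) * ∫⁻ y in ball c (3 * s), ‖fderiv ℝ φ y‖ₑ := by
  have hh' : ‖h‖ < 2 * s := by simpa using hh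
  have hcd := hφ.continuous_fderiv one_ne_zero
  have h1 : ∀ y, ‖φ (y + h) - φ y‖ₑ ≤
      ENNReal.ofReal (2 * s) * ∫⁻ t in Ioc (0 : ℝ) 1, ‖fderiv ℝ φ (y + t • h)‖ₑ := by
    intro y
    have hd : ∀ t : ℝ, HasDerivAt (fun t : ℝ => φ (y + t • h)) (fderiv ℝ φ (y + t • h) h) t := by
      intro t
      have h2 : HasDerivAt (fun t : ℝ => y + t • h) h t := by
        simpa using ((hasDerivAt_id t).smul_const h).const_add y
      exact ((hφ.differentiable one_ne_zero) _).hasFDerivAt.comp_hasDerivAt t h2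
    have h2 := intervalIntegral.integral_eq_sub_of_hasDerivAt (a := 0) (b := 1)
      (fun t _ => hd t) (Continuous.intervalIntegrable (by fun_prop) _ _)
    simp only [one_smul, zero_smul, add_zero] at h2
    rw [← h2, ← lintegral_const_mul' _ _ ENNReal.ofReal_ne_top]
    refine (enorm_intervalIntegral_sob2a _).trans (lintegral_mono fun t => ?_)
    rw [mul_comm]
    refine ((fderiv ℝ φ (y + t • h)).le_opENorm h).trans (mul_le_mul_right ?_ _)
    rw [← ofReal_norm]
    exact ENNReal.ofReal_le_ofReal hh'.le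
  refine (lintegral_mono h1).trans ?_
  rw [lintegral_const_mul' _ _ ENNReal.ofReal_ne_top]
  refine mul_le_mul_right (seg_avg_sob2a (D := fun y => ‖fderiv ℝ φ y‖ₑ)
    hcd.enorm.measurable measurableSet_ball measurableSet_ball h fun y hy t ht => ?_) _
  rw [mem_ball, dist_eq_norm] at hy ⊢
  have h3 : ‖t • h‖ ≤ ‖h‖ := by
    rw [norm_smul, Real.norm_of_nonneg ht.1.le]
    exact mul_le_of_le_one_left (norm_nonneg _) ht.2
  calc ‖y + t • h - c‖ = ‖(y - c) + t • h‖ := by congr 1; abel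
    _ ≤ ‖y - c‖ + ‖t • h‖ := norm_add_le _ _
    _ < 3 * s := by linarith

/-- Poincare inequality with a larger ball -/
theorem poincare {φ : ℂ → ℝ} (hφ : ContDiff ℝ 1 φ) (c : ℂ) {s : ℝ} (hs : 0 < s) :
    ∃ a : ℝ, ∫⁻ y in ball c s, ‖φ y - a‖ₑ
      ≤ ENNReal.ofReal (8 * s) * ∫⁻ y in ball c (3 * s), ‖fderiv ℝ φ y‖ₑ := by
  have hc := hφ.continuous
  have hm : Measurable (Function.uncurry fun (y h : ℂ) => ‖φ (y + h) - φ y‖ₑ) :=
    (Continuous.measurable (by fun_prop)).enorm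
  have hV0 : volume (ball c s) ≠ 0 := (measure_ball_pos volume c hs).ne'
  have hV1 : volume (ball c s) ≠ ∞ := measure_ball_lt_top.ne
  obtain ⟨y₀, hy₀, hle⟩ := exists_le_setLAverage (μ := volume) (s := ball c s)
    (f := fun y => ∫⁻ h in ball (0 : ℂ) (2 * s), ‖φ (y + h) - φ y‖ₑ) hV0 hV1
    (hm.lintegral_prod_right).aemeasurable
  refine ⟨φ y₀, le_trans ?_ (hle.trans ?_)⟩
  · rw [← lintegral_indicator measurableSet_ball, ← lintegral_indicator measurableSet_ball,
      ← lintegral_add_left_eq_self _ y₀]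
    refine lintegral_mono fun h => ?_
    by_cases hh : y₀ + h ∈ ball c s
    · have : h ∈ ball (0 : ℂ) (2 * s) := by
        rw [mem_ball, dist_eq_norm] at hh hy₀ ⊢
        calc ‖h - 0‖ = ‖(y₀ + h - c) - (y₀ - c)‖ := by congr 1; abel
          _ ≤ ‖y₀ + h - c‖ + ‖y₀ - c‖ := norm_sub_le _ _
          _ < 2 * s := by linarith
      rw [indicator_of_mem hh, indicator_of_mem this]
    · rw [indicator_of_notMem hh]; exact zero_le
  · rw [setLAverage_eq, lintegral_lintegral_swap hm.aemeasurable]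
    refine ENNReal.div_le_of_le_mul ?_
    refine (setLIntegral_mono' measurableSet_ball fun h hh =>
      transl_local_sob2a hφ c hh).trans (le_of_eq ?_)
    rw [setLIntegral_const, Complex.volume_ball, Complex.volume_ball,
      show 8 * s = 2 * s * 2 ^ 2 by ring, ENNReal.ofReal_mul (p := 2 * s) (by positivity),
      ENNReal.ofReal_mul (p := 2) (by positivity), ENNReal.ofReal_pow (by positivity)]
    ring

end Crest.Agent.R112
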