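import Crest.Agent.R112.Sob2a

/-! # Row 112: truncated maximal functions of Sobolev functions (task G2a) -/

open MeasureTheory Set Filter Topology Metric
open scoped ENNReal NNReal RealInnerProductSpace

namespace Crest.Agent.R112

/-- maximal function over radii at least `b` -/
noncomputable def Pm (F : ℂ → ℝ) (b : ℝ) (x : ℂ) : ℝ := sSup ((fun r => avg F x r) '' Ici b)

section
variable {F : ℂ → ℝ} {G : ℂ → ℂ}

theorem abs_avg_le (hF : Integrable F) (x : ℂ) {r : ℝ} (hr : 0 < r) :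
    |avg F x r| ≤ (∫ y, |F y|) / (Real.pi * r ^ 2) := by
  have hp : 0 < Real.pi * r ^ 2 := by have := Real.pi_pos; positivity
  rw [avg_eq_ball F x hr, abs_div, abs_of_pos hp]
  refine div_le_div_of_nonneg_right ?_ hp.le
  exact abs_integral_le_integral_abs.trans
    (setIntegral_le_integral hF.abs (Eventually.of_forall fun y => abs_nonneg _))

private theorem s3a_avg_sub {F' : ℂ → ℝ} (hF : Integrable F) (hF' : Integrable F') (x : ℂ) {r : ℝ}
    (hr : 0 < r) : avg (fun y => F y - F' y) x r = avg F x r - avg F' x r := by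
  rw [avg_eq_ball _ x hr, avg_eq_ball _ x hr, avg_eq_ball _ x hr,
    integral_sub hF.integrableOn hF'.integrableOn, sub_div]

private theorem s3a_avg_transl (F : ℂ → ℝ) (x h : ℂ) (r : ℝ) :
    avg (fun y => F (y + h)) x r = avg F (x + h) r := by
  unfold avg
  simp only [add_right_comm]

/-- translation estimate for limits of `C¹` functions -/
private theorem s3a_transl (hF : Integrable F) (hG : Integrable G) (h : Approx F G) (v : ℂ) :
    ∫⁻ y, ‖F (y + v) - F y‖ₑ ≤ ‖v‖ₑ * ∫⁻ y, ‖G y‖ₑ := by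
  refine ENNReal.le_of_forall_pos_le_add fun ε hε _ => ?_
  have hv : (2 + ‖v‖₊ : ℝ≥0) ≠ 0 := by positivity
  obtain ⟨F', h1, h2, h3, h4⟩ := h ((ε / (2 + ‖v‖₊) : ℝ≥0) : ℝ≥0∞)
    (ENNReal.coe_pos.2 (by positivity))
  obtain ⟨L, hL⟩ := h1.lipschitzWith_of_hasCompactSupport h2 (by simp)
  have hF'c : Continuous F' := h1.continuous
  have m1 : AEMeasurable (fun y => ‖F' y - F y‖ₑ) :=
    (hF'c.aestronglyMeasurable.sub hF.1).enorm
  have m2 : AEMeasurable (fun y => ‖F' (y + v) - F' y‖ₑ) :=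
    ((hF'c.comp (continuous_add_const v)).sub hF'c).aestronglyMeasurable.enorm
  have e1 : ∫⁻ y, ‖F' (y + v) - F (y + v)‖ₑ = ∫⁻ y, ‖F' y - F y‖ₑ :=
    lintegral_add_right_eq_self (fun y => ‖F' y - F y‖ₑ) v
  have e2 : ∫⁻ y, ‖fderiv ℝ F' y‖ₑ ≤ ((ε / (2 + ‖v‖₊) : ℝ≥0) : ℝ≥0∞) + ∫⁻ y, ‖G y‖ₑ := by
    calc ∫⁻ y, ‖fderiv ℝ F' y‖ₑ ≤ ∫⁻ y, (‖gradient F' y - G y‖ₑ + ‖G y‖ₑ) := by
          refine lintegral_mono fun y => ?_
          have : ‖fderiv ℝ F' y‖ₑ = ‖gradient F' y‖ₑ := by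
            unfold gradient
            rw [LinearIsometryEquiv.enorm_map]
          rw [this]
          calc ‖gradient F' y‖ₑ = ‖gradient F' y - G y + G y‖ₑ := by rw [sub_add_cancel]
            _ ≤ _ := enorm_add_le _ _
      _ = (∫⁻ y, ‖gradient F' y - G y‖ₑ) + ∫⁻ y, ‖G y‖ₑ := lintegral_add_right' _ hG.1.enorm
      _ ≤ _ := by gcongr
  calc ∫⁻ y, ‖F (y + v) - F y‖ₑ
      ≤ ∫⁻ y, (‖F' (y + v) - F (y + v)‖ₑ + ‖F' (y + v) - F' y‖ₑ + ‖F' y - F y‖ₑ) := by
        refine lintegral_mono fun y => ?_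
        calc ‖F (y + v) - F y‖ₑ
            = ‖-(F' (y + v) - F (y + v)) + (F' (y + v) - F' y) + (F' y - F y)‖ₑ := by
              congr 1; ring
          _ ≤ ‖-(F' (y + v) - F (y + v)) + (F' (y + v) - F' y)‖ₑ + ‖F' y - F y‖ₑ :=
              enorm_add_le _ _
          _ ≤ ‖-(F' (y + v) - F (y + v))‖ₑ + ‖F' (y + v) - F' y‖ₑ + ‖F' y - F y‖ₑ := by
              gcongr; exact enorm_add_le _ _
          _ = _ := by rw [enorm_neg]
    _ = (∫⁻ y, ‖F' y - F y‖ₑ) + (∫⁻ y, ‖F' (y + v) - F' y‖ₑ) + ∫⁻ y, ‖F' y - F y‖ₑ := by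
        rw [lintegral_add_right' _ m1, lintegral_add_right' _ m2, e1]
    _ ≤ ((ε / (2 + ‖v‖₊) : ℝ≥0) : ℝ≥0∞)
        + ‖v‖ₑ * (((ε / (2 + ‖v‖₊) : ℝ≥0) : ℝ≥0∞) + ∫⁻ y, ‖G y‖ₑ)
        + ((ε / (2 + ‖v‖₊) : ℝ≥0) : ℝ≥0∞) := by
        gcongr
        exact (lintegral_transl_le hL v).trans (by gcongr)
    _ = ‖v‖ₑ * (∫⁻ y, ‖G y‖ₑ) + (((2 + ‖v‖₊) * (ε / (2 + ‖v‖₊)) : ℝ≥0) : ℝ≥0∞) := by
        rw [ENNReal.coe_mul, ENNReal.coe_add, ← enorm_eq_nnnorm, ENNReal.coe_ofNat]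
        ring
    _ = _ := by rw [mul_div_cancel₀ _ hv]

theorem avg_lip_of_approx (hF : Integrable F) (hG : Integrable G) (h : Approx F G) (x x' : ℂ)
    {r : ℝ} (hr : 0 < r) :
    |avg F x r - avg F x' r| ≤ (∫ y, ‖G y‖) / (Real.pi * r ^ 2) * ‖x - x'‖ := by
  have hp : 0 < Real.pi * r ^ 2 := by have := Real.pi_pos; positivity
  have hT : Integrable fun y => F (y + (x - x')) := hF.comp_add_right _
  have h1 := abs_avg_le (hT.sub hF) x' hr
  have h2 : avg (fun y => F (y + (x - x')) - F y) x' r = avg F x r - avg F x' r := by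
    rw [s3a_avg_sub hT hF x' hr, s3a_avg_transl, add_sub_cancel]
  rw [← h2]
  refine le_trans h1 ?_
  rw [div_mul_eq_mul_div]
  refine div_le_div_of_nonneg_right ?_ hp.le
  have h3 := s3a_transl hF hG h (x - x')
  have h4 := ofReal_integral_norm_eq_lintegral_enorm (hT.sub hF)
  simp only [Pi.sub_apply] at h4
  rw [← h4, ← ofReal_integral_norm_eq_lintegral_enorm hG, ← ofReal_norm_eq_enorm,
    ← ENNReal.ofReal_mul (norm_nonneg _), ENNReal.ofReal_le_ofReal_iff
      (mul_nonneg (norm_nonneg _) (integral_nonneg fun _ => norm_nonneg _))] at h3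
  rw [mul_comm]
  exact h3

private theorem s3a_abs_le (hF : Integrable F) {a r : ℝ} (ha : 0 < a) (hr : a ≤ r) (x : ℂ) :
    |avg F x r| ≤ (∫ y, |F y|) / (Real.pi * a ^ 2) := by
  have := Real.pi_pos
  refine (abs_avg_le hF x (ha.trans_le hr)).trans ?_
  have h0 : 0 ≤ ∫ y, |F y| := integral_nonneg fun _ => abs_nonneg _
  gcongr

private theorem s3a_bdd (hF : Integrable F) {a : ℝ} (ha : 0 < a) {S : Set ℝ} (hS : S ⊆ Ici a)
    (x : ℂ) : BddAbove ((fun r => avg F x r) '' S) := by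
  refine ⟨(∫ y, |F y|) / (Real.pi * a ^ 2), ?_⟩
  rintro _ ⟨r, hr, rfl⟩
  exact (le_abs_self _).trans (s3a_abs_le hF ha (hS hr) x)

private theorem s3a_sup_lip (hF : Integrable F) (hG : Integrable G) (h : Approx F G) {a : ℝ}
    (ha : 0 < a) {S : Set ℝ} (hS : S ⊆ Ici a) (hne : S.Nonempty) :
    LipschitzWith (Real.toNNReal ((∫ y, ‖G y‖) / (Real.pi * a ^ 2)))
      fun x => sSup ((fun r => avg F x r) '' S) := by
  refine LipschitzWith.of_le_add_mul' _ fun x x' => csSup_le (hne.image _) ?_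
  rintro _ ⟨r, hr, rfl⟩
  have har : a ≤ r := hS hr
  have h1 := avg_lip_of_approx hF hG h x x' (ha.trans_le har)
  have h2 : avg F x' r ≤ sSup ((fun r => avg F x' r) '' S) :=
    le_csSup (s3a_bdd hF ha hS x') ⟨r, hr, rfl⟩
  have h3 : (∫ y, ‖G y‖) / (Real.pi * r ^ 2) * ‖x - x'‖
      ≤ (∫ y, ‖G y‖) / (Real.pi * a ^ 2) * ‖x - x'‖ := by
    have := Real.pi_pos
    have h0 : 0 ≤ ∫ y, ‖G y‖ := integral_nonneg fun _ => norm_nonneg _
    gcongr
  rw [dist_eq_norm]
  have := le_abs_self (avg F x r - avg F x' r)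
  simp only
  linarith

theorem Mx_lip_of_approx (hF : Integrable F) (hG : Integrable G) (h : Approx F G) {a b : ℝ}
    (ha : 0 < a) (hab : a ≤ b) :
    LipschitzWith (Real.toNNReal ((∫ y, ‖G y‖) / (Real.pi * a ^ 2))) (Mx F a b) :=
  s3a_sup_lip hF hG h ha Icc_subset_Ici_self (nonempty_Icc.2 hab)

theorem Pm_lip_of_approx (hF : Integrable F) (hG : Integrable G) (h : Approx F G) {a : ℝ}
    (ha : 0 < a) :
    LipschitzWith (Real.toNNReal ((∫ y, ‖G y‖) / (Real.pi * a ^ 2))) (Pm F a) :=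
  s3a_sup_lip hF hG h ha Subset.rfl nonempty_Ici

theorem le_Mx (hF : Integrable F) {a b r : ℝ} (ha : 0 < a) (hr : r ∈ Icc a b) (x : ℂ) :
    avg F x r ≤ Mx F a b x :=
  le_csSup (s3a_bdd hF ha Icc_subset_Ici_self x) ⟨r, hr, rfl⟩

theorem le_Pm (hF : Integrable F) {a r : ℝ} (ha : 0 < a) (hr : a ≤ r) (x : ℂ) :
    avg F x r ≤ Pm F a x :=
  le_csSup (s3a_bdd hF ha Subset.rfl x) ⟨r, hr, rfl⟩

theorem Pm_eq_max (hF : Integrable F) {a b : ℝ} (ha : 0 < a) (hab : a ≤ b) (x : ℂ) :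
    Pm F a x = max (Mx F a b x) (Pm F b x) := by
  unfold Pm Mx
  rw [← Icc_union_Ici_eq_Ici hab, image_union,
    csSup_union (s3a_bdd hF ha Icc_subset_Ici_self x) ((nonempty_Icc.2 hab).image _)
      (s3a_bdd hF ha (Ici_subset_Ici.2 hab) x) (nonempty_Ici.image _)]

theorem abs_Pm_le (hF : Integrable F) {a : ℝ} (ha : 0 < a) (x : ℂ) :
    |Pm F a x| ≤ (∫ y, |F y|) / (Real.pi * a ^ 2) := by
  rw [abs_le]
  refine ⟨(abs_le.1 (s3a_abs_le hF ha le_rfl x)).1.trans (le_Pm hF ha le_rfl x),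
    csSup_le (nonempty_Ici.image _) ?_⟩
  rintro _ ⟨r, hr, rfl⟩
  exact (le_abs_self _).trans (s3a_abs_le hF ha hr x)

private theorem s3a_vol (x : ℂ) {r : ℝ} (hr : 0 ≤ r) :
    volume (ball x r) = ENNReal.ofReal (Real.pi * r ^ 2) := by
  rw [Complex.volume_ball, mul_comm Real.pi, ENNReal.ofReal_mul (by positivity),
    ENNReal.ofReal_pow hr, ← NNReal.coe_real_pi, ENNReal.ofReal_coe_nnreal]

private theorem s3a_lintegral_ball (φ : ℂ → ℝ≥0∞) (x : ℂ) (R : ℝ) :
    ∫⁻ y in ball x R, φ y = ∫⁻ v in ball 0 R, φ (x + v) := by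
  rw [← lintegral_indicator measurableSet_ball, ← lintegral_indicator measurableSet_ball,
    ← lintegral_add_left_eq_self _ x]
  refine lintegral_congr fun v => ?_
  have : x + v ∈ ball x R ↔ v ∈ ball (0 : ℂ) R := by simp [dist_eq_norm]
  by_cases hv : v ∈ ball (0 : ℂ) R
  · rw [indicator_of_mem hv, indicator_of_mem (this.2 hv)]
  · rw [indicator_of_notMem hv, indicator_of_notMem (fun h => hv (this.1 h))]

private theorem s3a_majorant (hF : Integrable F) (hFm : Measurable F) {C : ℝ≥0∞} (hC : C ≠ ⊤)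
    (h : ∀ v : ℂ, ∫⁻ y, ‖F (y + v) - F y‖ₑ ≤ ‖v‖ₑ * C) :
    ∃ Θ : ℂ → ℝ≥0∞, Measurable Θ ∧ ∫⁻ x, Θ x ≠ ⊤ ∧
      ∀ (x : ℂ) (r : ℝ), 0 < r → r ≤ 1 → ENNReal.ofReal (avg F x r) ≤ Θ x := by
  have hπ := Real.pi_pos
  let R : ℕ → ℝ := fun k => (1 / 2) ^ k
  have hR : ∀ k, 0 < R k := fun k => by positivity
  let c : ℕ → ℝ≥0∞ := fun k => ENNReal.ofReal (4 / (Real.pi * R k ^ 2))
  have hc : ∀ k, c k * ENNReal.ofReal (Real.pi * R k ^ 2) = 4 := by
    intro k
    have := hR k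
    simp only [c]
    rw [← ENNReal.ofReal_mul (by positivity), div_mul_cancel₀ _ (by positivity)]
    simp
  have hm : Measurable fun p : ℂ × ℂ => ‖F (p.1 + p.2) - F p.1‖ₑ :=
    ((hFm.comp measurable_add).sub (hFm.comp measurable_fst)).enorm
  let E : ℕ → ℂ → ℝ≥0∞ := fun k x => ∫⁻ v in ball 0 (R k), ‖F (x + v) - F x‖ₑ
  have hE : ∀ k, Measurable (E k) := fun k => hm.lintegral_prod_right'
  have hEi : ∀ k, ∫⁻ x, c k * E k x ≤ 4 * C * (2⁻¹) ^ k := by
    intro k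
    rw [lintegral_const_mul _ (hE k)]
    have h1 : ∫⁻ x, E k x ≤ ENNReal.ofReal (R k) * C * ENNReal.ofReal (Real.pi * R k ^ 2) := by
      simp only [E]
      rw [lintegral_lintegral_swap hm.aemeasurable, ← s3a_vol 0 (hR k).le,
        ← setLIntegral_const]
      refine setLIntegral_mono' measurableSet_ball fun v hv => (h v).trans ?_
      gcongr
      rw [← ofReal_norm_eq_enorm]
      exact ENNReal.ofReal_le_ofReal (mem_ball_zero_iff.1 hv).le
    have h2 : ENNReal.ofReal (R k) = (2⁻¹) ^ k := by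
      simp only [R]
      rw [ENNReal.ofReal_pow (by norm_num), one_div, ENNReal.ofReal_inv_of_pos (by norm_num)]
      simp
    calc c k * ∫⁻ x, E k x
        ≤ c k * (ENNReal.ofReal (R k) * C * ENNReal.ofReal (Real.pi * R k ^ 2)) := by gcongr
      _ = c k * ENNReal.ofReal (Real.pi * R k ^ 2) * C * ENNReal.ofReal (R k) := by ring
      _ = _ := by rw [hc, h2]
  refine ⟨fun x => 4 * ‖F x‖ₑ + ∑' k, c k * E k x, ?_, ?_, ?_⟩
  · exact (hFm.enorm.const_mul _).add (Measurable.ennreal_tsum fun k => (hE k).const_mul _)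
  · rw [lintegral_add_left (hFm.enorm.const_mul _), lintegral_const_mul _ hFm.enorm,
      lintegral_tsum fun k => ((hE k).const_mul _).aemeasurable]
    refine ENNReal.add_ne_top.2 ⟨ENNReal.mul_ne_top (by simp) hF.2.ne, ?_⟩
    refine ne_top_of_le_ne_top ?_ (ENNReal.tsum_le_tsum hEi)
    rw [ENNReal.tsum_mul_left, ENNReal.tsum_geometric_two]
    exact ENNReal.mul_ne_top (ENNReal.mul_ne_top (by simp) hC) (by simp)
  · intro x r hr hr1
    obtain ⟨k, hk1, hk2⟩ := exists_nat_pow_near_of_lt_one hr hr1 (y := (1 / 2 : ℝ))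
      (by norm_num) (by norm_num)
    have hk3 : R k ≤ 2 * r := by
      rw [pow_succ] at hk1
      simp only [R]
      linarith
    have h1 : ENNReal.ofReal (avg F x r) ≤ c k * ∫⁻ y in ball x (R k), ‖F y‖ₑ := by
      rw [avg_eq_ball F x hr, div_eq_inv_mul, ENNReal.ofReal_mul (by positivity)]
      refine mul_le_mul' (ENNReal.ofReal_le_ofReal ?_) ?_
      · have := hR k
        rw [inv_eq_one_div, div_le_div_iff₀ (by positivity) (by positivity)]
        have : R k ^ 2 ≤ (2 * r) ^ 2 := by gcongr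
        nlinarith
      · exact (Real.ofReal_le_enorm _).trans ((enorm_integral_le_lintegral_enorm _).trans
          (lintegral_mono_set (ball_subset_ball hk2)))
    have h2 : ∫⁻ y in ball x (R k), ‖F y‖ₑ
        ≤ ‖F x‖ₑ * ENNReal.ofReal (Real.pi * R k ^ 2) + E k x := by
      rw [s3a_lintegral_ball, ← s3a_vol 0 (hR k).le, ← setLIntegral_const,
        ← lintegral_add_left measurable_const]
      refine lintegral_mono fun v => ?_
      calc ‖F (x + v)‖ₑ = ‖F x + (F (x + v) - F x)‖ₑ := by rw [add_sub_cancel]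
        _ ≤ _ := enorm_add_le _ _
    calc ENNReal.ofReal (avg F x r)
        ≤ c k * (‖F x‖ₑ * ENNReal.ofReal (Real.pi * R k ^ 2) + E k x) := h1.trans (by gcongr)
      _ = c k * ENNReal.ofReal (Real.pi * R k ^ 2) * ‖F x‖ₑ + c k * E k x := by ring
      _ ≤ _ := by
        rw [hc]
        exact add_le_add le_rfl (ENNReal.le_tsum (f := fun k => c k * E k x) k)

/-- an integrable majorant of the averages over small discs -/
theorem small_majorant (hF : Integrable F) (hG : Integrable G) (h : Approx F G) :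
    ∃ Θ : ℂ → ℝ≥0∞, Measurable Θ ∧ ∫⁻ x, Θ x ≠ ⊤ ∧
      ∀ (x : ℂ) (r : ℝ), 0 < r → r ≤ 1 → ENNReal.ofReal (avg F x r) ≤ Θ x := by
  have hae : F =ᵐ[volume] hF.1.mk F := hF.1.ae_eq_mk
  have hF' : Integrable (hF.1.mk F) := hF.congr hae
  have h' : Approx (hF.1.mk F) G := by
    intro η hη
    obtain ⟨F', h1, h2, h3, h4⟩ := h η hη
    refine ⟨F', h1, h2, le_trans (le_of_eq (lintegral_congr_ae ?_)) h3, h4⟩
    filter_upwards [hae] with y hy
    rw [hy]
  obtain ⟨Θ, h1, h2, h3⟩ := s3a_majorant hF' hF.1.stronglyMeasurable_mk.measurable hG.2.ne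
    (s3a_transl hF' hG h')
  refine ⟨Θ, h1, h2, fun x r hr hr1 => ?_⟩
  have : avg F x r = avg (hF.1.mk F) x r := by
    rw [avg_eq_ball _ x hr, avg_eq_ball _ x hr, integral_congr_ae (ae_restrict_of_ae hae)]
  rw [this]
  exact h3 x r hr hr1

/-- Lebesgue differentiation -/
theorem ae_tendsto_avg (hF : Integrable F) :
    ∀ᵐ x, Tendsto (fun r => avg F x r) (𝓝[>] 0) (𝓝 (F x)) := by
  filter_upwards [IsUnifLocDoublingMeasure.ae_tendsto_average volume hF.locallyIntegrable 1]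
    with x hx
  have h1 := hx (l := 𝓝[>] (0 : ℝ)) (fun _ => x) id tendsto_id (by
    filter_upwards [self_mem_nhdsWithin] with r hr
    exact mem_closedBall_self (by simpa using le_of_lt hr))
  refine h1.congr' ?_
  filter_upwards [self_mem_nhdsWithin] with r hr
  have hr' : 0 < r := hr
  have hv : volume (closedBall x r) = volume (ball x r) :=
    Measure.addHaar_closedBall_eq_addHaar_ball volume x r
  have hae : ball x r =ᵐ[volume] closedBall x r :=
    ae_eq_of_subset_of_measure_ge ball_subset_closedBall hv.le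
      measurableSet_ball.nullMeasurableSet measure_closedBall_lt_top.ne
  simp only [id]
  rw [← setAverage_congr hae, setAverage_eq, avg_eq_ball F x hr', measureReal_def, s3a_vol x hr'.le,
    ENNReal.toReal_ofReal (by have := Real.pi_pos; positivity), smul_eq_mul, div_eq_inv_mul]

end

end Crest.Agent.R112
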