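import Crest.Agent.R112.Sob2
import Crest.Agent.R112.Sob3a

/-! # Row 112: gradient bounds for Sobolev functions (task G2b) -/

open MeasureTheory Set Filter Topology Metric
open scoped ENNReal NNReal RealInnerProductSpace

namespace Crest.Agent.R112

lemma s3_avg_sub {F F' : ℂ → ℝ} (hF : Integrable F) (hF' : Integrable F') (x : ℂ) {r : ℝ}
    (hr : 0 < r) : avg F' x r - avg F x r = avg (fun y => F' y - F y) x r := by
  rw [avg_eq_ball _ _ hr, avg_eq_ball _ _ hr, avg_eq_ball _ _ hr,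
    integral_sub hF'.integrableOn hF.integrableOn, sub_div]

lemma s3_Mx_le {F F' : ℂ → ℝ} (hF : Integrable F) (hF' : Integrable F') {a b : ℝ} (ha : 0 < a)
    (hab : a ≤ b) (x : ℂ) :
    Mx F' a b x ≤ Mx F a b x + (∫ y, |F' y - F y|) / (Real.pi * a ^ 2) := by
  refine csSup_le ((nonempty_Icc.2 hab).image _) ?_
  rintro _ ⟨r, hr, rfl⟩
  have hr0 : 0 < r := ha.trans_le hr.1
  have h1 := le_Mx hF ha hr x
  have h2 := abs_avg_le (hF'.sub hF) x hr0
  have h3 := s3_avg_sub hF hF' x hr0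
  have h4 : (∫ y, |F' y - F y|) / (Real.pi * r ^ 2) ≤ (∫ y, |F' y - F y|) / (Real.pi * a ^ 2) := by
    have : 0 ≤ ∫ y, |F' y - F y| := integral_nonneg fun y => abs_nonneg _
    have := hr.1
    gcongr
  have h5 : avg (fun y => F' y - F y) x r ≤ (∫ y, |F' y - F y|) / (Real.pi * r ^ 2) :=
    (le_abs_self _).trans h2
  show avg F' x r ≤ _
  linarith

lemma s3_Mx_abs {F F' : ℂ → ℝ} (hF : Integrable F) (hF' : Integrable F') {a b : ℝ} (ha : 0 < a)
    (hab : a ≤ b) (x : ℂ) :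
    |Mx F' a b x - Mx F a b x| ≤ (∫ y, |F' y - F y|) / (Real.pi * a ^ 2) := by
  have h1 := s3_Mx_le hF hF' ha hab x
  have h2 := s3_Mx_le hF' hF ha hab x
  have h3 : (∫ y, |F y - F' y|) = ∫ y, |F' y - F y| := by
    simp only [abs_sub_comm]
  rw [h3] at h2
  rw [abs_le]; constructor <;> linarith

lemma s3_enorm_gradient (f : ℂ → ℝ) (x : ℂ) : ‖gradient f x‖ₑ = ‖fderiv ℝ f x‖ₑ := by
  unfold gradient
  exact LinearIsometryEquiv.enorm_map _ _

lemma s3_enorm_gradient_sub (f g : ℂ → ℝ) (x : ℂ) :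
    ‖gradient f x - gradient g x‖ₑ = ‖fderiv ℝ f x - fderiv ℝ g x‖ₑ := by
  unfold gradient
  rw [← map_sub]
  exact LinearIsometryEquiv.enorm_map _ _

lemma s3_cont_gradient {f : ℂ → ℝ} (hf : ContDiff ℝ 1 f) : Continuous (gradient f) := by
  unfold gradient
  exact (InnerProductSpace.toDual ℝ ℂ).symm.continuous.comp (hf.continuous_fderiv (by norm_num))

lemma s3_int_gradient {f : ℂ → ℝ} (hf : ContDiff ℝ 1 f) (hc : HasCompactSupport f) :
    Integrable (gradient f) := by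
  refine (s3_cont_gradient hf).integrable_of_hasCompactSupport ?_
  unfold gradient
  exact (hc.fderiv (𝕜 := ℝ)).comp_left (g := (InnerProductSpace.toDual ℝ ℂ).symm) (map_zero _)

lemma s3_int {f : ℂ → ℝ} (hf : ContDiff ℝ 1 f) (hc : HasCompactSupport f) : Integrable f :=
  hf.continuous.integrable_of_hasCompactSupport hc

lemma s3_Mx_lip {f : ℂ → ℝ} (hf : ContDiff ℝ 1 f) (hc : HasCompactSupport f) {a b : ℝ}
    (ha : 0 < a) (hab : a ≤ b) : ∃ L : ℝ≥0, LipschitzWith L (Mx f a b) :=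
  ⟨_, Mx_lip_of_approx (s3_int hf hc) (s3_int_gradient hf hc)
    (fun η _ => ⟨f, hf, hc, by simp, by simp⟩) ha hab⟩

lemma s3_le_pow {a : ℝ} (ha : 0 < a) (n : ℕ) : a ≤ 4 ^ n * a :=
  le_mul_of_one_le_left ha.le (one_le_pow₀ (by norm_num))

/-- an approximating sequence -/
lemma s3_seq {F : ℂ → ℝ} {G : ℂ → ℂ} (hF : Integrable F) (h : Approx F G) :
    ∃ (u : ℕ → ℂ → ℝ) (e : ℕ → ℝ≥0∞), (∀ j, ContDiff ℝ 1 (u j)) ∧ (∀ j, HasCompactSupport (u j)) ∧
      Tendsto e atTop (𝓝 0) ∧ (∀ j, ∫⁻ y, ‖gradient (u j) y - G y‖ₑ ≤ e j) ∧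
      ∀ a b : ℝ, 0 < a → a ≤ b → ∀ x, Tendsto (fun j => Mx (u j) a b x) atTop (𝓝 (Mx F a b x)) := by
  have hpos : ∀ j : ℕ, (0 : ℝ≥0∞) < (j : ℝ≥0∞)⁻¹ := fun j =>
    ENNReal.inv_pos.2 (ENNReal.natCast_ne_top j)
  choose u h1 h2 h3 h4 using fun j : ℕ => h _ (hpos j)
  refine ⟨u, fun j => (j : ℝ≥0∞)⁻¹, h1, h2, ENNReal.tendsto_inv_nat_nhds_zero, h4, ?_⟩
  intro a b ha hab x
  have t1 : Tendsto (fun j => ∫⁻ y, ‖u j y - F y‖ₑ) atTop (𝓝 0) :=
    tendsto_of_tendsto_of_tendsto_of_le_of_le tendsto_const_nhds ENNReal.tendsto_inv_nat_nhds_zero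
      (fun _ => zero_le) h3
  have t2 : Tendsto (fun j => ∫ y, |u j y - F y|) atTop (𝓝 0) := by
    have := (ENNReal.tendsto_toReal ENNReal.zero_ne_top).comp t1
    simp only [ENNReal.toReal_zero] at this
    refine this.congr fun j => ?_
    have hi : Integrable fun y => u j y - F y := (s3_int (h1 j) (h2 j)).sub hF
    simp only [Function.comp]
    rw [← integral_norm_eq_lintegral_enorm hi.1]
    simp only [Real.norm_eq_abs]
  have t3 : Tendsto (fun j => (∫ y, |u j y - F y|) / (Real.pi * a ^ 2)) atTop (𝓝 0) := by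
    simpa using t2.div_const (Real.pi * a ^ 2)
  rw [tendsto_iff_norm_sub_tendsto_zero]
  exact squeeze_zero (fun _ => norm_nonneg _)
    (fun j => s3_Mx_abs hF (s3_int (h1 j) (h2 j)) ha hab x) t3

lemma s3_tri {A B G : ℂ → ℂ} (hB : AEStronglyMeasurable (fun y => B y - G y) volume) :
    ∫⁻ y, ‖A y - G y‖ₑ ≤ (∫⁻ y, ‖A y - B y‖ₑ) + ∫⁻ y, ‖B y - G y‖ₑ := by
  rw [← lintegral_add_right' _ hB.enorm]
  refine lintegral_mono fun y => ?_
  have : A y - G y = (A y - B y) + (B y - G y) := by ring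
  rw [this]
  exact enorm_add_le _ _

section
variable {F : ℂ → ℝ} {G : ℂ → ℂ}

/-- the main theorem passes to `W^{1,1}` -/
theorem Mx_bound {C : ℝ≥0∞} (hC : C ≠ ⊤) (hMT : MTstmt C) (hF : Integrable F) (hG : Integrable G)
    (h : Approx F G) {a : ℝ} (ha : 0 < a) {n : ℕ} (hn : 1 ≤ n) :
    ∫⁻ x, ‖fderiv ℝ (Mx F a (4 ^ n * a)) x‖ₑ ≤ 2 * C * ∫⁻ y, ‖G y‖ₑ := by
  obtain ⟨u, e, h1, h2, he, h4, h5⟩ := s3_seq hF h
  have hab := s3_le_pow ha n
  have hl := lsc (Mx_lip_of_approx hF hG h ha hab) (u := fun j => Mx (u j) a (4 ^ n * a))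
    (fun j => s3_Mx_lip (h1 j) (h2 j) ha hab) (h5 a _ ha hab)
  refine hl.trans ?_
  rw [mul_assoc]
  gcongr
  have hb : ∀ j, ∫⁻ x, ‖fderiv ℝ (Mx (u j) a (4 ^ n * a)) x‖ₑ ≤ C * (e j + ∫⁻ y, ‖G y‖ₑ) := by
    intro j
    refine (hMT (u j) (h1 j) (h2 j) a n ha hn).trans ?_
    gcongr
    have := s3_tri (A := gradient (u j)) (B := G) (G := 0) (by simpa using hG.1)
    simp only [Pi.zero_apply, sub_zero, s3_enorm_gradient] at this
    exact this.trans (by gcongr; exact h4 j)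
  have ht : Tendsto (fun j => C * (e j + ∫⁻ y, ‖G y‖ₑ)) atTop (𝓝 (C * (0 + ∫⁻ y, ‖G y‖ₑ))) :=
    ENNReal.Tendsto.const_mul (he.add tendsto_const_nhds) (Or.inr hC)
  rw [zero_add] at ht
  rw [← ht.liminf_eq]
  exact liminf_le_liminf (Eventually.of_forall hb)

theorem Pm_bound {C : ℝ≥0∞} (hC : C ≠ ⊤) (hMT : MTstmt C) (hF : Integrable F) (hG : Integrable G)
    (h : Approx F G) (h0 : ∀ y, 0 ≤ F y) {a : ℝ} (ha : 0 < a) :
    ∫⁻ x, ‖fderiv ℝ (Pm F a) x‖ₑ ≤ 2 * C * ∫⁻ y, ‖G y‖ₑ := by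
  have hW := Pm_lip_of_approx hF hG h ha
  have hWn : ∀ n : ℕ, ∀ᵐ x, DifferentiableAt ℝ (Mx F a (4 ^ (n + 1) * a)) x := fun n =>
    (Mx_lip_of_approx hF hG h ha (s3_le_pow ha (n + 1))).ae_differentiableAt
  have hnn : ∀ y, 0 ≤ Pm F a y := fun y => by
    refine le_trans ?_ (le_Pm hF ha le_rfl y)
    unfold avg
    exact div_nonneg (integral_nonneg fun ξ => h0 _) Real.pi_pos.le
  have key : ∀ᵐ x, ‖fderiv ℝ (Pm F a) x‖ₑ ≤
      liminf (fun n : ℕ => ‖fderiv ℝ (Mx F a (4 ^ (n + 1) * a)) x‖ₑ) atTop := by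
    filter_upwards [hW.ae_differentiableAt, ae_all_iff.2 hWn] with x hx hxn
    rcases (hnn x).eq_or_lt with hx0 | hx0
    · have : IsLocalMin (Pm F a) x := Eventually.of_forall fun y => by rw [← hx0]; exact hnn y
      rw [this.fderiv_eq_zero, ← ofReal_norm, norm_zero, ENNReal.ofReal_zero]
      exact zero_le
    · have t1 : Tendsto (fun n : ℕ => (∫ y, |F y|) / (Real.pi * (4 ^ (n + 1) * a) ^ 2)) atTop
          (𝓝 0) := by
        refine Tendsto.div_atTop tendsto_const_nhds ?_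
        refine Tendsto.const_mul_atTop Real.pi_pos ?_
        refine (tendsto_pow_atTop two_ne_zero).comp ?_
        refine Tendsto.atTop_mul_const ha ?_
        exact (tendsto_pow_atTop_atTop_of_one_lt (by norm_num : (1 : ℝ) < 4)).comp
          (tendsto_add_atTop_nat 1)
      have t2 : ∀ᶠ n : ℕ in atTop, ‖fderiv ℝ (Pm F a) x‖ₑ ≤
          ‖fderiv ℝ (Mx F a (4 ^ (n + 1) * a)) x‖ₑ := by
        filter_upwards [t1.eventually (gt_mem_nhds hx0)] with n hn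
        have hab := s3_le_pow ha (n + 1)
        have e1 := Pm_eq_max hF ha hab x
        have e2 := (le_abs_self _).trans (abs_Pm_le hF (ha.trans_le hab) x)
        have e3 : Mx F a (4 ^ (n + 1) * a) x = Pm F a x := by
          rcases max_choice (Mx F a (4 ^ (n + 1) * a) x) (Pm F (4 ^ (n + 1) * a) x) with h' | h'
          · rw [e1, h']
          · rw [h'] at e1; linarith
        rw [fderiv_eq_of_le (hxn n) hx e3 (Eventually.of_forall fun y => by
          rw [Pm_eq_max hF ha hab y]; exact le_max_left _ _)]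
      exact le_liminf_of_le (by isBoundedDefault) t2
  refine (lintegral_mono_ae key).trans ((lintegral_liminf_le fun n => ?_).trans ?_)
  · exact (measurable_fderiv ℝ _).enorm
  · exact liminf_le_of_frequently_le' (Frequently.of_forall fun n =>
      Mx_bound hC hMT hF hG h ha (Nat.le_add_left 1 n))

/-- small radii -/
theorem Mx_small {C : ℝ≥0∞} (hC : C ≠ ⊤) (hMT : MTstmt C) (hF : Integrable F) (hG : Integrable G)
    (h : Approx F G) (η : ℝ≥0∞) (hη : 0 < η) :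
    ∃ b₀ : ℝ, 0 < b₀ ∧ ∀ (a : ℝ) (n : ℕ), 0 < a → 1 ≤ n → 4 ^ n * a ≤ b₀ →
      ∫⁻ x, ‖gradient (Mx F a (4 ^ n * a)) x - G x‖ₑ ≤ η := by
  obtain ⟨C', hC', hloc⟩ := local_est hC hMT
  have hD : 2 * C' + 3 ≠ ⊤ :=
    ENNReal.add_ne_top.2 ⟨ENNReal.mul_ne_top (by norm_num) hC', by norm_num⟩
  set δ := η / (2 * C' + 3) with hδ
  have hδ0 : 0 < δ := ENNReal.div_pos hη.ne' hD
  obtain ⟨F₀, c1, c2, -, c4⟩ := h δ hδ0
  obtain ⟨b₀, hb₀, hb⟩ := hloc F₀ c1 c2 δ hδ0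
  refine ⟨b₀, hb₀, fun a n ha hn hle => ?_⟩
  obtain ⟨u, e, h1, h2, he, h4, h5⟩ := s3_seq hF h
  have hab := s3_le_pow ha n
  obtain ⟨L₀, hL₀⟩ := c1.lipschitzWith_of_hasCompactSupport c2 (by norm_num)
  have hM := Mx_lip_of_approx hF hG h ha hab
  have hd₀ : Differentiable ℝ F₀ := c1.differentiable (by norm_num)
  have hsub : ∀ (w : ℂ → ℝ) (L : ℝ≥0), LipschitzWith L w →
      ∫⁻ x, ‖fderiv ℝ (fun y => w y - F₀ y) x‖ₑ = ∫⁻ x, ‖fderiv ℝ w x - fderiv ℝ F₀ x‖ₑ := by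
    intro w L hw
    refine lintegral_congr_ae ?_
    filter_upwards [hw.ae_differentiableAt] with x hx
    rw [fderiv_fun_sub hx (hd₀ x)]
  have hl := lsc (hM.sub hL₀) (u := fun j y => Mx (u j) a (4 ^ n * a) y - F₀ y)
    (fun j => by
      obtain ⟨L, hL⟩ := s3_Mx_lip (h1 j) (h2 j) ha hab
      exact ⟨_, hL.sub hL₀⟩)
    (fun x => (h5 a _ ha hab x).sub tendsto_const_nhds)
  rw [hsub _ _ hM] at hl
  have hm₀ : AEStronglyMeasurable (fun y => gradient F₀ y - G y) volume :=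
    ((s3_int_gradient c1 c2).sub hG).1
  have hbj : ∀ j, ∫⁻ x, ‖fderiv ℝ (fun y => Mx (u j) a (4 ^ n * a) y - F₀ y) x‖ₑ ≤
      C' * (e j + δ) + δ := by
    intro j
    obtain ⟨L, hL⟩ := s3_Mx_lip (h1 j) (h2 j) ha hab
    rw [hsub _ _ hL]
    refine (hb a n ha hn hle (u j) (h1 j) (h2 j)).trans ?_
    gcongr
    have := s3_tri (A := gradient (u j)) (B := G) (G := gradient F₀)
      (hG.sub (s3_int_gradient c1 c2)).1
    simp only [s3_enorm_gradient_sub] at this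
    refine this.trans (add_le_add (h4 j) ?_)
    simpa only [enorm_sub_rev (G _)] using c4
  have ht : Tendsto (fun j => C' * (e j + δ) + δ) atTop (𝓝 (C' * (0 + δ) + δ)) :=
    (ENNReal.Tendsto.const_mul (he.add tendsto_const_nhds) (Or.inr hC')).add tendsto_const_nhds
  rw [zero_add] at ht
  have hlim : liminf (fun j => ∫⁻ x, ‖fderiv ℝ (fun y => Mx (u j) a (4 ^ n * a) y - F₀ y) x‖ₑ)
      atTop ≤ C' * δ + δ := by
    rw [← ht.liminf_eq]
    exact liminf_le_liminf (Eventually.of_forall hbj)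
  have t := s3_tri (A := gradient (Mx F a (4 ^ n * a))) (B := gradient F₀) (G := G) hm₀
  simp only [s3_enorm_gradient_sub] at t
  calc _ ≤ _ := t
    _ ≤ 2 * (C' * δ + δ) + δ := add_le_add (hl.trans (by gcongr)) c4
    _ = (2 * C' + 3) * δ := by ring
    _ ≤ η := ENNReal.mul_div_le

end

end Crest.Agent.R112
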