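import Crest.Agent.R112.Sob1
import Crest.Agent.R112.Sob3

/-! # Row 112: the theorem on `ℂ` from the main theorem (task G3) -/

open MeasureTheory Set Filter Topology Metric
open scoped ENNReal NNReal RealInnerProductSpace

namespace Crest.Agent.R112

/-- completeness of `L¹` in terms of functions -/
theorem exists_L1_limit_s4 {u : ℕ → ℂ → ℂ} (hu : ∀ n, Integrable (u n))
    (hc : ∀ ε : ℝ≥0∞, 0 < ε → ∃ N, ∀ n, N ≤ n → ∫⁻ x, ‖u n x - u N x‖ₑ < ε) :
    ∃ H : ℂ → ℂ, Integrable H ∧ Tendsto (fun n => ∫⁻ x, ‖u n x - H x‖ₑ) atTop (𝓝 0) := by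
  have hcs : CauchySeq fun n => (hu n).toL1 (u n) := by
    rw [EMetric.cauchySeq_iff']
    intro ε hε
    obtain ⟨N, hN⟩ := hc ε hε
    refine ⟨N, fun n hn => ?_⟩
    rw [Integrable.edist_toL1_toL1]
    simpa only [edist_eq_enorm_sub] using hN n hn
  obtain ⟨H, hH⟩ := cauchySeq_tendsto_of_complete hcs
  refine ⟨H, L1.integrable_coeFn H, ?_⟩
  have h1 : Tendsto (fun n => edist ((hu n).toL1 (u n)) H) atTop (𝓝 (edist H H)) :=
    hH.edist tendsto_const_nhds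
  rw [edist_self] at h1
  refine h1.congr fun n => ?_
  rw [L1.edist_def]
  refine lintegral_congr_ae ?_
  filter_upwards [(hu n).coeFn_toL1] with x hx
  rw [hx, edist_eq_enorm_sub]

theorem measurable_gradient_s4 (w : ℂ → ℝ) : Measurable (gradient w) :=
  (InnerProductSpace.toDual ℝ ℂ).symm.continuous.measurable.comp (measurable_fderiv ℝ w)

theorem enorm_gradient_s4 (w : ℂ → ℝ) (x : ℂ) : ‖gradient w x‖ₑ = ‖fderiv ℝ w x‖ₑ := by
  unfold gradient
  exact LinearIsometryEquiv.enorm_map _ _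

theorem inner_gradient_s4 (w : ℂ → ℝ) (x v : ℂ) : ⟪gradient w x, v⟫ = fderiv ℝ w x v := by
  unfold gradient
  exact InnerProductSpace.toDual_symm_apply

theorem gradient_eq_of_le_s4 {W W' : ℂ → ℝ} {x : ℂ} (hW : DifferentiableAt ℝ W x)
    (hW' : DifferentiableAt ℝ W' x) (hx : W x = W' x) (h : ∀ y, W y ≤ W' y) :
    gradient W x = gradient W' x := by
  unfold gradient
  rw [fderiv_eq_of_le hW hW' hx (Eventually.of_forall h)]

/-- pointwise comparison of the gradients of two maxima -/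
theorem gradient_max_sub_le_s4 {W₁ W₂ P P₁ P₂ : ℂ → ℝ} (h12 : ∀ y, W₂ y ≤ W₁ y)
    (e1 : ∀ y, P₁ y = max (W₁ y) (P y)) (e2 : ∀ y, P₂ y = max (W₂ y) (P y)) {x : ℂ}
    (d1 : DifferentiableAt ℝ W₁ x) (d2 : DifferentiableAt ℝ W₂ x) (d : DifferentiableAt ℝ P x)
    (d1' : DifferentiableAt ℝ P₁ x) (d2' : DifferentiableAt ℝ P₂ x) (G : ℂ → ℂ) {S : Set ℂ}
    (hS : W₂ x < P x → P x < W₁ x → x ∈ S) :
    ‖gradient P₁ x - gradient P₂ x‖ₑ ≤ ‖gradient W₁ x - G x‖ₑ + ‖gradient W₂ x - G x‖ₑ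
      + S.indicator (fun x => ‖G x‖ₑ + ‖gradient P x‖ₑ) x := by
  have l1 : ∀ y, W₁ y ≤ P₁ y := fun y => by rw [e1]; exact le_max_left _ _
  have l2 : ∀ y, W₂ y ≤ P₂ y := fun y => by rw [e2]; exact le_max_left _ _
  have l1' : ∀ y, P y ≤ P₁ y := fun y => by rw [e1]; exact le_max_right _ _
  have l2' : ∀ y, P y ≤ P₂ y := fun y => by rw [e2]; exact le_max_right _ _
  rcases le_or_gt (W₁ x) (P x) with h1 | h1
  · rw [← gradient_eq_of_le_s4 d d1' (by rw [e1, max_eq_right h1]) l1',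
      ← gradient_eq_of_le_s4 d d2' (by rw [e2, max_eq_right ((h12 x).trans h1)]) l2']
    simp
  rw [← gradient_eq_of_le_s4 d1 d1' (by rw [e1, max_eq_left h1.le]) l1]
  rcases le_or_gt (P x) (W₂ x) with h2 | h2
  · rw [← gradient_eq_of_le_s4 d2 d2' (by rw [e2, max_eq_left h2]) l2]
    refine le_trans ?_ le_self_add
    calc ‖gradient W₁ x - gradient W₂ x‖ₑ
        = ‖(gradient W₁ x - G x) - (gradient W₂ x - G x)‖ₑ := by congr 1; ring
      _ ≤ _ := enorm_sub_le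
  · rw [← gradient_eq_of_le_s4 d d2' (by rw [e2, max_eq_right h2.le]) l2', indicator_of_mem (hS h2 h1)]
    calc ‖gradient W₁ x - gradient P x‖ₑ
        = ‖(gradient W₁ x - G x) + (G x - gradient P x)‖ₑ := by congr 1; ring
      _ ≤ ‖gradient W₁ x - G x‖ₑ + ‖G x - gradient P x‖ₑ := enorm_add_le _ _
      _ ≤ ‖gradient W₁ x - G x‖ₑ + (‖G x‖ₑ + ‖gradient P x‖ₑ) := by
          gcongr; exact enorm_sub_le
      _ ≤ _ := by gcongr; exact le_self_add

section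
variable {F : ℂ → ℝ} {G : ℂ → ℂ}

theorem avg_nonneg_s4 (h0 : ∀ y, 0 ≤ F y) (x : ℂ) (r : ℝ) : 0 ≤ avg F x r :=
  div_nonneg (integral_nonneg fun _ => h0 _) Real.pi_pos.le

theorem cmax_eq_iSup_s4 (hF : Integrable F) (h0 : ∀ y, 0 ≤ F y) (x : ℂ) :
    cmax F x = ⨆ (r : ℝ) (_ : 0 < r), ENNReal.ofReal (avg F x r) := by
  unfold cmax
  refine iSup_congr fun r => iSup_congr fun hr => ?_
  rw [avg_eq_ball F x hr, ENNReal.ofReal_div_of_pos (by positivity), Complex.volume_ball,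
    ofReal_integral_eq_lintegral_ofReal hF.integrableOn (Eventually.of_forall h0)]
  congr 1
  · refine lintegral_congr fun y => ?_
    rw [Real.enorm_eq_ofReal (h0 y)]
  · rw [ENNReal.ofReal_mul Real.pi_pos.le, ENNReal.ofReal_pow hr.le, mul_comm]
    congr 1
    rw [← NNReal.coe_real_pi, ENNReal.ofReal_coe_nnreal]

theorem Mx_mono_left_s4 (hF : Integrable F) {a a' b : ℝ} (ha : 0 < a) (h : a ≤ a') (h' : a' ≤ b)
    (x : ℂ) : Mx F a' b x ≤ Mx F a b x := by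
  refine csSup_le ((nonempty_Icc.2 h').image _) ?_
  rintro _ ⟨r, hr, rfl⟩
  exact le_Mx hF ha ⟨h.trans hr.1, hr.2⟩ x

theorem Pm_anti_s4 (hF : Integrable F) {a b : ℝ} (ha : 0 < a) (h : a ≤ b) (x : ℂ) :
    Pm F b x ≤ Pm F a x := by
  rw [Pm_eq_max hF ha h]; exact le_max_right _ _

/-- the dyadic radii -/
noncomputable def sc_s4 (m : ℕ) : ℝ := (1 / 4) ^ m

theorem sc_pos_s4 (m : ℕ) : 0 < sc_s4 m := by unfold sc_s4; positivity

theorem sc_anti_s4 {m n : ℕ} (h : m ≤ n) : sc_s4 n ≤ sc_s4 m :=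
  pow_le_pow_of_le_one (by norm_num) (by norm_num) h

theorem sc_eq_s4 {m n : ℕ} (h : m ≤ n) : 4 ^ (n - m) * sc_s4 n = sc_s4 m := by
  obtain ⟨k, rfl⟩ := Nat.exists_eq_add_of_le h
  unfold sc_s4
  rw [Nat.add_sub_cancel_left, pow_add, mul_comm, mul_assoc, ← mul_pow]
  norm_num

theorem exists_sc_le_s4 {r : ℝ} (hr : 0 < r) : ∃ m, sc_s4 m ≤ r := by
  obtain ⟨m, hm⟩ := exists_pow_lt_of_lt_one hr (show (1 / 4 : ℝ) < 1 by norm_num)
  exact ⟨m, hm.le⟩

theorem tendsto_Pm_s4 (hF : Integrable F) (h0 : ∀ y, 0 ≤ F y) {x : ℂ} (hx : cmax F x < ⊤) :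
    (∀ m, 0 ≤ Pm F (sc_s4 m) x ∧ Pm F (sc_s4 m) x ≤ (cmax F x).toReal) ∧
      Tendsto (fun m => Pm F (sc_s4 m) x) atTop (𝓝 (cmax F x).toReal) := by
  have hnn : ∀ m, 0 ≤ Pm F (sc_s4 m) x := fun m =>
    (avg_nonneg_s4 h0 x (sc_s4 m)).trans (le_Pm hF (sc_pos_s4 m) le_rfl x)
  have hub : ∀ m, Pm F (sc_s4 m) x ≤ (cmax F x).toReal := by
    intro m
    refine csSup_le (nonempty_Ici.image _) ?_
    rintro _ ⟨r, hr, rfl⟩
    rw [← ENNReal.ofReal_le_iff_le_toReal hx.ne, cmax_eq_iSup_s4 hF h0]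
    exact le_iSup₂_of_le (f := fun (r : ℝ) (_ : 0 < r) => ENNReal.ofReal (avg F x r)) r
      ((sc_pos_s4 m).trans_le hr) le_rfl
  refine ⟨fun m => ⟨hnn m, hub m⟩, ?_⟩
  apply tendsto_atTop_isLUB (fun m n h => Pm_anti_s4 hF (sc_pos_s4 n) (sc_anti_s4 h) x)
  refine ⟨by rintro _ ⟨m, rfl⟩; exact hub m, fun u hu => ?_⟩
  have hu0 : 0 ≤ u := (hnn 0).trans (hu ⟨0, rfl⟩)
  apply ENNReal.toReal_le_of_le_ofReal hu0
  rw [cmax_eq_iSup_s4 hF h0]
  refine iSup₂_le fun r hr => ENNReal.ofReal_le_ofReal ?_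
  obtain ⟨m, hm⟩ := exists_sc_le_s4 hr
  exact (le_Pm hF (sc_pos_s4 m) hm x).trans (hu ⟨m, rfl⟩)

theorem integrable_gradient_Pm_s4 {C : ℝ≥0∞} (hC : C ≠ ⊤) (hMT : MTstmt C) (hF : Integrable F)
    (hG : Integrable G) (h : Approx F G) (h0 : ∀ y, 0 ≤ F y) {a : ℝ} (ha : 0 < a) :
    Integrable (gradient (Pm F a)) := by
  refine ⟨(measurable_gradient_s4 _).aestronglyMeasurable, ?_⟩
  unfold HasFiniteIntegral
  simp only [enorm_gradient_s4]
  refine (Pm_bound hC hMT hF hG h h0 ha).trans_lt ?_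
  exact ENNReal.mul_lt_top (by finiteness) hG.2

/-- the gradients of the truncated maximal functions form a Cauchy sequence in `L¹` -/
theorem cauchy_gradient_Pm_s4 {C : ℝ≥0∞} (hC : C ≠ ⊤) (hMT : MTstmt C) (hF : Integrable F)
    (hG : Integrable G) (h : Approx F G) (h0 : ∀ y, 0 ≤ F y) (ε : ℝ≥0∞) (hε : 0 < ε) :
    ∃ N, ∀ n, N ≤ n → ∫⁻ x, ‖gradient (Pm F (sc_s4 n)) x - gradient (Pm F (sc_s4 N)) x‖ₑ < ε := by
  obtain ⟨η, hη0, hη⟩ : ∃ η : ℝ≥0∞, 0 < η ∧ η + η + η < ε := by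
    obtain ⟨δ, hδ0, hδ⟩ := ENNReal.exists_nnreal_pos_mul_lt (a := 3) (b := ε) (by norm_num) hε.ne'
    exact ⟨δ, by exact_mod_cast hδ0, by rwa [show (δ : ℝ≥0∞) + δ + δ = δ * 3 by ring]⟩
  obtain ⟨b₀, hb₀, hsmall⟩ := Mx_small hC hMT hF hG h η hη0
  obtain ⟨m, hm⟩ := exists_sc_le_s4 hb₀
  set b := sc_s4 m with hb
  have hbpos : 0 < b := sc_pos_s4 m
  have hMl : ∀ k, m ≤ k → ∃ L, LipschitzWith L (Mx F (sc_s4 k) b) := fun k hk =>
    ⟨_, Mx_lip_of_approx hF hG h (sc_pos_s4 k) (sc_anti_s4 hk)⟩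
  have hPl : ∀ a, 0 < a → ∃ L, LipschitzWith L (Pm F a) := fun a ha =>
    ⟨_, Pm_lip_of_approx hF hG h ha⟩
  have hMm : ∀ k, Measurable (Mx F (sc_s4 (m + k)) b) := fun k => by
    obtain ⟨L, hL⟩ := hMl (m + k) (Nat.le_add_right _ _)
    exact hL.continuous.measurable
  have hPm : Measurable (Pm F b) := by
    obtain ⟨L, hL⟩ := hPl b hbpos
    exact hL.continuous.measurable
  set S : ℕ → Set ℂ := fun k =>
    {x | Mx F (sc_s4 (m + k)) b x < Pm F b x} ∩ ⋃ j, {x | Pm F b x < Mx F (sc_s4 (m + j)) b x} with hS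
  have hSm : ∀ k, MeasurableSet (S k) := fun k =>
    (measurableSet_lt (hMm k) hPm).inter
      (MeasurableSet.iUnion fun j => measurableSet_lt hPm (hMm j))
  set Φ : ℂ → ℝ≥0∞ := fun x => ‖G x‖ₑ + ‖gradient (Pm F b) x‖ₑ with hΦ
  have hgi := integrable_gradient_Pm_s4 hC hMT hF hG h h0 hbpos
  have hΦm : AEMeasurable Φ := hG.1.enorm.add hgi.1.enorm
  have hΦf : ∫⁻ x, Φ x ≠ ⊤ := by
    rw [hΦ, lintegral_add_left' hG.1.enorm]
    exact ENNReal.add_ne_top.2 ⟨hG.2.ne, hgi.2.ne⟩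
  have hlim : Tendsto (fun k => ∫⁻ x, (S k).indicator Φ x) atTop (𝓝 (∫⁻ _ : ℂ, 0)) := by
    refine tendsto_lintegral_of_dominated_convergence' Φ (fun k => hΦm.indicator (hSm k))
      (fun k => Eventually.of_forall fun x => indicator_le_self _ _ x) hΦf
      (Eventually.of_forall fun x => ?_)
    refine tendsto_const_nhds.congr' ?_
    by_cases hx : ∃ j, Pm F b x < Mx F (sc_s4 (m + j)) b x
    · obtain ⟨j, hj⟩ := hx
      filter_upwards [eventually_ge_atTop j] with k hk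
      rw [indicator_of_notMem]
      rintro ⟨h1, -⟩
      have := Mx_mono_left_s4 hF (sc_pos_s4 (m + k)) (sc_anti_s4 (show m + j ≤ m + k by omega))
        (sc_anti_s4 (Nat.le_add_right m j)) x
      have h1' : Mx F (sc_s4 (m + k)) b x < Pm F b x := h1
      linarith
    · refine Eventually.of_forall fun k => ?_
      beta_reduce
      rw [indicator_of_notMem]
      rintro ⟨-, h2⟩
      exact hx (mem_iUnion.1 h2)
  rw [lintegral_zero] at hlim
  obtain ⟨k, hk1, hk⟩ := ((eventually_ge_atTop 1).and (hlim.eventually (ge_mem_nhds hη0))).exists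
  refine ⟨m + k, fun n hn => lt_of_le_of_lt ?_ hη⟩
  obtain ⟨j, rfl⟩ : ∃ j, n = m + j := ⟨n - m, by omega⟩
  have hsm : ∀ i, 1 ≤ i → ∫⁻ x, ‖gradient (Mx F (sc_s4 (m + i)) b) x - G x‖ₑ ≤ η := by
    intro i hi
    have e : 4 ^ i * sc_s4 (m + i) = b := by
      have := sc_eq_s4 (Nat.le_add_right m i)
      rwa [Nat.add_sub_cancel_left] at this
    have := hsmall (sc_s4 (m + i)) i (sc_pos_s4 _) hi (by rw [e]; exact hm)
    rwa [e] at this
  obtain ⟨_, l1⟩ := hMl (m + j) (Nat.le_add_right _ _)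
  obtain ⟨_, l2⟩ := hMl (m + k) (Nat.le_add_right _ _)
  obtain ⟨_, l3⟩ := hPl b hbpos
  obtain ⟨_, l4⟩ := hPl _ (sc_pos_s4 (m + j))
  obtain ⟨_, l5⟩ := hPl _ (sc_pos_s4 (m + k))
  calc ∫⁻ x, ‖gradient (Pm F (sc_s4 (m + j))) x - gradient (Pm F (sc_s4 (m + k))) x‖ₑ
      ≤ ∫⁻ x, (‖gradient (Mx F (sc_s4 (m + j)) b) x - G x‖ₑ
          + ‖gradient (Mx F (sc_s4 (m + k)) b) x - G x‖ₑ + (S k).indicator Φ x) := by
        refine lintegral_mono_ae ?_
        filter_upwards [l1.ae_differentiableAt (μ := volume), l2.ae_differentiableAt (μ := volume),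
          l3.ae_differentiableAt (μ := volume), l4.ae_differentiableAt (μ := volume),
          l5.ae_differentiableAt (μ := volume)] with x d1 d2 d3 d4 d5
        exact gradient_max_sub_le_s4
          (Mx_mono_left_s4 hF (sc_pos_s4 _) (sc_anti_s4 hn) (sc_anti_s4 (Nat.le_add_right _ _)))
          (Pm_eq_max hF (sc_pos_s4 _) (sc_anti_s4 (Nat.le_add_right _ _)))
          (Pm_eq_max hF (sc_pos_s4 _) (sc_anti_s4 (Nat.le_add_right _ _))) d1 d2 d3 d4 d5 G
          (fun a1 a2 => ⟨a1, mem_iUnion.2 ⟨j, a2⟩⟩)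
    _ = (∫⁻ x, ‖gradient (Mx F (sc_s4 (m + j)) b) x - G x‖ₑ)
          + (∫⁻ x, ‖gradient (Mx F (sc_s4 (m + k)) b) x - G x‖ₑ) + ∫⁻ x, (S k).indicator Φ x := by
        rw [lintegral_add_right' _ (hΦm.indicator (hSm k)), lintegral_add_left']
        exact ((measurable_gradient_s4 _).aestronglyMeasurable.sub hG.1).enorm
    _ ≤ η + η + η := by
        gcongr
        · exact hsm j (by omega)
        · exact hsm k hk1

/-- integration by parts for Lipschitz functions -/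
theorem weak_lip_s4 {w : ℂ → ℝ} {L : ℝ≥0} (hw : LipschitzWith L w) {φ : ℂ → ℝ}
    (hφ : ContDiff ℝ (⊤ : ℕ∞) φ) (hφc : HasCompactSupport φ) (v : ℂ) :
    ∫ x, w x * fderiv ℝ φ x v = -∫ x, ⟪gradient w x, v⟫ * φ x := by
  obtain ⟨D, hD⟩ := hφ.lipschitzWith_of_hasCompactSupport hφc (by simp)
  have key := LipschitzWith.integral_lineDeriv_mul_eq (μ := volume) hw hD hφc v
  have e1 : ∫ x, lineDeriv ℝ w x v * φ x = ∫ x, ⟪gradient w x, v⟫ * φ x := by
    refine integral_congr_ae ?_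
    filter_upwards [hw.ae_differentiableAt (μ := volume)] with x hx
    rw [hx.lineDeriv_eq_fderiv, inner_gradient_s4]
  have e2 : ∫ x, lineDeriv ℝ φ x (-v) * w x = -∫ x, w x * fderiv ℝ φ x v := by
    rw [← integral_neg]
    refine integral_congr_ae (Eventually.of_forall fun x => ?_)
    beta_reduce
    rw [(hφ.differentiable (by simp) x).lineDeriv_eq_fderiv, map_neg]; ring
  rw [← e1, key, e2, neg_neg]

end

theorem final_of_approx {C : ℝ≥0∞} (hC : C ≠ ⊤) (hMT : MTstmt C) {F : ℂ → ℝ} {G : ℂ → ℂ}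
    (hF : Integrable F) (hG : Integrable G) (h : Approx F G) (h0 : ∀ y, 0 ≤ F y) :
    (∀ᵐ x, cmax F x < ⊤) ∧ LocallyIntegrable (fun x => (cmax F x).toReal) ∧
      ∃ H : ℂ → ℂ, WG (fun x => (cmax F x).toReal) H ∧ Integrable H ∧
        ∫⁻ x, ‖H x‖ₑ ≤ (2 * C + 1) * ∫⁻ x, ‖G x‖ₑ := by
  obtain ⟨Θ, hΘm, hΘf, hΘ⟩ := small_majorant hF hG h
  set c₀ : ℝ := (∫ y, |F y|) / (Real.pi * 1 ^ 2) with hc₀
  have hc₀0 : 0 ≤ c₀ := div_nonneg (integral_nonneg fun _ => abs_nonneg _) (by positivity)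
  have hb : ∀ x, cmax F x ≤ Θ x + ENNReal.ofReal c₀ := by
    intro x
    rw [cmax_eq_iSup_s4 hF h0]
    refine iSup₂_le fun r hr => ?_
    rcases le_total r 1 with h1 | h1
    · exact (hΘ x r hr h1).trans le_self_add
    · refine le_trans (ENNReal.ofReal_le_ofReal ?_) le_add_self
      exact (le_Pm hF one_pos h1 x).trans ((le_abs_self _).trans (abs_Pm_le hF one_pos x))
  have hΘae : ∀ᵐ x, Θ x < ⊤ := ae_lt_top hΘm hΘf
  have hfin : ∀ᵐ x, cmax F x < ⊤ := by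
    filter_upwards [hΘae] with x hx
    exact (hb x).trans_lt (ENNReal.add_lt_top.2 ⟨hx, ENNReal.ofReal_lt_top⟩)
  have hPl : ∀ m, ∃ L, LipschitzWith L (Pm F (sc_s4 m)) := fun m =>
    ⟨_, Pm_lip_of_approx hF hG h (sc_pos_s4 m)⟩
  have hPc : ∀ m, Continuous (Pm F (sc_s4 m)) := fun m => by
    obtain ⟨L, hL⟩ := hPl m
    exact hL.continuous
  have hmeas : AEStronglyMeasurable (fun x => (cmax F x).toReal) volume := by
    refine aestronglyMeasurable_of_tendsto_ae atTop (f := fun m => Pm F (sc_s4 m))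
      (fun m => (hPc m).aestronglyMeasurable) ?_
    filter_upwards [hfin] with x hx
    exact (tendsto_Pm_s4 hF h0 hx).2
  have hloc : LocallyIntegrable (fun x => (cmax F x).toReal) := by
    have h1 : LocallyIntegrable (fun x => (Θ x).toReal + c₀) :=
      (integrable_toReal_of_lintegral_ne_top hΘm.aemeasurable hΘf).locallyIntegrable.add
        (locallyIntegrable_const c₀)
    refine h1.mono hmeas ?_
    filter_upwards [hΘae] with x hx
    rw [Real.norm_of_nonneg ENNReal.toReal_nonneg, Real.norm_of_nonneg (by positivity)]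
    have := ENNReal.toReal_mono (ENNReal.add_ne_top.2 ⟨hx.ne, ENNReal.ofReal_ne_top⟩) (hb x)
    rwa [ENNReal.toReal_add hx.ne ENNReal.ofReal_ne_top, ENNReal.toReal_ofReal hc₀0] at this
  have hgi : ∀ m, Integrable (gradient (Pm F (sc_s4 m))) := fun m =>
    integrable_gradient_Pm_s4 hC hMT hF hG h h0 (sc_pos_s4 m)
  obtain ⟨H, hHi, hH⟩ := exists_L1_limit_s4 hgi (cauchy_gradient_Pm_s4 hC hMT hF hG h h0)
  refine ⟨hfin, hloc, H, ⟨hloc, hHi.locallyIntegrable, fun φ hφ hφc v => ?_⟩, hHi, ?_⟩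
  · have hd : Continuous fun x => fderiv ℝ φ x v :=
      (hφ.continuous_fderiv (by simp)).clm_apply continuous_const
    have hdc : HasCompactSupport fun x => fderiv ℝ φ x v := hφc.fderiv_apply (𝕜 := ℝ) v
    have hint : Integrable fun x => (cmax F x).toReal * fderiv ℝ φ x v :=
      hloc.integrable_smul_right_of_hasCompactSupport hd hdc
    have t1 : Tendsto (fun m => ∫ x, Pm F (sc_s4 m) x * fderiv ℝ φ x v) atTop
        (𝓝 (∫ x, (cmax F x).toReal * fderiv ℝ φ x v)) := by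
      refine tendsto_integral_of_dominated_convergence
        (fun x => ‖(cmax F x).toReal * fderiv ℝ φ x v‖)
        (fun m => ((hPc m).mul hd).aestronglyMeasurable) hint.norm (fun m => ?_) ?_
      · filter_upwards [hfin] with x hx
        obtain ⟨a1, a2⟩ := (tendsto_Pm_s4 hF h0 hx).1 m
        rw [norm_mul, norm_mul, Real.norm_of_nonneg a1, Real.norm_of_nonneg ENNReal.toReal_nonneg]
        gcongr
      · filter_upwards [hfin] with x hx
        exact (tendsto_Pm_s4 hF h0 hx).2.mul_const _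
    obtain ⟨B, hB⟩ := hφ.continuous.bounded_above_of_compact_support hφc
    have hI : ∀ u : ℂ → ℂ, Integrable u → Integrable fun x => ⟪u x, v⟫ * φ x := fun u hu =>
      (hu.inner_const v).mul_bdd hφ.continuous.aestronglyMeasurable (Eventually.of_forall hB)
    have t2 : Tendsto (fun m => ∫ x, ⟪gradient (Pm F (sc_s4 m)) x, v⟫ * φ x) atTop
        (𝓝 (∫ x, ⟪H x, v⟫ * φ x)) := by
      refine tendsto_integral_of_L1 _ (hI H hHi).1 (Eventually.of_forall fun m => hI _ (hgi m)) ?_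
      have t3 := ENNReal.Tendsto.const_mul (a := ‖v‖ₑ * ENNReal.ofReal B) hH
        (Or.inr (by finiteness))
      rw [mul_zero] at t3
      refine tendsto_of_tendsto_of_tendsto_of_le_of_le tendsto_const_nhds t3
        (fun _ => zero_le) (fun m => ?_)
      beta_reduce
      rw [← lintegral_const_mul' _ _ (by finiteness)]
      refine lintegral_mono fun x => ?_
      rw [← sub_mul, ← inner_sub_left, enorm_mul]
      have a1 : ‖⟪gradient (Pm F (sc_s4 m)) x - H x, v⟫‖ₑ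
          ≤ ‖gradient (Pm F (sc_s4 m)) x - H x‖ₑ * ‖v‖ₑ := by
        rw [← ofReal_norm, ← ofReal_norm, ← ofReal_norm, ← ENNReal.ofReal_mul (norm_nonneg _)]
        exact ENNReal.ofReal_le_ofReal (norm_inner_le_norm _ _)
      have a2 : ‖φ x‖ₑ ≤ ENNReal.ofReal B := by
        rw [← ofReal_norm]; exact ENNReal.ofReal_le_ofReal (hB x)
      calc _ ≤ (‖gradient (Pm F (sc_s4 m)) x - H x‖ₑ * ‖v‖ₑ) * ENNReal.ofReal B := by gcongr
        _ = _ := by ring
    refine tendsto_nhds_unique t1 (t2.neg.congr fun m => ?_)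
    obtain ⟨L, hL⟩ := hPl m
    exact (weak_lip_s4 hL hφ hφc v).symm
  · have t3 := hH.const_add (2 * C * ∫⁻ x, ‖G x‖ₑ)
    rw [add_zero] at t3
    refine (ge_of_tendsto' t3 fun m => ?_).trans (by gcongr; exact le_self_add)
    calc ∫⁻ x, ‖H x‖ₑ
        ≤ ∫⁻ x, (‖gradient (Pm F (sc_s4 m)) x‖ₑ + ‖gradient (Pm F (sc_s4 m)) x - H x‖ₑ) := by
          refine lintegral_mono fun x => ?_
          calc ‖H x‖ₑ = ‖gradient (Pm F (sc_s4 m)) x - (gradient (Pm F (sc_s4 m)) x - H x)‖ₑ := by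
                congr 1; ring
            _ ≤ _ := enorm_sub_le
      _ = (∫⁻ x, ‖gradient (Pm F (sc_s4 m)) x‖ₑ) + ∫⁻ x, ‖gradient (Pm F (sc_s4 m)) x - H x‖ₑ :=
          lintegral_add_left' (hgi m).1.enorm _
      _ ≤ _ := by
          gcongr
          simp only [enorm_gradient_s4]
          exact Pm_bound hC hMT hF hG h h0 (sc_pos_s4 m)

theorem final_C {C : ℝ≥0∞} (hC : C ≠ ⊤) (hMT : MTstmt C) : ∃ C' : ℝ,
    ∀ (f : ℂ → ℝ) (g : ℂ → ℂ), Integrable f → WG f g → Integrable g →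
      (∀ᵐ x, cmax f x < ⊤) ∧ LocallyIntegrable (fun x => (cmax f x).toReal) ∧
        ∃ H : ℂ → ℂ, WG (fun x => (cmax f x).toReal) H ∧ Integrable H ∧
          ∫ x, ‖H x‖ ≤ C' * ∫ x, ‖g x‖ := by
  refine ⟨(2 * C + 1).toReal, fun f g hf hw hg => ?_⟩
  obtain ⟨G, hG, hGg, hA⟩ := (approx_of_WG hf hg hw).abs hf hg
  have e : cmax f = cmax fun y => |f y| := by
    funext x
    unfold cmax
    simp only [Real.enorm_abs]
  rw [e]
  obtain ⟨h1, h2, H, h3, h4, h5⟩ := final_of_approx hC hMT hf.abs hG hA (fun y => abs_nonneg _)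
  refine ⟨h1, h2, H, h3, h4, ?_⟩
  rw [integral_norm_eq_lintegral_enorm h4.1, integral_norm_eq_lintegral_enorm hg.1,
    ← ENNReal.toReal_mul]
  refine ENNReal.toReal_mono (ENNReal.mul_ne_top (by finiteness) hg.2.ne) (h5.trans ?_)
  gcongr with x
  rw [← ofReal_norm, ← ofReal_norm]
  exact ENNReal.ofReal_le_ofReal (hGg x)

end Crest.Agent.R112
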