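import Crest.Agent.R112.TailDefs

/-! # Row 112: auxiliary lemmas for the rescaling (task T5b) -/

open MeasureTheory Set Filter Topology Metric
open scoped ENNReal NNReal RealInnerProductSpace

namespace Crest.Agent.R112.Rescale

/-- the affine map `y ↦ c + ℓ • y` as a measurable equivalence -/
noncomputable def affE (c : ℂ) {ℓ : ℝ} (hℓ : ℓ ≠ 0) : ℂ ≃ᵐ ℂ :=
  (MeasurableEquiv.smul₀ ℓ hℓ).trans (MeasurableEquiv.addLeft c)

lemma affE_apply (c : ℂ) {ℓ : ℝ} (hℓ : ℓ ≠ 0) (y : ℂ) : affE c hℓ y = c + ℓ • y := rfl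

lemma map_affE (c : ℂ) {ℓ : ℝ} (hℓ : 0 < ℓ) :
    Measure.map (affE c hℓ.ne') (volume : Measure ℂ) = ENNReal.ofReal (ℓ ^ 2)⁻¹ • volume := by
  have h1 : (affE c hℓ.ne' : ℂ → ℂ) = (fun y => c + y) ∘ (fun y => ℓ • y) := rfl
  rw [h1, ← Measure.map_map (measurable_const_add c) (measurable_const_smul ℓ),
    Measure.map_addHaar_smul volume hℓ.ne', Measure.map_smul, map_add_left_eq_self,
    Complex.finrank_real_complex, abs_of_pos (by positivity)]

lemma lintegral_aff (c : ℂ) {ℓ : ℝ} (hℓ : 0 < ℓ) (F : ℂ → ℝ≥0∞) :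
    ∫⁻ y, F (c + ℓ • y) = ENNReal.ofReal (ℓ ^ 2)⁻¹ * ∫⁻ y, F y := by
  have := lintegral_map_equiv (μ := (volume : Measure ℂ)) F (affE c hℓ.ne')
  rw [map_affE c hℓ, lintegral_smul_measure, smul_eq_mul] at this
  rw [this]; rfl

lemma mem_ball_aff (c : ℂ) {ℓ : ℝ} (hℓ : 0 < ℓ) (a : ℝ) (y : ℂ) :
    c + ℓ • y ∈ ball c (a * ℓ) ↔ y ∈ ball (0 : ℂ) a := by
  rw [mem_ball_iff_norm, mem_ball_zero_iff, add_sub_cancel_left, norm_smul, Real.norm_eq_abs,
    abs_of_pos hℓ, mul_comm a ℓ]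
  exact mul_lt_mul_iff_right₀ hℓ

lemma setLIntegral_aff (c : ℂ) {ℓ : ℝ} (hℓ : 0 < ℓ) (a : ℝ) (F : ℂ → ℝ≥0∞) :
    ∫⁻ y in ball (0 : ℂ) a, F (c + ℓ • y)
      = ENNReal.ofReal (ℓ ^ 2)⁻¹ * ∫⁻ y in ball c (a * ℓ), F y := by
  rw [← lintegral_indicator measurableSet_ball, ← lintegral_indicator measurableSet_ball,
    ← lintegral_aff c hℓ]
  congr 1
  ext y
  by_cases hy : y ∈ ball (0 : ℂ) a
  · rw [indicator_of_mem hy, indicator_of_mem ((mem_ball_aff c hℓ a y).2 hy)]
  · rw [indicator_of_notMem hy, indicator_of_notMem (fun h => hy ((mem_ball_aff c hℓ a y).1 h))]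

lemma avg_scale (f : ℂ → ℝ) (μ : ℝ) (c : ℂ) (ℓ : ℝ) (y : ℂ) (r : ℝ) :
    avg (fun z => μ * f (c + ℓ • z)) y r = μ * avg f (c + ℓ • y) (ℓ * r) := by
  unfold avg
  rw [integral_const_mul, mul_div_assoc]
  congr 3
  ext ξ
  rw [smul_add, smul_smul, add_assoc]

lemma bad_nonneg' (K : Set ℂ) (p : ℂ) : 0 ≤ bad K p := by
  unfold bad; split_ifs <;> simp

lemma measurable_bad' {K : Set ℂ} (hK : MeasurableSet K) : Measurable (bad K) := by
  unfold bad
  exact Measurable.ite hK measurable_const measurable_norm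

lemma bad_scale (K : Set ℂ) {l : ℝ} (hl : 0 < l) (p : ℂ) :
    bad {q | l⁻¹ • q ∈ K} (l • p) = l * bad K p := by
  unfold bad
  have : (l • p ∈ {q : ℂ | l⁻¹ • q ∈ K}) ↔ p ∈ K := by
    rw [mem_setOf_eq, smul_smul, inv_mul_cancel₀ hl.ne', one_smul]
  by_cases hp : p ∈ K
  · rw [if_pos (this.2 hp), if_pos hp, mul_zero]
  · rw [if_neg (fun h => hp (this.1 h)), if_neg hp, norm_smul, Real.norm_eq_abs, abs_of_pos hl]

lemma cone_scale {e : ℂ} {l : ℝ} (hl : 0 < l) {p : ℂ} (hp : l⁻¹ • p ∈ cone e) : p ∈ cone e := by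
  unfold cone at hp ⊢
  rw [mem_setOf_eq] at hp ⊢
  have hl' : 0 < l⁻¹ := inv_pos.2 hl
  rw [norm_smul, Real.norm_eq_abs, abs_of_pos hl', mul_smul, ← smul_sub, norm_smul,
    Real.norm_eq_abs, abs_of_pos hl', mul_div_assoc] at hp
  exact le_of_mul_le_mul_left hp hl'

lemma exists_level (M : ℝ) (b₁ : ℕ) : ∃ L, b₁ ≤ L ∧ M * Dl L * 200 ≤ tt L := by
  have h1 : ∀ L : ℕ, tt L ≤ (1 / 2) ^ L := by
    intro L
    induction L with
    | zero => simpa using tt_le_one 0
    | succ L ih =>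
      have := tt_succ_le_half L
      rw [pow_succ]; linarith
  have h2 : Tendsto (fun L : ℕ => |M| * 200 * (1 / 2 : ℝ) ^ L) atTop (𝓝 (|M| * 200 * 0)) :=
    (tendsto_pow_atTop_nhds_zero_of_lt_one (by norm_num) (by norm_num)).const_mul _
  rw [mul_zero] at h2
  obtain ⟨L, hL1, hL2⟩ := ((eventually_ge_atTop b₁).and
    (h2.eventually (eventually_lt_nhds one_pos))).exists
  refine ⟨L, hL1, ?_⟩
  have h0 := tt_pos L
  have h3 : Dl L ≤ tt L * tt L := by
    unfold Dl
    calc tt L ^ 200 ≤ tt L ^ 2 := pow_le_pow_of_le_one h0.le (tt_le_one L) (by norm_num)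
      _ = tt L * tt L := by ring
  have h4 : |M| * 200 * tt L ≤ 1 := by
    calc |M| * 200 * tt L ≤ |M| * 200 * (1 / 2) ^ L := by gcongr; exact h1 L
      _ ≤ 1 := hL2.le
  calc M * Dl L * 200 ≤ |M| * (tt L * tt L) * 200 := by
        gcongr
        · exact (Dl_pos L).le
        · exact le_abs_self M
    _ = (|M| * 200 * tt L) * tt L := by ring
    _ ≤ 1 * tt L := by gcongr
    _ = tt L := one_mul _

/-- the rescaled data -/
lemma exists_data (f : ℂ → ℝ) (g : ℂ → ℂ) (G : ℕ → ℂ → ℂ) (Mg : ℝ) (b₁ : ℕ) (c : ℂ) (ℓ : ℝ)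
    (K : Set ℂ) (e v : ℂ) (s : ℝ) (hs : 0 < s)
    (hf : IsGrad f g) (hg : Continuous g) (hGm : ∀ b, Measurable (G b))
    (hGb : ∀ b y, ‖G b y‖ ≤ Mg) (hb₁ : ∀ b, b₁ ≤ b → G b = g) (hℓ : 0 < ℓ)
    (hsm : ∀ b, Sm (G b) (G (b + 1)) (Dl b * ℓ)) (hKm : MeasurableSet K) (hK : K ⊆ cone e)
    (he : ‖e‖ = 1) (hv : ‖v‖ = 1) (hve : ‖v - e‖ ≤ 1 / 10)
    (hS : ∀ b, ENNReal.ofReal (tt b) *
        ∫⁻ y in ball c (15 * ℓ), ENNReal.ofReal (bad K (G b y)) ≤ ENNReal.ofReal s) :
    ∃ D : TData, D.f = (fun z => ℓ / s * f (c + ℓ • z)) ∧ D.v = v ∧ (K = ∅ → D.K = ∅) := by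
  choose τ hτp hτs hτ using hsm
  set l : ℝ := ℓ ^ 2 / s with hl
  have hl0 : 0 < l := by positivity
  obtain ⟨L, hL1, hL2⟩ := exists_level (l * Mg) b₁
  have hmeas : Measurable fun w : ℂ => ℓ⁻¹ • w := measurable_const_smul _
  have haff : Measurable fun y : ℂ => c + ℓ • y := by fun_prop
  refine ⟨{ f := fun z => ℓ / s * f (c + ℓ • z)
            g := fun z => l • g (c + ℓ • z)
            G := fun b z => l • G b (c + ℓ • z)
            τ := fun b => Measure.map (fun w : ℂ => ℓ⁻¹ • w) (τ b)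
            K := {q | l⁻¹ • q ∈ K}
            e := e
            v := v
            L := L
            Mg := l * Mg
            hf := ?_
            hg := ?_
            hGm := ?_
            hGb := ?_
            hGL := ?_
            hτp := ?_
            hτs := ?_
            hsm := ?_
            hKm := ?_
            hK := ?_
            he := he
            hv := hv
            hve := hve
            hD := ?_
            hL := hL2 }, rfl, rfl, ?_⟩
  · intro y
    have h1 : HasFDerivAt (fun z : ℂ => c + ℓ • z) (ℓ • ContinuousLinearMap.id ℝ ℂ) y :=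
      ((hasFDerivAt_id y).const_smul ℓ).const_add c
    have h2 := ((hf (c + ℓ • y)).comp y h1).const_mul (ℓ / s)
    refine h2.congr_fderiv (ContinuousLinearMap.ext fun w => ?_)
    change ℓ / s * ⟪g (c + ℓ • y), ℓ • w⟫ = ⟪l • g (c + ℓ • y), w⟫
    rw [real_inner_smul_left, real_inner_smul_right, hl]
    ring
  · fun_prop
  · intro b
    exact ((hGm b).comp haff).const_smul l
  · intro b y
    rw [norm_smul, Real.norm_eq_abs, abs_of_pos hl0]
    gcongr
    exact hGb b _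
  · rw [hb₁ L hL1]
  · intro b
    have := hτp b
    exact Measure.isProbabilityMeasure_map hmeas.aemeasurable
  · intro b
    rw [ae_map_iff hmeas.aemeasurable (measurableSet_le measurable_norm measurable_const)]
    filter_upwards [hτs b] with w hw
    rw [norm_smul, Real.norm_eq_abs, abs_of_pos (inv_pos.2 hℓ), inv_mul_le_iff₀ hℓ, mul_comm]
    exact hw
  · intro b _ y
    have hm : Measurable fun w : ℂ => l • G (b + 1) (c + ℓ • (y - w)) :=
      ((hGm (b + 1)).comp (by fun_prop)).const_smul l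
    rw [integral_map hmeas.aemeasurable hm.aestronglyMeasurable, integral_smul, hτ b]
    congr 2
    ext w
    rw [smul_sub, smul_smul, mul_inv_cancel₀ hℓ.ne', one_smul, add_sub_assoc]
  · exact (measurable_const_smul l⁻¹) hKm
  · intro p hp
    exact cone_scale hl0 (hK hp)
  · intro b _
    have ht := tt_pos b
    simp only [bad_scale K hl0]
    have hm : Measurable fun y : ℂ => l * bad K (G b (c + ℓ • y)) :=
      ((measurable_bad' hKm).comp ((hGm b).comp haff)).const_mul l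
    rw [integral_eq_lintegral_of_nonneg_ae
      (Eventually.of_forall fun y => mul_nonneg hl0.le (bad_nonneg' K _)) hm.aestronglyMeasurable]
    refine ENNReal.toReal_le_of_le_ofReal (by positivity) ?_
    simp only [ENNReal.ofReal_mul hl0.le]
    rw [lintegral_const_mul' _ _ ENNReal.ofReal_ne_top,
      setLIntegral_aff c hℓ 15 (fun y => ENNReal.ofReal (bad K (G b y))), ← mul_assoc,
      ← ENNReal.ofReal_mul hl0.le]
    have e1 : l * (ℓ ^ 2)⁻¹ = (1 / tt b * s⁻¹) * tt b := by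
      rw [hl]; field_simp
    rw [e1, ENNReal.ofReal_mul (by positivity), mul_assoc]
    calc _ ≤ ENNReal.ofReal (1 / tt b * s⁻¹) * ENNReal.ofReal s := by gcongr; exact hS b
      _ = ENNReal.ofReal (1 / tt b) := by
        rw [← ENNReal.ofReal_mul (by positivity)]
        congr 1
        field_simp
  · rintro rfl
    simp

end Crest.Agent.R112.Rescale
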