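import Crest.Agent.R112.Tail1
import Crest.Agent.R112.Osc
import Crest.Agent.R112.TailAux

/-! # Row 112: rescaling (task T5b) -/

open MeasureTheory Set Filter Topology Metric
open scoped ENNReal NNReal RealInnerProductSpace

namespace Crest.Agent.R112

namespace Rescale
/-- an extended real below `C / (j+1)` for all `j` vanishes -/
lemma le_zero_of_forall_div {a : ℝ≥0∞} {C : ℝ}
    (h : ∀ j : ℕ, a ≤ ENNReal.ofReal C * ENNReal.ofReal (1 / ((j : ℝ) + 1))) : a ≤ 0 := by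
  have h1 : Tendsto (fun j : ℕ => ENNReal.ofReal (1 / ((j : ℝ) + 1))) atTop
      (𝓝 (ENNReal.ofReal 0)) :=
    ENNReal.tendsto_ofReal tendsto_one_div_add_atTop_nhds_zero_nat
  have h2 := ENNReal.Tendsto.const_mul (a := ENNReal.ofReal C) h1 (Or.inr ENNReal.ofReal_ne_top)
  rw [ENNReal.ofReal_zero, mul_zero] at h2
  exact ge_of_tendsto' h2 h

/-- tail lemma at scale `ℓ`, for a positive real bound -/
lemma tail_scaled_pos : ∃ C : ℝ,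
    ∀ (f : ℂ → ℝ) (g : ℂ → ℂ) (G : ℕ → ℂ → ℂ) (Mg : ℝ) (b₁ : ℕ) (c : ℂ) (ℓ : ℝ)
      (K : Set ℂ) (e v : ℂ) (s : ℝ) (ρ : ℂ → ℝ) (R : ℝ), 0 < s →
      IsGrad f g → Continuous g → (∀ b, Measurable (G b)) → (∀ b y, ‖G b y‖ ≤ Mg) →
      (∀ b, b₁ ≤ b → G b = g) → 0 < ℓ → (∀ b, Sm (G b) (G (b + 1)) (Dl b * ℓ)) →
      MeasurableSet K → K ⊆ cone e → ‖e‖ = 1 → ‖v‖ = 1 → ‖v - e‖ ≤ 1 / 10 →
      (∀ b, ENNReal.ofReal (tt b) *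
        ∫⁻ y in ball c (15 * ℓ), ENNReal.ofReal (bad K (G b y)) ≤ ENNReal.ofReal s) →
      LipschitzWith (1 / 2) ρ →
      ∃ Ψ : ℂ → ℝ≥0∞, Measurable Ψ ∧ ∫⁻ x, Ψ x ≤ ENNReal.ofReal C * ENNReal.ofReal s ∧
        ∀ (W : ℂ → ℝ) (x : ℂ) (r : ℝ), ‖x - c‖ ≤ 10 * ℓ → ℓ / 4 ≤ r → r ≤ 4 * ℓ → ρ x ≤ r →
          r ≤ R → ρ x < R → W x = avg f x r →
          (∀ (x' : ℂ) (s : ℝ), ρ x' ≤ s → s ≤ R → avg f x' s ≤ W x') →
          DifferentiableAt ℝ W x → ENNReal.ofReal (-fderiv ℝ W x v) ≤ Ψ x := by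
  obtain ⟨C, hC⟩ := tail_unit
  refine ⟨C, ?_⟩
  intro f g G Mg b₁ c ℓ K e v s ρ R hs hf hg hGm hGb hb₁ hℓ hsm hKm hK he hv hve hS hρ
  obtain ⟨D, hDf, hDv, -⟩ :=
    exists_data f g G Mg b₁ c ℓ K e v s hs hf hg hGm hGb hb₁ hℓ hsm hKm hK he hv hve hS
  have hρ' : LipschitzWith (1 / 2) fun y : ℂ => ρ (c + ℓ • y) / ℓ := by
    refine LipschitzWith.of_dist_le_mul fun y z => ?_
    have h1 := hρ.dist_le_mul (c + ℓ • y) (c + ℓ • z)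
    rw [dist_add_left, dist_smul₀, Real.norm_eq_abs, abs_of_pos hℓ, Real.dist_eq] at h1
    rw [Real.dist_eq, ← sub_div, abs_div, abs_of_pos hℓ, div_le_iff₀ hℓ]
    calc _ ≤ _ := h1
      _ = _ := by ring
  obtain ⟨Ψ, hΨm, hΨi, hΨ⟩ := hC D (fun y => ρ (c + ℓ • y) / ℓ) (R / ℓ) hρ'
  have hinv : ∀ x : ℂ, c + ℓ • (ℓ⁻¹ • (x - c)) = x := by
    intro x
    rw [smul_smul, mul_inv_cancel₀ hℓ.ne', one_smul, add_sub_cancel]
  refine ⟨fun x => ENNReal.ofReal (s / ℓ ^ 2) * Ψ (ℓ⁻¹ • (x - c)), ?_, ?_, ?_⟩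
  · exact (hΨm.comp (by fun_prop)).const_mul _
  · rw [lintegral_const_mul' _ _ ENNReal.ofReal_ne_top]
    have h1 := lintegral_aff (-(ℓ⁻¹ • c)) (inv_pos.2 hℓ) Ψ
    have h2 : ∀ x : ℂ, -(ℓ⁻¹ • c) + ℓ⁻¹ • x = ℓ⁻¹ • (x - c) := by
      intro x; rw [smul_sub]; abel
    simp only [h2] at h1
    rw [h1, ← mul_assoc, ← ENNReal.ofReal_mul (by positivity)]
    have e1 : s / ℓ ^ 2 * (ℓ⁻¹ ^ 2)⁻¹ = s := by field_simp
    rw [e1, mul_comm]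
    gcongr
  · intro W x r hx hr1 hr2 hρx hrR hρR hWx hW hWd
    have hμ : 0 < ℓ / s := by positivity
    set x' : ℂ := ℓ⁻¹ • (x - c) with hx'
    have hxx : c + ℓ • x' = x := hinv x
    have h1 : HasFDerivAt (fun z : ℂ => c + ℓ • z) (ℓ • ContinuousLinearMap.id ℝ ℂ) x' :=
      ((hasFDerivAt_id x').const_smul ℓ).const_add c
    have h2 : HasFDerivAt W (fderiv ℝ W x) (c + ℓ • x') := by
      rw [hxx]; exact hWd.hasFDerivAt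
    have h3 : HasFDerivAt (fun z : ℂ => ℓ / s * W (c + ℓ • z))
        ((ℓ / s) • (fderiv ℝ W x).comp (ℓ • ContinuousLinearMap.id ℝ ℂ)) x' :=
      (h2.comp x' h1).const_mul (ℓ / s)
    have key := hΨ (fun z => ℓ / s * W (c + ℓ • z)) x' (r / ℓ) ?_ ⟨?_, ?_⟩ ?_ ?_ ?_ ?_ ?_
      h3.differentiableAt
    · rw [h3.fderiv, hDv] at key
      have e1 : -fderiv ℝ W x v = s / ℓ ^ 2 *
          -((ℓ / s) • (fderiv ℝ W x).comp (ℓ • ContinuousLinearMap.id ℝ ℂ)) v := by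
        change _ = s / ℓ ^ 2 * -(ℓ / s * fderiv ℝ W x (ℓ • v))
        rw [map_smul, smul_eq_mul]
        field_simp
      rw [e1, ENNReal.ofReal_mul (by positivity)]
      exact mul_le_mul_right key _
    · rw [hx', norm_smul, Real.norm_eq_abs, abs_of_pos (inv_pos.2 hℓ), inv_mul_le_iff₀ hℓ,
        mul_comm]
      exact hx
    · rw [le_div_iff₀ hℓ]; linarith
    · rw [div_le_iff₀ hℓ]; linarith
    · simp only [hxx]; gcongr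
    · gcongr
    · simp only [hxx]; gcongr
    · rw [hDf, avg_scale, hxx, hWx, mul_div_cancel₀ _ hℓ.ne']
    · intro y t ht1 ht2
      rw [hDf, avg_scale]
      rw [div_le_iff₀ hℓ, mul_comm] at ht1
      rw [le_div_iff₀ hℓ, mul_comm] at ht2
      exact mul_le_mul_of_nonneg_left (hW _ _ ht1 ht2) hμ.le

/-- oscillation lemma at scale `ℓ`, for a positive real bound -/
lemma osc_scaled_pos : ∃ C : ℝ,
    ∀ (f : ℂ → ℝ) (g : ℂ → ℂ) (G : ℕ → ℂ → ℂ) (Mg : ℝ) (b₁ : ℕ) (c : ℂ) (ℓ : ℝ) (s : ℝ), 0 < s →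
      IsGrad f g → Continuous g → (∀ b, Measurable (G b)) → (∀ b y, ‖G b y‖ ≤ Mg) →
      (∀ b, b₁ ≤ b → G b = g) → 0 < ℓ → (∀ b, Sm (G b) (G (b + 1)) (Dl b * ℓ)) →
      (∀ b, ENNReal.ofReal (tt b) * ∫⁻ y in ball c (15 * ℓ), ‖G b y‖ₑ ≤ ENNReal.ofReal s) →
      ∀ (x : ℂ) (r : ℝ), ‖x - c‖ ≤ 3 * ℓ → ℓ / 4 ≤ r → r ≤ 4 * ℓ →
        ENNReal.ofReal (|avg f x r - avg f c ℓ| * ℓ) ≤ ENNReal.ofReal C * ENNReal.ofReal s := by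
  obtain ⟨C, hC⟩ := osc_unit
  refine ⟨C, ?_⟩
  intro f g G Mg b₁ c ℓ s hs hf hg hGm hGb hb₁ hℓ hsm hS x r hx hr1 hr2
  obtain ⟨D, hDf, -, hDK⟩ :=
    exists_data f g G Mg b₁ c ℓ ∅ 1 1 s hs hf hg hGm hGb hb₁ hℓ hsm MeasurableSet.empty
      (empty_subset _) norm_one norm_one (by norm_num) (by
        intro b
        have : ∀ y, ENNReal.ofReal (bad ∅ (G b y)) = ‖G b y‖ₑ := by
          intro y
          simp [bad]
        simp only [this]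
        exact hS b)
  have hxx : c + ℓ • (ℓ⁻¹ • (x - c)) = x := by
    rw [smul_smul, mul_inv_cancel₀ hℓ.ne', one_smul, add_sub_cancel]
  have key := hC D (hDK rfl) (ℓ⁻¹ • (x - c)) (r / ℓ) ?_ ⟨?_, ?_⟩
  · rw [hDf, avg_scale, avg_scale, hxx, mul_div_cancel₀ _ hℓ.ne', smul_zero, add_zero, mul_one,
      ← mul_sub, abs_mul, abs_of_pos (by positivity : 0 < ℓ / s)] at key
    have hC0 : 0 ≤ C := le_trans (by positivity) key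
    rw [← ENNReal.ofReal_mul hC0]
    refine ENNReal.ofReal_le_ofReal ?_
    rw [div_mul_eq_mul_div, div_le_iff₀ hs, mul_comm ℓ] at key
    exact key
  · rw [norm_smul, Real.norm_eq_abs, abs_of_pos (inv_pos.2 hℓ), inv_mul_le_iff₀ hℓ, mul_comm]
    exact hx
  · rw [le_div_iff₀ hℓ]; linarith
  · rw [div_le_iff₀ hℓ]; linarith


end Rescale

open Rescale

/-- tail lemma at scale `ℓ` around `c` -/
theorem tail_scaled : ∃ C : ℝ≥0∞, C ≠ ⊤ ∧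
    ∀ (f : ℂ → ℝ) (g : ℂ → ℂ) (G : ℕ → ℂ → ℂ) (Mg : ℝ) (b₁ : ℕ) (c : ℂ) (ℓ : ℝ)
      (K : Set ℂ) (e v : ℂ) (S : ℝ≥0∞) (ρ : ℂ → ℝ) (R : ℝ),
      IsGrad f g → Continuous g → (∀ b, Measurable (G b)) → (∀ b y, ‖G b y‖ ≤ Mg) →
      (∀ b, b₁ ≤ b → G b = g) → 0 < ℓ → (∀ b, Sm (G b) (G (b + 1)) (Dl b * ℓ)) →
      MeasurableSet K → K ⊆ cone e → ‖e‖ = 1 → ‖v‖ = 1 → ‖v - e‖ ≤ 1 / 10 →
      (∀ b, ENNReal.ofReal (tt b) *
        ∫⁻ y in ball c (15 * ℓ), ENNReal.ofReal (bad K (G b y)) ≤ S) →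
      LipschitzWith (1 / 2) ρ →
      ∃ Ψ : ℂ → ℝ≥0∞, Measurable Ψ ∧ ∫⁻ x, Ψ x ≤ C * S ∧
        ∀ (W : ℂ → ℝ) (x : ℂ) (r : ℝ), ‖x - c‖ ≤ 10 * ℓ → ℓ / 4 ≤ r → r ≤ 4 * ℓ → ρ x ≤ r →
          r ≤ R → ρ x < R → W x = avg f x r →
          (∀ (x' : ℂ) (s : ℝ), ρ x' ≤ s → s ≤ R → avg f x' s ≤ W x') →
          DifferentiableAt ℝ W x → ENNReal.ofReal (-fderiv ℝ W x v) ≤ Ψ x := by
  obtain ⟨C, hC⟩ := tail_scaled_pos
  refine ⟨ENNReal.ofReal C + 1, by simp, ?_⟩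
  intro f g G Mg b₁ c ℓ K e v S ρ R hf hg hGm hGb hb₁ hℓ hsm hKm hK he hv hve hS hρ
  rcases eq_or_ne S ⊤ with rfl | hS1
  · refine ⟨fun _ => ⊤, measurable_const, ?_, fun _ _ _ _ _ _ _ _ _ _ _ _ => le_top⟩
    rw [ENNReal.mul_top (by simp)]
    exact le_top
  rcases eq_or_ne S 0 with rfl | hS0
  · have h := fun j : ℕ => hC f g G Mg b₁ c ℓ K e v (1 / ((j : ℝ) + 1)) ρ R (by positivity)
      hf hg hGm hGb hb₁ hℓ hsm hKm hK he hv hve (fun b => (hS b).trans zero_le) hρ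
    choose Ψ hΨm hΨi hΨ using h
    refine ⟨fun x => ⨅ j, Ψ j x, Measurable.iInf hΨm, ?_, ?_⟩
    · rw [mul_zero]
      exact le_zero_of_forall_div fun j =>
        (lintegral_mono fun x => iInf_le (fun j => Ψ j x) j).trans (hΨi j)
    · intro W x r hx hr1 hr2 hρx hrR hρR hWx hW hWd
      exact le_iInf fun j => hΨ j W x r hx hr1 hr2 hρx hrR hρR hWx hW hWd
  · obtain ⟨Ψ, hΨm, hΨi, hΨ⟩ := hC f g G Mg b₁ c ℓ K e v S.toReal ρ R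
      (ENNReal.toReal_pos hS0 hS1) hf hg hGm hGb hb₁ hℓ hsm hKm hK he hv hve
      (by rw [ENNReal.ofReal_toReal hS1]; exact hS) hρ
    refine ⟨Ψ, hΨm, ?_, hΨ⟩
    rw [ENNReal.ofReal_toReal hS1] at hΨi
    refine hΨi.trans ?_
    gcongr
    exact le_self_add

/-- oscillation lemma at scale `ℓ` around `c` -/
theorem osc_scaled : ∃ C : ℝ≥0∞, C ≠ ⊤ ∧
    ∀ (f : ℂ → ℝ) (g : ℂ → ℂ) (G : ℕ → ℂ → ℂ) (Mg : ℝ) (b₁ : ℕ) (c : ℂ) (ℓ : ℝ) (S : ℝ≥0∞),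
      IsGrad f g → Continuous g → (∀ b, Measurable (G b)) → (∀ b y, ‖G b y‖ ≤ Mg) →
      (∀ b, b₁ ≤ b → G b = g) → 0 < ℓ → (∀ b, Sm (G b) (G (b + 1)) (Dl b * ℓ)) →
      (∀ b, ENNReal.ofReal (tt b) * ∫⁻ y in ball c (15 * ℓ), ‖G b y‖ₑ ≤ S) →
      ∀ (x : ℂ) (r : ℝ), ‖x - c‖ ≤ 3 * ℓ → ℓ / 4 ≤ r → r ≤ 4 * ℓ →
        ENNReal.ofReal (|avg f x r - avg f c ℓ| * ℓ) ≤ C * S := by
  obtain ⟨C, hC⟩ := osc_scaled_pos
  refine ⟨ENNReal.ofReal C + 1, by simp, ?_⟩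
  intro f g G Mg b₁ c ℓ S hf hg hGm hGb hb₁ hℓ hsm hS x r hx hr1 hr2
  rcases eq_or_ne S ⊤ with rfl | hS1
  · rw [ENNReal.mul_top (by simp)]
    exact le_top
  rcases eq_or_ne S 0 with rfl | hS0
  · rw [mul_zero]
    exact le_zero_of_forall_div fun j => hC f g G Mg b₁ c ℓ (1 / ((j : ℝ) + 1)) (by positivity)
      hf hg hGm hGb hb₁ hℓ hsm (fun b => (hS b).trans zero_le) x r hx hr1 hr2
  · have h := hC f g G Mg b₁ c ℓ S.toReal (ENNReal.toReal_pos hS0 hS1) hf hg hGm hGb hb₁ hℓ hsm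
      (by rw [ENNReal.ofReal_toReal hS1]; exact hS) x r hx hr1 hr2
    rw [ENNReal.ofReal_toReal hS1] at h
    refine h.trans ?_
    gcongr
    exact le_self_add

end Crest.Agent.R112
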