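import Crest.Agent.R112.TailMeas2

/-! # Row 112: endpoint estimates (task M3) -/

open MeasureTheory Set Filter Topology Metric
open scoped ENNReal NNReal RealInnerProductSpace

namespace Crest.Agent.R112

/-- pairs `(x, y)` with `y` close to the circle of centre `x` and radius `ρ x` -/
def nearSet (ρ : ℂ → ℝ) (w : ℝ) : Set (ℂ × ℂ) := {p | |‖p.1 - p.2‖ - ρ p.1| ≤ w ∧ ρ p.1 ≤ 5}

theorem measurableSet_nearSet {ρ : ℂ → ℝ} (hρ : Continuous ρ) (w : ℝ) :
    MeasurableSet (nearSet ρ w) := by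
  have h1 : IsClosed {p : ℂ × ℂ | |‖p.1 - p.2‖ - ρ p.1| ≤ w} :=
    isClosed_le (by fun_prop) continuous_const
  have h2 : IsClosed {p : ℂ × ℂ | ρ p.1 ≤ 5} := isClosed_le (by fun_prop) continuous_const
  exact (h1.inter h2).measurableSet

namespace TData

variable (D : TData)

/-- bad mass of level `b` near the circle of centre `x` and radius `ρ x` -/
noncomputable def nearMass (ρ : ℂ → ℝ) (b : ℕ) (w : ℝ) (x : ℂ) : ℝ≥0∞ :=
  ∫⁻ y in ball (0 : ℂ) 15, (nearSet ρ w).indicator (fun p => ENNReal.ofReal (D.bet b p.2)) (x, y)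

theorem measurable_nearInd {ρ : ℂ → ℝ} (hρ : Continuous ρ) (b : ℕ) (w : ℝ) :
    Measurable ((nearSet ρ w).indicator fun p : ℂ × ℂ => ENNReal.ofReal (D.bet b p.2)) :=
  Measurable.indicator
    (ENNReal.measurable_ofReal.comp ((D.measurable_bet b).comp measurable_snd))
    (measurableSet_nearSet hρ w)

theorem measurable_nearMass {ρ : ℂ → ℝ} (hρ : Continuous ρ) (b : ℕ) (w : ℝ) :
    Measurable (D.nearMass ρ b w) :=
  Measurable.lintegral_prod_right' (D.measurable_nearInd hρ b w)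

theorem integrableOn_bet_ball (b : ℕ) : IntegrableOn (D.bet b) (ball (0 : ℂ) 15) := by
  refine Measure.integrableOn_of_bounded (M := D.Mg) measure_ball_lt_top.ne
    (D.measurable_bet b).aestronglyMeasurable (Eventually.of_forall fun y => ?_)
  rw [Real.norm_eq_abs, abs_of_nonneg (D.bet_nonneg b y)]
  exact D.bet_le b y

theorem lintegral_bet_ball {b : ℕ} (hb : b ≤ D.L) :
    ∫⁻ y in ball (0 : ℂ) 15, ENNReal.ofReal (D.bet b y) ≤ ENNReal.ofReal (1 / tt b) := by
  rw [← ofReal_integral_eq_lintegral_ofReal (D.integrableOn_bet_ball b)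
    (Eventually.of_forall fun y => D.bet_nonneg b y)]
  exact ENNReal.ofReal_le_ofReal (D.bet_set_le hb subset_rfl)

theorem lintegral_nearMass {ρ : ℂ → ℝ} (hρ : LipschitzWith (1 / 2) ρ) {b : ℕ} (hb : b ≤ D.L)
    {w : ℝ} (hw : 0 ≤ w) (hw1 : w ≤ 1) :
    ∫⁻ x, D.nearMass ρ b w x ≤ ENNReal.ofReal (200 * w / tt b) := by
  unfold nearMass
  rw [lintegral_lintegral_swap
    (f := fun x y => (nearSet ρ w).indicator (fun p => ENNReal.ofReal (D.bet b p.2)) (x, y))
    (D.measurable_nearInd hρ.continuous b w).aemeasurable]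
  calc ∫⁻ y in ball (0 : ℂ) 15, ∫⁻ x,
        (nearSet ρ w).indicator (fun p => ENNReal.ofReal (D.bet b p.2)) (x, y)
      ≤ ∫⁻ y in ball (0 : ℂ) 15, ENNReal.ofReal (200 * w) * ENNReal.ofReal (D.bet b y) := by
        refine lintegral_mono fun y => ?_
        have hm : MeasurableSet {x : ℂ | |‖x - y‖ - ρ x| ≤ w ∧ ρ x ≤ 5} :=
          measurable_prodMk_right (measurableSet_nearSet hρ.continuous w)
        have : (fun x => (nearSet ρ w).indicator (fun p => ENNReal.ofReal (D.bet b p.2)) (x, y))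
            = {x : ℂ | |‖x - y‖ - ρ x| ≤ w ∧ ρ x ≤ 5}.indicator
              (fun _ => ENNReal.ofReal (D.bet b y)) := by
          funext x
          by_cases hx : (x, y) ∈ nearSet ρ w
          · rw [indicator_of_mem hx, indicator_of_mem (by exact hx)]
          · rw [indicator_of_notMem hx, indicator_of_notMem (by exact hx)]
        beta_reduce
        rw [this, lintegral_indicator_const hm, mul_comm]
        gcongr
        exact lip_shell hρ y hw hw1
    _ = ENNReal.ofReal (200 * w) * ∫⁻ y in ball (0 : ℂ) 15, ENNReal.ofReal (D.bet b y) :=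
        lintegral_const_mul _ (ENNReal.measurable_ofReal.comp (D.measurable_bet b))
    _ ≤ ENNReal.ofReal (200 * w) * ENNReal.ofReal (1 / tt b) := by
        gcongr
        exact D.lintegral_bet_ball hb
    _ = ENNReal.ofReal (200 * w / tt b) := by
        rw [← ENNReal.ofReal_mul (by positivity)]
        congr 1; ring

theorem shell_le_nearMass (ρ : ℂ → ℝ) (b : ℕ) {x : ℂ} {r δ w : ℝ}
    (h : Adm x r) (hδ : δ ≤ 1 / 4) (hρ5 : ρ x ≤ 5) (hw : |r - ρ x| + δ ≤ w) :
    ENNReal.ofReal (∫ y in shell x r δ, D.bet b y) ≤ D.nearMass ρ b w x := by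
  have hsub := shell_subset_ball h hδ
  rw [ofReal_integral_eq_lintegral_ofReal ((D.integrableOn_bet_ball b).mono_set hsub)
    (Eventually.of_forall fun y => D.bet_nonneg b y)]
  calc ∫⁻ y in shell x r δ, ENNReal.ofReal (D.bet b y)
      = ∫⁻ y in shell x r δ,
          (nearSet ρ w).indicator (fun p => ENNReal.ofReal (D.bet b p.2)) (x, y) := by
        refine setLIntegral_congr_fun (measurableSet_shell x r δ) fun y hy => ?_
        have hy' : |‖y - x‖ - r| ≤ δ := hy
        have : (x, y) ∈ nearSet ρ w := by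
          refine ⟨?_, hρ5⟩
          change |‖x - y‖ - ρ x| ≤ w
          rw [norm_sub_rev]
          have := abs_sub_le ‖y - x‖ r (ρ x)
          linarith
        rw [indicator_of_mem this]
    _ ≤ D.nearMass ρ b w x := lintegral_mono_set hsub

/-- endpoint estimate -/
theorem meas_X0 {j : ℕ} (hj : j + 1 < D.L) {ρ : ℂ → ℝ} (hρ : LipschitzWith (1 / 2) ρ) :
    volume {x : ℂ | ‖x‖ ≤ 10 ∧ ∃ r ∈ Icc (1 / 4 : ℝ) 4,
        |r - ρ x| ≤ Dl j ^ 2 ∧ tt (j + 1) ≤ D.A (j + 1) x r}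
      ≤ ENNReal.ofReal (tt j ^ 20) := by
  have hD0 := Dl_pos j
  have hD1 := Dl_le j
  have hD2 : Dl j ^ 2 ≤ 1 / 10 ^ 12 := by nlinarith
  have hD3 : 0 < Dl j ^ 2 := by positivity
  have hD4 : 5 * Dl (j + 1) ≤ Dl j ^ 2 := by
    rw [Dl_succ]; nlinarith
  have ht := tt_pos j
  have hsub : {x : ℂ | ‖x‖ ≤ 10 ∧ ∃ r ∈ Icc (1 / 4 : ℝ) 4,
        |r - ρ x| ≤ Dl j ^ 2 ∧ tt (j + 1) ≤ D.A (j + 1) x r}
      ⊆ {x | ENNReal.ofReal (tt (j + 1)) ≤ D.nearMass ρ (j + 2) (2 * Dl j ^ 2) x} := by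
    rintro x ⟨hx, r, hr, h1, h2⟩
    have hadm : Adm x r := ⟨by linarith [hr.1], by linarith [hr.2], by linarith [hr.2]⟩
    refine (ENNReal.ofReal_le_ofReal h2).trans ?_
    refine D.shell_le_nearMass ρ (j + 2) hadm (by linarith) ?_ (by linarith)
    have := (_root_.abs_le.1 h1).1
    linarith [hr.2]
  refine (measure_mono hsub).trans ?_
  have h1 := mul_meas_ge_le_lintegral₀ (μ := volume)
    (D.measurable_nearMass hρ.continuous (j + 2) (2 * Dl j ^ 2)).aemeasurable
    (ENNReal.ofReal (tt (j + 1)))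
  have h2 := D.lintegral_nearMass hρ (b := j + 2) (by omega) (w := 2 * Dl j ^ 2) (by positivity)
    (by linarith)
  have h3 : 200 * (2 * Dl j ^ 2) / tt (j + 2) ≤ tt (j + 1) * tt j ^ 20 := by
    rw [div_le_iff₀ (tt_pos _), tt_succ (j + 1), tt_succ j]
    unfold Dl
    have h4 := tt_pow_le j (m := 40) (n := 400) (by norm_num)
    have h5 : 0 < tt j ^ 40 := by positivity
    calc 200 * (2 * (tt j ^ 200) ^ 2) = 400 * tt j ^ 400 := by ring
      _ ≤ tt j ^ 40 := by linarith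
      _ = _ := by ring
  have h4 := h1.trans (h2.trans (ENNReal.ofReal_le_ofReal h3))
  rw [ENNReal.ofReal_mul (tt_pos _).le] at h4
  exact (ENNReal.mul_le_mul_iff_right (ENNReal.ofReal_pos.2 (tt_pos _)).ne'
    ENNReal.ofReal_ne_top).1 h4

theorem neg_davg_le {x : ℂ} {r lam : ℝ} (hx : ‖x‖ ≤ 10) (hr : r ∈ Icc (1 / 4 : ℝ) 4)
    (hlam : |lam| ≤ 1 / 2) :
    -davg D.g x r D.v lam ≤ (16 + 8 / tt 0) + 8 * ∑ b ∈ Finset.range D.L, D.A b x r := by
  have hr0 : 0 < r := by linarith [hr.1]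
  have hadm : Adm x r := ⟨by linarith [hr.1], by linarith [hr.2], by linarith [hr.2]⟩
  set B : ℂ := ((lam / r : ℝ) : ℂ) with hB
  have hBn : ‖B‖ = |lam| / r := by
    rw [hB, Complex.norm_real, Real.norm_eq_abs, abs_div, abs_of_pos hr0]
  have hB8 : ‖B‖ ≤ 8 := by
    rw [hBn, div_le_iff₀ hr0]; linarith [hr.1]
  have hBy : ∀ y, ‖y - x‖ ≤ r → ‖B * (y - x)‖ ≤ 1 / 2 := by
    intro y hy
    rw [norm_mul, hBn]
    calc |lam| / r * ‖y - x‖ ≤ |lam| / r * r := by gcongr
      _ = |lam| := by field_simp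
      _ ≤ 1 / 2 := hlam
  have hM : ∀ y, ‖y - x‖ ≤ r → ‖D.v + B * (y - x)‖ ≤ 3 / 2 := by
    intro y hy
    have := norm_add_le D.v (B * (y - x))
    rw [D.hv] at this
    linarith [hBy y hy]
  have hpos : ∀ y, ‖y - x‖ ≤ r → Pos D.e (2 / 5) (D.v + B * (y - x)) := by
    intro y hy n hn hne
    have h1 : ‖D.v - n‖ ≤ 3 / 10 := by
      have := norm_sub_le (D.v - D.e) (n - D.e)
      rw [sub_sub_sub_cancel_right] at this
      linarith [D.hve]
    have h2 := norm_sub_sq_real D.v n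
    rw [D.hv, hn] at h2
    have h3 : ‖D.v - n‖ ^ 2 ≤ (3 / 10) ^ 2 := by gcongr
    have h4 := abs_real_inner_le_norm (B * (y - x)) n
    rw [hn, mul_one] at h4
    have h5 := (_root_.abs_le.1 (h4.trans (hBy y hy))).1
    rw [inner_add_left]
    linarith
  have h1 := D.pos_le le_rfl hadm (c := 2 / 5) (by norm_num) hB8 hpos hM
  have h2 := (_root_.abs_le.1 (D.end_le hadm hM)).1
  have h3 := D.Gam0_nonneg D.L x r
  have h4 : D.Xi0 D.L x r ≤ 1 / tt 0 + ∑ b ∈ Finset.range D.L, D.A b x r := by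
    unfold Xi0 Xi
    rw [Finset.range_eq_Ico]
    exact add_le_add (D.chi_bet_le (Nat.zero_le _) hadm)
      (Finset.sum_le_sum fun b _ => D.kap_bet_le_A b x r)
  have h5 := tt_le_one D.L
  have h6 := D.Xi0_nonneg D.L x r
  have hd : davg D.g x r D.v lam
      = (∫ y in ball x r, ⟪D.v + B * (y - x), D.g y⟫) / (Real.pi * r ^ 2) := by
    rw [davg_eq_ball D.g x hr0]
    simp only [hB, Complex.real_smul]
  have hpi : 3 / 16 ≤ Real.pi * r ^ 2 := by
    have := Real.pi_gt_three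
    have h7 : (1 / 4 : ℝ) ^ 2 ≤ r ^ 2 := by gcongr; exact hr.1
    nlinarith
  have h8 : -(∫ y in ball x r, ⟪D.v + B * (y - x), D.g y⟫) ≤ 3 / 2 * D.Xi0 D.L x r + 3 := by
    linarith
  have h9 : -davg D.g x r D.v lam ≤ 8 * D.Xi0 D.L x r + 16 := by
    rw [hd, ← neg_div, div_le_iff₀ (by linarith)]
    nlinarith
  have h10 : 8 / tt 0 = 8 * (1 / tt 0) := by ring
  linarith

end TData

/-- radii on a Lipschitz graph -/
theorem tail_end : ∃ C : ℝ, ∀ (D : TData) (ρ : ℂ → ℝ), LipschitzWith (1 / 2) ρ →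
    ∃ Ψ : ℂ → ℝ≥0∞, Measurable Ψ ∧ ∫⁻ x, Ψ x ≤ ENNReal.ofReal C ∧
      ∀ (x : ℂ) (lam : ℝ), ‖x‖ ≤ 10 → ρ x ∈ Icc (1 / 4 : ℝ) 4 → |lam| ≤ 1 / 2 →
        ENNReal.ofReal (-davg D.g x (ρ x) D.v lam) ≤ Ψ x := by
  set c : ℝ≥0∞ := ENNReal.ofReal (16 + 8 / tt 0) with hc
  set K : ℝ≥0∞ := c * volume (closedBall (0 : ℂ) 10) + 8 * ENNReal.ofReal 2000 with hK
  have hKt : K ≠ ⊤ := by
    refine ENNReal.add_ne_top.2 ⟨ENNReal.mul_ne_top ENNReal.ofReal_ne_top
      measure_closedBall_lt_top.ne, ENNReal.mul_ne_top (by simp) ENNReal.ofReal_ne_top⟩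
  refine ⟨K.toReal, fun D ρ hρ => ?_⟩
  have hm1 : Measurable ((closedBall (0 : ℂ) 10).indicator fun _ => c) :=
    measurable_const.indicator measurableSet_closedBall
  have hm2 : Measurable fun x => ∑ b ∈ Finset.range D.L, D.nearMass ρ (b + 1) (5 * Dl b) x :=
    Finset.measurable_sum _ fun b _ => D.measurable_nearMass hρ.continuous _ _
  refine ⟨fun x => (closedBall (0 : ℂ) 10).indicator (fun _ => c) x
    + 8 * ∑ b ∈ Finset.range D.L, D.nearMass ρ (b + 1) (5 * Dl b) x,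
    hm1.add (hm2.const_mul _), ?_, ?_⟩
  · rw [ENNReal.ofReal_toReal hKt, lintegral_add_left hm1, lintegral_const_mul _ hm2,
      lintegral_indicator_const measurableSet_closedBall,
      lintegral_finsetSum _ fun b _ => D.measurable_nearMass hρ.continuous _ _]
    refine add_le_add le_rfl ?_
    gcongr
    calc ∑ b ∈ Finset.range D.L, ∫⁻ x, D.nearMass ρ (b + 1) (5 * Dl b) x
        ≤ ∑ b ∈ Finset.range D.L, ENNReal.ofReal (1000 * tt b ^ 196) := by
          refine Finset.sum_le_sum fun b hb => ?_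
          have hb' := Finset.mem_range.1 hb
          have h1 := Dl_pos b
          have h2 := Dl_le b
          refine (D.lintegral_nearMass hρ (b := b + 1) hb' (by positivity) (by linarith)).trans
            (le_of_eq ?_)
          congr 1
          have h3 := tt_pos b
          rw [tt_succ]; unfold Dl; field_simp; ring
      _ = ENNReal.ofReal (1000 * ∑ b ∈ Finset.range D.L, tt b ^ 196) := by
          rw [Finset.mul_sum, ENNReal.ofReal_sum_of_nonneg]
          intro b _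
          have h3 := tt_pos b
          positivity
      _ ≤ ENNReal.ofReal 2000 := by
          refine ENNReal.ofReal_le_ofReal ?_
          have h1 := sum_tt_pow_le 0 D.L 196 (by norm_num)
          have h2 : tt 0 ^ 196 ≤ 1 := pow_le_one₀ (tt_pos 0).le (tt_le_one 0)
          rw [Finset.range_eq_Ico]
          linarith
  · intro x lam hx hr hlam
    have hadm : Adm x (ρ x) := ⟨by linarith [hr.1], by linarith [hr.2], by linarith [hr.2]⟩
    refine (ENNReal.ofReal_le_ofReal (D.neg_davg_le hx hr hlam)).trans ?_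
    have hx' : x ∈ closedBall (0 : ℂ) 10 := by simpa using hx
    beta_reduce
    rw [indicator_of_mem hx']
    refine ENNReal.ofReal_add_le.trans (add_le_add le_rfl ?_)
    rw [ENNReal.ofReal_mul (by norm_num),
      ENNReal.ofReal_sum_of_nonneg fun b _ => D.A_nonneg b x (ρ x)]
    refine mul_le_mul' (by simp) (Finset.sum_le_sum fun b _ => ?_)
    have h2 := Dl_le b
    exact D.shell_le_nearMass ρ (b + 1) hadm (by linarith) (by linarith [hr.2])
      (by simp)

end Crest.Agent.R112
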