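import Crest.Agent.R112.TailDet4
import Crest.Agent.R112.TailMeas

/-! # Row 112: the tail lemma, at unit scale and at a general scale (task T5a) -/

open MeasureTheory Set Filter Topology Metric
open scoped ENNReal NNReal RealInnerProductSpace

namespace Crest.Agent.R112

/-- the exceptional set of block `j` -/
def tail1Bad (D : TData) (ρ : ℂ → ℝ) (R : ℝ) (j : ℕ) : Set ℂ :=
  ({x : ℂ | ‖x‖ ≤ 10 ∧ ∃ r ∈ Icc (1 / 4 : ℝ) 4, ∀ z, ¬ D.R1 j x r z} ∪
    {x : ℂ | ‖x‖ ≤ 10 ∧ ∃ r ∈ Icc (1 / 4 : ℝ) 4, ¬ D.R2 j x r}) ∪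
  ({x : ℂ | ‖x‖ ≤ 10 ∧ ∃ r ∈ Icc (1 / 4 : ℝ) 4,
        |r - ρ x| ≤ Dl j ^ 2 ∧ tt (j + 1) ≤ D.A (j + 1) x r} ∪
    {x : ℂ | ‖x‖ ≤ 10 ∧ ∃ r ∈ Icc (1 / 4 : ℝ) 4,
        |r - R| ≤ Dl j ^ 2 ∧ tt (j + 1) ≤ D.A (j + 1) x r})

theorem tail1_lip_const (R : ℝ) : LipschitzWith (1 / 2) fun _ : ℂ => R :=
  (LipschitzWith.const R).weaken (by positivity)

theorem tail1_meas (D : TData) {ρ : ℂ → ℝ} (hρ : LipschitzWith (1 / 2) ρ) (R : ℝ) {j : ℕ}
    (hj : j + 1 < D.L) : volume (tail1Bad D ρ R j) ≤ ENNReal.ofReal (4 * tt j ^ 20) := by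
  have h0 : 0 ≤ tt j ^ 20 := (pow_pos (tt_pos j) _).le
  have e : 4 * tt j ^ 20 = (tt j ^ 20 + tt j ^ 20) + (tt j ^ 20 + tt j ^ 20) := by ring
  rw [e, ENNReal.ofReal_add (by positivity) (by positivity), ENNReal.ofReal_add h0 h0]
  refine (measure_union_le _ _).trans (add_le_add ((measure_union_le _ _).trans
    (add_le_add (D.meas_X1 hj) (D.meas_X2 hj))) ((measure_union_le _ _).trans
    (add_le_add (D.meas_X0 hj hρ) (D.meas_X0 hj (tail1_lip_const R)))))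

theorem tail1_reg (D : TData) {ρ : ℂ → ℝ} {R : ℝ} {j : ℕ} {x : ℂ} {r : ℝ} (hx : ‖x‖ ≤ 10)
    (hr : r ∈ Icc (1 / 4 : ℝ) 4) (h1 : ρ x ≤ r) (h2 : r ≤ R) (h : x ∉ tail1Bad D ρ R j) :
    (∃ z, D.R1 j x r z) ∧ D.R2 j x r ∧ D.R0 j x r (ρ x) R := by
  refine ⟨?_, ?_, fun hA => ⟨?_, ?_⟩⟩
  · by_contra hc
    exact h (Or.inl (Or.inl ⟨hx, r, hr, fun z hz => hc ⟨z, hz⟩⟩))
  · by_contra hc
    exact h (Or.inl (Or.inr ⟨hx, r, hr, hc⟩))
  · by_contra hc
    refine h (Or.inr (Or.inl ⟨hx, r, hr, ?_, hA⟩))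
    rw [abs_of_nonneg (by linarith)]
    linarith
  · by_contra hc
    refine h (Or.inr (Or.inr ⟨hx, r, hr, ?_, hA⟩))
    rw [abs_of_nonpos (by linarith)]
    linarith

theorem tail1_rho_le (D : TData) {ρ : ℂ → ℝ} (hρ : LipschitzWith (1 / 2) ρ) (x : ℂ) {t : ℝ}
    (ht : 0 < t) : ρ (x + t • D.v) ≤ ρ x + t / 2 := by
  have h := hρ.dist_le_mul (x + t • D.v) x
  rw [Real.dist_eq, dist_eq_norm, add_sub_cancel_left, norm_smul, D.hv, Real.norm_of_nonneg ht.le]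
    at h
  have h2 := (_root_.abs_le.1 h).2
  push_cast at h2
  linarith

theorem tail1_small {c : ℝ} (hc : 0 < c) : ∀ᶠ t : ℝ in 𝓝[>] 0, 0 < t ∧ t / 2 ≤ c := by
  filter_upwards [Ioo_mem_nhdsGT (show (0 : ℝ) < 2 * c by linarith)] with t ht
  exact ⟨ht.1, by linarith [ht.2]⟩

/-- the interior case -/
theorem tail1_interior (D : TData) {ρ : ℂ → ℝ} {R : ℝ} {x : ℂ} {r : ℝ} (hx : ‖x‖ ≤ 10)
    (hr : r ∈ Icc (1 / 4 : ℝ) 4) (h1 : ρ x < r) (h2 : r < R)
    (hopt : ∀ s ∈ Icc (ρ x) R, avg D.f x s ≤ avg D.f x r) {b₀ : ℕ} (hb₀ : b₀ ≤ D.L)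
    (hreg : ∀ j, b₀ ≤ j → j + 1 < D.L → x ∉ tail1Bad D ρ R j) :
    -davg D.g x r D.v 0 ≤ 6 * 10 ^ 6 / tt (b₀ + 1) := by
  have hr0 : 0 < r := by linarith [hr.1]
  have hp : 1 / 6 ≤ Real.pi * r ^ 2 := by nlinarith [Real.pi_gt_three, hr.1]
  have hz := davg_eq_zero_of_max D.hf D.hg h1 h2 hopt
  rw [davg_eq_ball _ _ hr0, div_eq_zero_iff] at hz
  have hs : ∫ y in ball x r, ⟪y - x, D.g y⟫ = 0 := by
    rcases hz with hz | hz
    · simp only [zero_add, real_inner_smul_left] at hz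
      rw [integral_const_mul] at hz
      exact (mul_eq_zero.1 hz).resolve_left (by positivity)
    · linarith
  have h := D.det_main hx hr hopt hs hb₀ fun j hj hj' =>
    tail1_reg D hx hr h1.le h2.le (hreg j hj hj')
  rw [davg_eq_ball _ _ hr0]
  simp only [zero_div, zero_smul, add_zero]
  have ht := tt_pos (b₀ + 1)
  have h3 : 0 ≤ 10 ^ 6 / tt (b₀ + 1) := by positivity
  rw [← neg_div, div_le_iff₀ (by positivity), mul_div_assoc]
  nlinarith

/-- tail lemma at unit scale -/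
theorem tail_unit : ∃ C : ℝ, ∀ (D : TData) (ρ : ℂ → ℝ) (R : ℝ), LipschitzWith (1 / 2) ρ →
    ∃ Ψ : ℂ → ℝ≥0∞, Measurable Ψ ∧ ∫⁻ x, Ψ x ≤ ENNReal.ofReal C ∧
      ∀ (W : ℂ → ℝ) (x : ℂ) (r : ℝ), ‖x‖ ≤ 10 → r ∈ Icc (1 / 4 : ℝ) 4 → ρ x ≤ r → r ≤ R →
        ρ x < R → W x = avg D.f x r →
        (∀ (x' : ℂ) (s : ℝ), ρ x' ≤ s → s ≤ R → avg D.f x' s ≤ W x') →
        DifferentiableAt ℝ W x → ENNReal.ofReal (-fderiv ℝ W x D.v) ≤ Ψ x := by
  obtain ⟨C₀, hC₀⟩ := tail_end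
  have hfin : ENNReal.ofReal C₀ + ENNReal.ofReal C₀
      + ENNReal.ofReal (6 * 10 ^ 6 / tt 1) * volume (closedBall (0 : ℂ) 10)
      + ENNReal.ofReal (48 * 10 ^ 6) ≠ ⊤ := by
    have : volume (closedBall (0 : ℂ) 10) ≠ ⊤ := measure_closedBall_lt_top.ne
    finiteness
  refine ⟨(ENNReal.ofReal C₀ + ENNReal.ofReal C₀
      + ENNReal.ofReal (6 * 10 ^ 6 / tt 1) * volume (closedBall (0 : ℂ) 10)
      + ENNReal.ofReal (48 * 10 ^ 6)).toReal, fun D ρ R hρ => ?_⟩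
  rw [ENNReal.ofReal_toReal hfin]
  obtain ⟨Ψ₁, hm₁, hi₁, h₁⟩ := hC₀ D ρ hρ
  obtain ⟨Ψ₂, hm₂, hi₂, h₂⟩ := hC₀ D (fun _ => R) (tail1_lip_const R)
  set J : Finset ℕ := Finset.Ico 0 (D.L - 1) with hJ
  set Ψ₃ : ℂ → ℝ≥0∞ :=
    (closedBall (0 : ℂ) 10).indicator fun _ => ENNReal.ofReal (6 * 10 ^ 6 / tt 1) with hΨ₃
  set Ψ₄ : ℕ → ℂ → ℝ≥0∞ := fun j => (toMeasurable volume (tail1Bad D ρ R j)).indicator
    fun _ => ENNReal.ofReal (6 * 10 ^ 6 / tt (j + 2)) with hΨ₄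
  have hm₃ : Measurable Ψ₃ := measurable_const.indicator measurableSet_closedBall
  have hm₄ : ∀ j, Measurable (Ψ₄ j) := fun j =>
    measurable_const.indicator (measurableSet_toMeasurable _ _)
  refine ⟨fun x => Ψ₁ x + Ψ₂ x + Ψ₃ x + ∑ j ∈ J, Ψ₄ j x,
    ((hm₁.add hm₂).add hm₃).add (Finset.measurable_sum _ fun j _ => hm₄ j), ?_, ?_⟩
  · beta_reduce
    rw [lintegral_add_left ((hm₁.fun_add hm₂).fun_add hm₃), lintegral_add_left (hm₁.fun_add hm₂),
      lintegral_add_left hm₁, lintegral_finsetSum _ fun j _ => hm₄ j]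
    refine add_le_add (add_le_add (add_le_add hi₁ hi₂) ?_) ?_
    · rw [hΨ₃, lintegral_indicator_const measurableSet_closedBall]
    · have h3 : ∀ j ∈ J, ∫⁻ x, Ψ₄ j x ≤ ENNReal.ofReal (24 * 10 ^ 6 * tt j ^ 4) := by
        intro j hj
        have hj' : j + 1 < D.L := by have := (Finset.mem_Ico.1 hj).2; omega
        have ht := tt_pos j
        have ht2 := tt_pos (j + 2)
        rw [hΨ₄]
        dsimp only
        rw [lintegral_indicator_const (measurableSet_toMeasurable _ _), measure_toMeasurable]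
        refine (mul_le_mul_right (tail1_meas D hρ R hj') _).trans_eq ?_
        rw [← ENNReal.ofReal_mul (by positivity), tt_succ (j + 1), tt_succ j]
        congr 1
        field_simp
        norm_num
      refine (Finset.sum_le_sum h3).trans ?_
      rw [← ENNReal.ofReal_sum_of_nonneg fun j _ => by have := tt_pos j; positivity,
        ← Finset.mul_sum]
      refine ENNReal.ofReal_le_ofReal ?_
      have h4 := sum_tt_pow_le 0 (D.L - 1) 4 (by norm_num)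
      have h5 : tt 0 ^ 4 ≤ 1 := pow_le_one₀ (tt_pos 0).le (tt_le_one 0)
      linarith
  · intro W x r hx hr hρr hrR hρR hWx hW hd
    rcases hrR.eq_or_lt with rfl | hrR'
    · have h3 := davg_le_fderiv (lam := 0) (v := D.v) D.hf D.hg hd hWx (by
        filter_upwards [tail1_small (sub_pos.2 hρR)] with t ht
        rw [mul_zero, add_zero]
        exact hW _ _ (by linarith [tail1_rho_le D hρ x ht.1, ht.2]) le_rfl)
      refine ((ENNReal.ofReal_le_ofReal (neg_le_neg h3)).trans (h₂ x 0 hx hr (by simp))).trans ?_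
      exact (le_add_self.trans le_self_add).trans le_self_add
    rcases hρr.eq_or_lt with rfl | hρr'
    · have h3 := davg_le_fderiv (lam := 1 / 2) (v := D.v) D.hf D.hg hd hWx (by
        filter_upwards [tail1_small (sub_pos.2 hρR)] with t ht
        exact hW _ _ (by linarith [tail1_rho_le D hρ x ht.1]) (by linarith [ht.2]))
      refine ((ENNReal.ofReal_le_ofReal (neg_le_neg h3)).trans
        (h₁ x (1 / 2) hx hr (by rw [abs_of_pos (by norm_num)]))).trans ?_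
      exact (le_self_add.trans le_self_add).trans le_self_add
    have h3 := davg_le_fderiv (lam := 0) (v := D.v) D.hf D.hg hd hWx (by
      filter_upwards [tail1_small (sub_pos.2 hρr')] with t ht
      rw [mul_zero, add_zero]
      exact hW _ _ (by linarith [tail1_rho_le D hρ x ht.1, ht.2]) hrR)
    have hopt : ∀ s ∈ Icc (ρ x) R, avg D.f x s ≤ avg D.f x r := fun s hs => by
      rw [← hWx]; exact hW x s hs.1 hs.2
    classical
    rcases (J.filter fun j => x ∈ tail1Bad D ρ R j).eq_empty_or_nonempty with hE | hE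
    · have h4 := tail1_interior D hx hr hρr' hrR' hopt (Nat.zero_le _) fun j _ hj hb =>
        Finset.eq_empty_iff_forall_notMem.1 hE j
          (Finset.mem_filter.2 ⟨Finset.mem_Ico.2 ⟨by omega, by omega⟩, hb⟩)
      have h5 : Ψ₃ x = ENNReal.ofReal (6 * 10 ^ 6 / tt 1) :=
        indicator_of_mem (by simpa using hx) _
      refine (ENNReal.ofReal_le_ofReal ((neg_le_neg h3).trans h4)).trans ?_
      rw [zero_add, ← h5]
      exact le_add_self.trans le_self_add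
    · obtain ⟨j₀, hj₀, hmax⟩ := Finset.exists_max_image _ id hE
      rw [Finset.mem_filter] at hj₀
      have hj₁ := (Finset.mem_Ico.1 hj₀.1).2
      have h4 := tail1_interior D hx hr hρr' hrR' hopt (b₀ := j₀ + 1) (by omega)
        fun j hj hj' hb => by
          have := hmax j (Finset.mem_filter.2 ⟨Finset.mem_Ico.2 ⟨by omega, by omega⟩, hb⟩)
          simp only [id] at this
          omega
      have h5 : Ψ₄ j₀ x = ENNReal.ofReal (6 * 10 ^ 6 / tt (j₀ + 2)) :=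
        indicator_of_mem (subset_toMeasurable _ _ hj₀.2) _
      refine (ENNReal.ofReal_le_ofReal ((neg_le_neg h3).trans h4)).trans ?_
      rw [← h5]
      exact (Finset.single_le_sum (f := fun j => Ψ₄ j x) (fun _ _ => zero_le) hj₀.1).trans
        le_add_self

end Crest.Agent.R112
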