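import Crest.Agent.R112.Basic

/-! # Row 112: data and notation of the tail lemma at unit scale -/

open MeasureTheory Set Filter Topology Metric
open scoped ENNReal NNReal RealInnerProductSpace

namespace Crest.Agent.R112

/-- Data of the tail lemma at unit scale: `G b` is the gradient smoothed at scale `Dl b`. -/
structure TData where
  f : ℂ → ℝ
  g : ℂ → ℂ
  G : ℕ → ℂ → ℂ
  τ : ℕ → Measure ℂ
  K : Set ℂ
  e : ℂ
  v : ℂ
  L : ℕ
  Mg : ℝ
  hf : IsGrad f g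
  hg : Continuous g
  hGm : ∀ b, Measurable (G b)
  hGb : ∀ b y, ‖G b y‖ ≤ Mg
  hGL : G L = g
  hτp : ∀ b, IsProbabilityMeasure (τ b)
  hτs : ∀ b, ∀ᵐ w ∂(τ b), ‖w‖ ≤ Dl b
  hsm : ∀ b, b < L → ∀ y, G b y = ∫ w, G (b + 1) (y - w) ∂(τ b)
  hKm : MeasurableSet K
  hK : K ⊆ cone e
  he : ‖e‖ = 1
  hv : ‖v‖ = 1
  hve : ‖v - e‖ ≤ 1 / 10
  hD : ∀ b, b ≤ L → ∫ y in ball (0 : ℂ) 15, bad K (G b y) ≤ 1 / tt b
  hL : Mg * Dl L * 200 ≤ tt L

/-- the ramp: `0` below `2`, `1` above `3`, 1-Lipschitz -/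
noncomputable def ramp (s : ℝ) : ℝ := max 0 (min 1 (s - 2))

/-- inner cut-off at block `b` for the disc `(x, r)` -/
noncomputable def chi (b : ℕ) (x : ℂ) (r : ℝ) (y : ℂ) : ℝ := ramp ((r - ‖y - x‖) / Dl b)

/-- outer cut-off -/
noncomputable def chio (b : ℕ) (x : ℂ) (r : ℝ) (y : ℂ) : ℝ := ramp ((‖y - x‖ - r) / Dl b)

/-- admissible discs -/
def Adm (x : ℂ) (r : ℝ) : Prop := 1 / 5 ≤ r ∧ r ≤ 8 ∧ ‖x‖ + r ≤ 29 / 2

namespace TData

variable (D : TData)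

/-- adjoint smoothing operator -/
noncomputable def T (b : ℕ) (φ : ℂ → ℝ) (y : ℂ) : ℝ := ∫ w, φ (y + w) ∂(D.τ b)

/-- shell weight of block `b` -/
noncomputable def kap (b : ℕ) (x : ℂ) (r : ℝ) (y : ℂ) : ℝ :=
  chi (b + 1) x r y - D.T b (chi b x r) y

noncomputable def gam (b : ℕ) (y : ℂ) : ℝ := good D.K (D.G b y)
noncomputable def bet (b : ℕ) (y : ℂ) : ℝ := bad D.K (D.G b y)

/-- inner functional for the field `A + B (y - x)` -/
noncomputable def I (b : ℕ) (x : ℂ) (r : ℝ) (A B : ℂ) : ℝ :=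
  ∫ y, chi b x r y * ⟪A + B * (y - x), D.G b y⟫

/-- inner mass -/
noncomputable def N (b : ℕ) (x : ℂ) (r : ℝ) : ℝ := ∫ y, chi b x r y * ‖D.G b y‖

/-- good mass of the shells of the blocks in `[j, l)` -/
noncomputable def Gam (j l : ℕ) (x : ℂ) (r : ℝ) : ℝ :=
  ∑ b ∈ Finset.Ico j l, ∫ y, D.kap b x r y * D.gam (b + 1) y

/-- effective good mass below level `l` -/
noncomputable def Gam0 (l : ℕ) (x : ℂ) (r : ℝ) : ℝ :=
  (∫ y, chi 0 x r y * D.gam 0 y) + D.Gam 0 l x r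

/-- bad mass of the shells of the blocks in `[j, l)` -/
noncomputable def Xi (j l : ℕ) (x : ℂ) (r : ℝ) : ℝ :=
  ∑ b ∈ Finset.Ico j l, ∫ y, D.kap b x r y * D.bet (b + 1) y

/-- effective bad mass below level `l` -/
noncomputable def Xi0 (l : ℕ) (x : ℂ) (r : ℝ) : ℝ :=
  (∫ y, chi 0 x r y * D.bet 0 y) + D.Xi 0 l x r

/-- bad mass of block `b` in the thick two-sided shell -/
noncomputable def A (b : ℕ) (x : ℂ) (r : ℝ) : ℝ :=
  ∫ y in shell x r (5 * Dl b), D.bet (b + 1) y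

/-- the bad mass of the blocks `j, j+1` near the circle is concentrated near `z` -/
def R1 (j : ℕ) (x : ℂ) (r : ℝ) (z : ℂ) : Prop :=
  ∫ y in shell x r (5 * Dl j) \ ball z (rr j), (D.bet (j + 1) y + D.bet (j + 2) y) ≤ th j

/-- near a heavy pivot there is no mass on the circle away from the pivot -/
def R2 (j : ℕ) (x : ℂ) (r : ℝ) : Prop :=
  ∀ z : ℂ, th j ≤ (∫ y in shell x r (5 * Dl j) ∩ ball z (rr j), D.bet (j + 2) y) →
    (∫ y in ball x (r - 5 * Dl j), ‖D.G j y‖) ≤ 1 / tt j ^ 48 →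
    (∫ y in shell x r (5 * Dl j) \ ball z (2 * rr j), ‖D.G j y‖) ≤ th j

/-- when block `j+1` is heavy, the window around `r` is admissible -/
def R0 (j : ℕ) (x : ℂ) (r lo hi : ℝ) : Prop :=
  tt (j + 1) ≤ D.A (j + 1) x r → lo ≤ r - Dl j ^ 2 ∧ r + Dl j ^ 2 ≤ hi

end TData

end Crest.Agent.R112
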