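import Crest.Agent.R112.TailDet1a

/-! # Row 112: telescoping of the shell decomposition (task T1b) -/

open MeasureTheory Set Filter Topology Metric
open scoped ENNReal NNReal RealInnerProductSpace

namespace Crest.Agent.R112

/-- weights supported in the closed disc -/
structure TailDet1_Wt (ψ : ℂ → ℝ) (x : ℂ) (r : ℝ) : Prop where
  meas : Measurable ψ
  nonneg : ∀ y, 0 ≤ ψ y
  le_one : ∀ y, ψ y ≤ 1
  supp : ∀ y, r < ‖y - x‖ → ψ y = 0

theorem TailDet1_Wt.integrable {ψ : ℂ → ℝ} {x : ℂ} {r : ℝ} (h : TailDet1_Wt ψ x r) {u : ℂ → ℝ}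
    (hu : Measurable u) {C : ℝ} (hC : ∀ y, ‖y - x‖ ≤ r → |u y| ≤ C) :
    Integrable fun y => ψ y * u y := by
  refine integrable_of_bdd_supp (C := C) (R := r) (x := x) (h.meas.mul hu).aestronglyMeasurable
    (fun y hy => ?_) fun y hy => by rw [h.supp y hy, zero_mul]
  rw [abs_mul, abs_of_nonneg (h.nonneg y)]
  exact (mul_le_of_le_one_left (abs_nonneg _) (h.le_one y)).trans (hC y hy)

theorem TailDet1_wt_chi (b : ℕ) (x : ℂ) (r : ℝ) : TailDet1_Wt (chi b x r) x r :=
  ⟨(continuous_chi b x r).measurable, fun _ => ramp_nonneg _, fun _ => ramp_le_one _,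
    fun y hy => chi_eq_zero (by have := Dl_pos b; linarith)⟩

theorem TailDet1_wt_ball (x : ℂ) {r r' : ℝ} (h : r' ≤ r) :
    TailDet1_Wt (indicator (ball x r') fun _ => (1 : ℝ)) x r := by
  refine ⟨measurable_const.indicator measurableSet_ball,
    fun y => indicator_nonneg (fun _ _ => zero_le_one) y,
    fun y => indicator_le_self' (fun _ _ => zero_le_one) y, fun y hy => ?_⟩
  refine indicator_of_notMem ?_ _
  rw [mem_ball, dist_eq_norm]
  linarith

theorem TailDet1_ball_eq (x : ℂ) (r : ℝ) (u : ℂ → ℝ) :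
    ∫ y in ball x r, u y = ∫ y, indicator (ball x r) (fun _ => (1 : ℝ)) y * u y := by
  rw [← integral_indicator measurableSet_ball]
  refine integral_congr_ae (Eventually.of_forall fun y => ?_)
  by_cases h : y ∈ ball x r <;> simp [h]

namespace TData

variable (D : TData)

theorem TailDet1_wt_kap (b : ℕ) (x : ℂ) (r : ℝ) : TailDet1_Wt (D.kap b x r) x r :=
  ⟨D.measurable_kap b x r, D.kap_nonneg b x r, D.kap_le_one b x r, fun y hy => by
    by_contra h
    have := (D.kap_supp h).1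
    linarith⟩

theorem TailDet1_int_field {ψ : ℂ → ℝ} {x : ℂ} {r : ℝ} (h : TailDet1_Wt ψ x r) (b : ℕ) (A B : ℂ) :
    Integrable fun y => ψ y * ⟪A + B * (y - x), D.G b y⟫ := by
  have hG := D.hGm b
  refine h.integrable (C := (‖A‖ + ‖B‖ * r) * D.Mg) (by fun_prop) fun y hy => ?_
  refine (abs_real_inner_le_norm _ _).trans (mul_le_mul ?_ (D.hGb b y) (norm_nonneg _) ?_)
  · refine (norm_add_le _ _).trans ?_
    rw [norm_mul]
    gcongr
  · have := (norm_nonneg _).trans hy
    positivity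

theorem TailDet1_int_norm {ψ : ℂ → ℝ} {x : ℂ} {r : ℝ} (h : TailDet1_Wt ψ x r) (b : ℕ) :
    Integrable fun y => ψ y * ‖D.G b y‖ :=
  h.integrable (C := D.Mg) (D.hGm b).norm fun y _ => by
    rw [abs_norm]
    exact D.hGb b y

theorem TailDet1_int_gam {ψ : ℂ → ℝ} {x : ℂ} {r : ℝ} (h : TailDet1_Wt ψ x r) (b : ℕ) :
    Integrable fun y => ψ y * D.gam b y :=
  h.integrable (C := D.Mg) (D.measurable_gam b) fun y _ => by
    rw [abs_of_nonneg (D.gam_nonneg b y)]
    exact D.gam_le b y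

theorem TailDet1_int_bet {ψ : ℂ → ℝ} {x : ℂ} {r : ℝ} (h : TailDet1_Wt ψ x r) (b : ℕ) :
    Integrable fun y => ψ y * D.bet b y :=
  h.integrable (C := D.Mg) (D.measurable_bet b) fun y _ => by
    rw [abs_of_nonneg (D.bet_nonneg b y)]
    exact D.bet_le b y

theorem TailDet1_norm_eq {ψ : ℂ → ℝ} {x : ℂ} {r : ℝ} (h : TailDet1_Wt ψ x r) (b : ℕ) :
    ∫ y, ψ y * ‖D.G b y‖ = (∫ y, ψ y * D.gam b y) + ∫ y, ψ y * D.bet b y := by
  rw [← integral_add (D.TailDet1_int_gam h b) (D.TailDet1_int_bet h b)]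
  refine integral_congr_ae (Eventually.of_forall fun y => ?_)
  simp only
  rw [← mul_add, D.gam_add_bet]

theorem TailDet1_pos {ψ : ℂ → ℝ} {x : ℂ} {r : ℝ} (h : TailDet1_Wt ψ x r) (b : ℕ) {A B : ℂ}
    {c M : ℝ} (hpos : ∀ y, ‖y - x‖ ≤ r → Pos D.e c (A + B * (y - x)))
    (hM : ∀ y, ‖y - x‖ ≤ r → ‖A + B * (y - x)‖ ≤ M) :
    c * (∫ y, ψ y * D.gam b y) - M * ∫ y, ψ y * D.bet b y ≤
      ∫ y, ψ y * ⟪A + B * (y - x), D.G b y⟫ := by
  rw [← integral_const_mul, ← integral_const_mul,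
    ← integral_sub ((D.TailDet1_int_gam h b).const_mul c) ((D.TailDet1_int_bet h b).const_mul M)]
  refine integral_mono (((D.TailDet1_int_gam h b).const_mul c).sub
    ((D.TailDet1_int_bet h b).const_mul M)) (D.TailDet1_int_field h b A B) fun y => ?_
  simp only
  rcases le_or_gt ‖y - x‖ r with hy | hy
  · have h1 := Pos.inner_ge (p := D.G b y) D.hK (hpos y hy)
    have h2 : ‖A + B * (y - x)‖ * bad D.K (D.G b y) ≤ M * bad D.K (D.G b y) :=
      mul_le_mul_of_nonneg_right (hM y hy) (bad_nonneg _ _)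
    have h3 : c * D.gam b y - M * D.bet b y ≤ ⟪A + B * (y - x), D.G b y⟫ := by
      unfold gam bet
      linarith
    have h4 := mul_le_mul_of_nonneg_left h3 (h.nonneg y)
    linarith
  · simp [h.supp y hy]

theorem TailDet1_abs {ψ : ℂ → ℝ} {x : ℂ} {r : ℝ} (h : TailDet1_Wt ψ x r) (b : ℕ) {A B : ℂ}
    {M : ℝ} (hM : ∀ y, ‖y - x‖ ≤ r → ‖A + B * (y - x)‖ ≤ M) :
    |∫ y, ψ y * ⟪A + B * (y - x), D.G b y⟫| ≤
      M * ((∫ y, ψ y * D.gam b y) + ∫ y, ψ y * D.bet b y) := by
  rw [← D.TailDet1_norm_eq h b, ← integral_const_mul, ← Real.norm_eq_abs]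
  refine norm_integral_le_of_norm_le ((D.TailDet1_int_norm h b).const_mul M)
    (Eventually.of_forall fun y => ?_)
  rcases le_or_gt ‖y - x‖ r with hy | hy
  · rw [Real.norm_eq_abs, abs_mul, abs_of_nonneg (h.nonneg y), mul_left_comm]
    exact mul_le_mul_of_nonneg_left ((abs_real_inner_le_norm _ _).trans
      (mul_le_mul_of_nonneg_right (hM y hy) (norm_nonneg _))) (h.nonneg y)
  · simp [h.supp y hy]

/-- duality for bounded compactly supported fields, outer integral in the translation -/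
theorem TailDet1_dual₁ {b : ℕ} (hb : b < D.L) {V : ℂ → ℂ} (hV : Measurable V) {C R : ℝ} {x : ℂ}
    (hC : ∀ y, ‖V y‖ ≤ C) (hs : ∀ y, R < ‖y - x‖ → V y = 0) :
    ∫ y, ⟪V y, D.G b y⟫ = ∫ w, (∫ y, ⟪V (y + w), D.G (b + 1) y⟫) ∂(D.τ b) := by
  have := D.hτp b
  have hG := D.hGm (b + 1)
  have h1 : ∀ y, ⟪V y, D.G b y⟫ = ∫ w, ⟪V y, D.G (b + 1) (y - w)⟫ ∂(D.τ b) := fun y => by
    rw [D.hsm b hb y, integral_inner]
    exact Integrable.of_bound (C := D.Mg) (Measurable.aestronglyMeasurable (by fun_prop))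
      (Eventually.of_forall fun w => D.hGb _ _)
  have h2 : Integrable fun y => ‖V y‖ * D.Mg :=
    (integrable_of_bdd_supp (C := C) (R := R) (x := x) hV.norm.aestronglyMeasurable
      (fun y _ => by rw [abs_norm]; exact hC y) fun y hy => by rw [hs y hy, norm_zero]).mul_const _
  have h3 : Integrable (Function.uncurry fun y w => ⟪V y, D.G (b + 1) (y - w)⟫)
      (volume.prod (D.τ b)) := by
    refine (h2.comp_fst (D.τ b)).mono' (Measurable.aestronglyMeasurable ?_)
      (Eventually.of_forall fun p => ?_)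
    · unfold Function.uncurry
      fun_prop
    · exact (abs_real_inner_le_norm _ _).trans
        (mul_le_mul_of_nonneg_left (D.hGb _ _) (norm_nonneg _))
  simp_rw [h1]
  rw [integral_integral_swap h3]
  refine integral_congr_ae (Eventually.of_forall fun w => ?_)
  simp only
  rw [← integral_add_right_eq_self _ w]
  simp only [add_sub_cancel_right]

theorem TailDet1_int_prod (b : ℕ) {V : ℂ → ℂ} (hV : Measurable V) {C R : ℝ} {x : ℂ}
    (hC : ∀ y, ‖V y‖ ≤ C) (hs : ∀ y, R < ‖y - x‖ → V y = 0) :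
    Integrable (Function.uncurry fun y w => ⟪V (y + w), D.G (b + 1) y⟫)
      (volume.prod (D.τ b)) := by
  have := D.hτp b
  have hG := D.hGm (b + 1)
  have hC0 : 0 ≤ C := (norm_nonneg _).trans (hC 0)
  have hM := D.Mg_nonneg
  have h2 : Integrable (indicator (closedBall x (R + Dl b)) fun _ : ℂ => C * D.Mg) :=
    (integrable_indicator_iff measurableSet_closedBall).2
      (integrableOn_const (measure_closedBall_lt_top.ne))
  refine (h2.comp_fst (D.τ b)).mono' (Measurable.aestronglyMeasurable ?_) ?_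
  · unfold Function.uncurry
    fun_prop
  · filter_upwards [Measure.quasiMeasurePreserving_snd.ae (D.hτs b)] with p hp
    by_cases h : p.1 ∈ closedBall x (R + Dl b)
    · rw [indicator_of_mem h]
      exact (abs_real_inner_le_norm _ _).trans
        (mul_le_mul (hC _) (D.hGb _ _) (norm_nonneg _) hC0)
    · rw [indicator_of_notMem h]
      rw [mem_closedBall, dist_eq_norm, not_le] at h
      have h3 : R < ‖p.1 + p.2 - x‖ := by
        have h4 : ‖p.1 - x‖ ≤ ‖p.1 + p.2 - x‖ + ‖p.2‖ := by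
          have := norm_sub_le (p.1 + p.2 - x) p.2
          rwa [show p.1 + p.2 - x - p.2 = p.1 - x by ring] at this
        linarith
      simp [Function.uncurry, hs _ h3]

/-- rotation fields with radial weights integrate all smoothed gradients to zero -/
theorem TailDet1_rot {l : ℕ} (hl : l ≤ D.L) (φ : ℝ → ℝ) (hφm : Measurable φ) {C R : ℝ}
    (hφb : ∀ s, |φ s| ≤ C) (hφs : ∀ s, R < s → φ s = 0) (x : ℂ) :
    ∫ y, φ ‖y - x‖ * ⟪Complex.I * (y - x), D.G l y⟫ = 0 := by
  induction hl using Nat.decreasingInduction generalizing x with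
  | self =>
    rw [D.hGL]
    exact rot_zero D.hf D.hg x φ hφm hφb hφs
  | of_succ b hb ih =>
    have hC0 : 0 ≤ C := (abs_nonneg _).trans (hφb 0)
    have h1 := D.TailDet1_dual₁ hb (V := fun y => φ ‖y - x‖ • (Complex.I * (y - x))) (by fun_prop)
      (C := C * max R 0) (R := R) (x := x) (fun y => by
        rcases le_or_gt ‖y - x‖ R with hy | hy
        · rw [norm_smul, norm_mul, Complex.norm_I, one_mul]
          exact mul_le_mul (hφb _) (hy.trans (le_max_left _ _)) (norm_nonneg _) hC0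
        · rw [hφs _ hy, zero_smul, norm_zero]
          positivity) (fun y hy => by rw [hφs _ hy, zero_smul])
    simp only [real_inner_smul_left] at h1
    rw [h1]
    have h2 : ∀ w : ℂ, ∫ y, φ ‖y + w - x‖ * ⟪Complex.I * (y + w - x), D.G (b + 1) y⟫ = 0 := by
      intro w
      have e : ∀ y : ℂ, y + w - x = y - (x - w) := fun y => by ring
      simp only [e]
      exact ih (x - w)
    simp only [h2, integral_zero]

theorem TailDet1_split {l : ℕ} (hl : l ≤ D.L) {x : ℂ} {r : ℝ} {φ : ℝ → ℝ} (hφm : Measurable φ)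
    (h0 : ∀ s, 0 ≤ φ s) (h1 : ∀ s, φ s ≤ 1) (hs : ∀ s, r < s → φ s = 0) (A B : ℂ) :
    ∫ y, φ ‖y - x‖ * ⟪A + B * (y - x), D.G l y⟫ =
      (∫ y, φ ‖y - x‖ * ⟪A, D.G l y⟫) + B.re * ∫ y, φ ‖y - x‖ * ⟪y - x, D.G l y⟫ := by
  have hW : TailDet1_Wt (fun y => φ ‖y - x‖) x r :=
    ⟨by fun_prop, fun _ => h0 _, fun _ => h1 _, fun y hy => hs _ hy⟩
  have hrot := D.TailDet1_rot hl φ hφm (C := 1) (R := r)
    (fun s => by rw [abs_of_nonneg (h0 s)]; exact h1 s) hs x
  have i1 := D.TailDet1_int_field hW l A 0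
  have i2 := D.TailDet1_int_field hW l 0 1
  have i3 := D.TailDet1_int_field hW l 0 Complex.I
  simp only [zero_mul, add_zero, zero_add, one_mul] at i1 i2 i3
  have e : ∀ y, φ ‖y - x‖ * ⟪A + B * (y - x), D.G l y⟫ =
      (φ ‖y - x‖ * ⟪A, D.G l y⟫ + B.re * (φ ‖y - x‖ * ⟪y - x, D.G l y⟫)) +
        B.im * (φ ‖y - x‖ * ⟪Complex.I * (y - x), D.G l y⟫) := fun y => by
    have e' : B * (y - x) = B.re • (y - x) + B.im • (Complex.I * (y - x)) := by
      simp only [Complex.real_smul]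
      conv_lhs => rw [← Complex.re_add_im B]
      ring
    rw [e', inner_add_left, inner_add_left, real_inner_smul_left, real_inner_smul_left]
    ring
  simp only [e]
  rw [integral_add (i1.fun_add (i2.const_mul _)) (i3.const_mul _), integral_add i1 (i2.const_mul _),
    integral_const_mul, integral_const_mul, hrot, mul_zero, add_zero]

/-- one step of the shell decomposition -/
theorem step {b : ℕ} (hb : b < D.L) (x : ℂ) (r : ℝ) (A B : ℂ) :
    |D.I (b + 1) x r A B - D.I b x r A B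
        - ∫ y, D.kap b x r y * ⟪A + B * (y - x), D.G (b + 1) y⟫|
      ≤ ‖B‖ * (Dl b * D.N (b + 1) x r) := by
  have := D.hτp b
  have hG := D.hGm (b + 1)
  have hW := TailDet1_wt_chi b x r
  have hWm := hW.meas
  have hV : Measurable fun y => chi b x r y • (A + B * (y - x)) := by fun_prop
  have hC : ∀ y, ‖chi b x r y • (A + B * (y - x))‖ ≤ ‖A‖ + ‖B‖ * max r 0 := fun y => by
    rcases le_or_gt ‖y - x‖ r with hy | hy
    · rw [norm_smul, Real.norm_eq_abs, abs_of_nonneg (hW.nonneg y)]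
      refine (mul_le_of_le_one_left (norm_nonneg _) (hW.le_one y)).trans
        ((norm_add_le _ _).trans ?_)
      rw [norm_mul]
      have := hy.trans (le_max_left r 0)
      gcongr
    · rw [hW.supp y hy, zero_smul, norm_zero]
      positivity
  have hs : ∀ y, r < ‖y - x‖ → chi b x r y • (A + B * (y - x)) = 0 := fun y hy => by
    rw [hW.supp y hy, zero_smul]
  have hP := D.TailDet1_int_prod b hV hC hs
  have h1 := D.TailDet1_dual₁ hb hV hC hs
  rw [← integral_integral_swap hP] at h1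
  have hH := hP.integral_prod_left
  simp only [Function.uncurry, real_inner_smul_left] at h1 hH
  have i1 := D.TailDet1_int_field (TailDet1_wt_chi (b + 1) x r) (b + 1) A B
  have i2 := D.TailDet1_int_field (D.TailDet1_wt_kap b x r) (b + 1) A B
  have i3 := D.TailDet1_int_norm (TailDet1_wt_chi (b + 1) x r) (b + 1)
  unfold I N
  rw [h1, ← integral_sub i1 hH, ← integral_sub (i1.sub' hH) i2, ← integral_const_mul,
    ← integral_const_mul, ← Real.norm_eq_abs]
  refine norm_integral_le_of_norm_le ((i3.const_mul _).const_mul _)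
    (Eventually.of_forall fun y => ?_)
  have j1 : Integrable (fun w => chi b x r (y + w)) (D.τ b) :=
    Integrable.of_bound (C := 1) (Measurable.aestronglyMeasurable (by fun_prop))
      (Eventually.of_forall fun w => by
        rw [Real.norm_eq_abs, abs_of_nonneg (hW.nonneg _)]
        exact hW.le_one _)
  have hbd : ∀ᵐ w ∂(D.τ b), ‖chi b x r (y + w) * ⟪B * w, D.G (b + 1) y⟫‖ ≤
      chi b x r (y + w) * (‖B‖ * Dl b * ‖D.G (b + 1) y‖) := by
    filter_upwards [D.hτs b] with w hw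
    rw [Real.norm_eq_abs, abs_mul, abs_of_nonneg (hW.nonneg _)]
    refine mul_le_mul_of_nonneg_left ((abs_real_inner_le_norm _ _).trans ?_) (hW.nonneg _)
    rw [norm_mul]
    gcongr
  have j2 : Integrable (fun w => chi b x r (y + w) * ⟪B * w, D.G (b + 1) y⟫) (D.τ b) :=
    (j1.mul_const _).mono' (Measurable.aestronglyMeasurable (by fun_prop)) hbd
  have e1 : ∫ w, chi b x r (y + w) * ⟪A + B * (y + w - x), D.G (b + 1) y⟫ ∂(D.τ b) =
      D.T b (chi b x r) y * ⟪A + B * (y - x), D.G (b + 1) y⟫ +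
        ∫ w, chi b x r (y + w) * ⟪B * w, D.G (b + 1) y⟫ ∂(D.τ b) := by
    unfold T
    rw [← integral_mul_const, ← integral_add (j1.mul_const _) j2]
    refine integral_congr_ae (Eventually.of_forall fun w => ?_)
    simp only
    rw [show A + B * (y + w - x) = A + B * (y - x) + B * w by ring, inner_add_left (A + B * (y - x)),
      mul_add]
  have e2 := norm_integral_le_of_norm_le (j1.mul_const _) hbd
  rw [integral_mul_const] at e2
  have e3 : ∫ w, chi b x r (y + w) ∂(D.τ b) ≤ chi (b + 1) x r y := by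
    have := D.kap_nonneg b x r y
    unfold kap T at this
    linarith
  have hD := Dl_pos b
  have e4 := e2.trans (mul_le_mul_of_nonneg_right e3 (by positivity))
  rw [e1]
  unfold kap
  have e5 : chi (b + 1) x r y * ⟪A + B * (y - x), D.G (b + 1) y⟫ -
      (D.T b (chi b x r) y * ⟪A + B * (y - x), D.G (b + 1) y⟫ +
        ∫ w, chi b x r (y + w) * ⟪B * w, D.G (b + 1) y⟫ ∂(D.τ b)) -
      (chi (b + 1) x r y - D.T b (chi b x r) y) * ⟪A + B * (y - x), D.G (b + 1) y⟫ =
      -∫ w, chi b x r (y + w) * ⟪B * w, D.G (b + 1) y⟫ ∂(D.τ b) := by ring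
  rw [e5, norm_neg]
  refine e4.trans (le_of_eq ?_)
  ring

/-- telescoped shell decomposition -/
theorem tele {j l : ℕ} (hjl : j ≤ l) (hl : l ≤ D.L) (x : ℂ) (r : ℝ) (A B : ℂ) :
    |D.I l x r A B - D.I j x r A B
        - ∑ b ∈ Finset.Ico j l, ∫ y, D.kap b x r y * ⟪A + B * (y - x), D.G (b + 1) y⟫|
      ≤ ‖B‖ * ∑ b ∈ Finset.Ico j l, Dl b * D.N (b + 1) x r := by
  induction l, hjl using Nat.le_induction with
  | base => simp
  | succ l hjl ih =>
    have h1 := abs_le.1 (ih (by omega))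
    have h2 := abs_le.1 (D.step (b := l) (by omega) x r A B)
    rw [Finset.sum_Ico_succ_top hjl, Finset.sum_Ico_succ_top hjl, mul_add]
    exact abs_le.2 ⟨by linarith, by linarith⟩

theorem TailDet1_N_le {j l : ℕ} (hjl : j ≤ l) (hl : l ≤ D.L) {x : ℂ} {r : ℝ} (h : Adm x r) :
    D.N l x r ≤ 5 / 4 * (D.N j x r + D.Gam j l x r + D.Xi j l x r) + 9 / 4 * (1 / tt l) := by
  have hM : ∀ y, ‖y - x‖ ≤ r → ‖D.e + 0 * (y - x)‖ ≤ 1 := fun y _ => by simp [D.he]
  have h1 := D.TailDet1_pos (TailDet1_wt_chi l x r) l (A := D.e) (B := 0) (c := 4 / 5) (M := 1)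
    (fun y _ => by simpa using pos_self D.he) hM
  have h2 := D.TailDet1_norm_eq (TailDet1_wt_chi l x r) l
  have h3 := D.chi_bet_le hl h
  have h4 := D.tele hjl hl x r D.e 0
  rw [norm_zero, zero_mul] at h4
  have h5 := (abs_le.1 h4).2
  have h6 := (le_abs_self _).trans (D.TailDet1_abs (TailDet1_wt_chi j x r) j hM)
  rw [← D.TailDet1_norm_eq (TailDet1_wt_chi j x r) j] at h6
  have h7 : ∑ b ∈ Finset.Ico j l, ∫ y, D.kap b x r y * ⟪D.e + 0 * (y - x), D.G (b + 1) y⟫ ≤
      D.Gam j l x r + D.Xi j l x r := by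
    unfold Gam Xi
    rw [← Finset.sum_add_distrib]
    refine Finset.sum_le_sum fun b _ => ?_
    have := (le_abs_self _).trans (D.TailDet1_abs (D.TailDet1_wt_kap b x r) (b + 1) hM)
    linarith
  unfold I at h5
  unfold N
  linarith

theorem N_le {j l : ℕ} (hjl : j ≤ l) (hl : l ≤ D.L) {x : ℂ} {r : ℝ} (h : Adm x r) :
    D.N l x r ≤ 5 / 4 * (D.N j x r + D.Gam j l x r) + 5 / tt l := by
  have h1 := D.TailDet1_N_le hjl hl h
  have h2 := D.Xi_le (j := j) hl h
  have h3 : 0 < 1 / tt l := by have := tt_pos l; positivity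
  have e2 : 2 / tt l = 2 * (1 / tt l) := by ring
  have e5 : 5 / tt l = 5 * (1 / tt l) := by ring
  linarith

theorem N_le0 {l : ℕ} (hl : l ≤ D.L) {x : ℂ} {r : ℝ} (h : Adm x r) :
    D.N l x r ≤ 5 / 4 * D.Gam0 l x r + 6 / tt l := by
  have h1 := D.TailDet1_N_le (Nat.zero_le l) hl h
  have h2 := D.Xi0_le hl h
  have h3 := D.TailDet1_norm_eq (TailDet1_wt_chi 0 x r) 0
  have e3 : 3 / tt l = 3 * (1 / tt l) := by ring
  have e6 : 6 / tt l = 6 * (1 / tt l) := by ring
  unfold Xi0 at h2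
  unfold Gam0
  unfold N at h1 ⊢
  linarith

theorem TailDet1_comm {j l : ℕ} {x : ℂ} {r a c : ℝ} (ha : 0 ≤ a) (hc : 0 ≤ c)
    (h : ∀ b ∈ Finset.Ico j l, D.N (b + 1) x r ≤ a + c / tt (b + 1)) :
    ∑ b ∈ Finset.Ico j l, Dl b * D.N (b + 1) x r ≤ 2 * Dl j * a + 2 * c * tt j ^ 196 := by
  have h1 : ∑ b ∈ Finset.Ico j l, Dl b * D.N (b + 1) x r ≤
      ∑ b ∈ Finset.Ico j l, (a * tt b ^ 200 + c * tt b ^ 196) := by
    refine Finset.sum_le_sum fun b hb => ?_
    refine (mul_le_mul_of_nonneg_left (h b hb) (Dl_pos b).le).trans (le_of_eq ?_)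
    have := (tt_pos b).ne'
    rw [tt_succ, Dl]
    field_simp
  rw [Finset.sum_add_distrib, ← Finset.mul_sum, ← Finset.mul_sum] at h1
  have h2 := mul_le_mul_of_nonneg_left (sum_tt_pow_le j l 200 (by norm_num)) ha
  have h3 := mul_le_mul_of_nonneg_left (sum_tt_pow_le j l 196 (by norm_num)) hc
  have e : 2 * Dl j * a = a * (2 * tt j ^ 200) := by rw [Dl]; ring
  linarith

theorem comm_le {j l : ℕ} (hjl : j ≤ l) (hl : l ≤ D.L) {x : ℂ} {r : ℝ} (h : Adm x r) :
    ∑ b ∈ Finset.Ico j l, Dl b * D.N (b + 1) x r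
      ≤ 5 / 2 * Dl j * (D.N j x r + D.Gam j l x r) + 10 * tt j ^ 196 := by
  have h0 := D.N_nonneg j x r
  have h1 := D.Gam_nonneg j l x r
  have := D.TailDet1_comm (j := j) (l := l) (x := x) (r := r)
    (a := 5 / 4 * (D.N j x r + D.Gam j l x r)) (c := 5) (by positivity) (by norm_num)
    (fun b hb => by
      rw [Finset.mem_Ico] at hb
      have h2 := D.N_le (j := j) (l := b + 1) (by omega) (by omega) h
      have h3 : D.Gam j (b + 1) x r ≤ D.Gam j l x r :=
        Finset.sum_le_sum_of_subset_of_nonneg (Finset.Ico_subset_Ico le_rfl (by omega))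
          fun i _ _ => integral_nonneg fun y =>
            mul_nonneg (D.kap_nonneg _ _ _ _) (D.gam_nonneg _ _)
      linarith)
  linarith

theorem comm_le0 {j l : ℕ} (hl : l ≤ D.L) {x : ℂ} {r : ℝ} (h : Adm x r) :
    ∑ b ∈ Finset.Ico j l, Dl b * D.N (b + 1) x r
      ≤ 5 / 2 * Dl j * D.Gam0 l x r + 12 * tt j ^ 196 := by
  have h1 := D.Gam0_nonneg l x r
  have := D.TailDet1_comm (j := j) (l := l) (x := x) (r := r)
    (a := 5 / 4 * D.Gam0 l x r) (c := 6) (by positivity) (by norm_num)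
    (fun b hb => by
      rw [Finset.mem_Ico] at hb
      have h2 := D.N_le0 (l := b + 1) (by omega) h
      have h3 := D.Gam0_mono (l := b + 1) (l' := l) (by omega) x r
      linarith)
  linarith

theorem TailDet1_err {l : ℕ} (hl : l ≤ D.L) {x : ℂ} {r : ℝ} (h : Adm x r) (A : ℂ) {B : ℂ}
    (hB : ‖B‖ ≤ 8) :
    |D.I l x r A B - D.I 0 x r A B
        - ∑ b ∈ Finset.Ico 0 l, ∫ y, D.kap b x r y * ⟪A + B * (y - x), D.G (b + 1) y⟫|
      ≤ 1 / 40 * D.Gam0 l x r + 1 := by
  have h1 := D.tele (Nat.zero_le l) hl x r A B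
  have h2 := D.comm_le0 (j := 0) hl h
  have h3 := D.Gam0_nonneg l x r
  have h4 := Dl_le 0
  have h5 := tt_pow_le 0 (m := 0) (n := 196) (by norm_num)
  have h6 : 0 ≤ ∑ b ∈ Finset.Ico 0 l, Dl b * D.N (b + 1) x r :=
    Finset.sum_nonneg fun b _ => mul_nonneg (Dl_pos b).le (D.N_nonneg _ _ _)
  have h7 := mul_le_mul_of_nonneg_right hB h6
  have h8 := mul_le_mul_of_nonneg_right h4 h3
  rw [pow_zero] at h5
  linarith

/-- positivity lemma -/
theorem pos_le {l : ℕ} (hl : l ≤ D.L) {x : ℂ} {r : ℝ} (h : Adm x r) {A B : ℂ} {c M : ℝ}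
    (hc : 1 / 20 ≤ c) (hB : ‖B‖ ≤ 8)
    (hpos : ∀ y, ‖y - x‖ ≤ r → Pos D.e c (A + B * (y - x)))
    (hM : ∀ y, ‖y - x‖ ≤ r → ‖A + B * (y - x)‖ ≤ M) :
    c / 2 * D.Gam0 l x r - M * D.Xi0 l x r - 1 ≤ D.I l x r A B := by
  have h1 := (abs_le.1 (D.TailDet1_err hl h A hB)).1
  have h2 := D.TailDet1_pos (TailDet1_wt_chi 0 x r) 0 hpos hM
  have h3 : c * D.Gam 0 l x r - M * D.Xi 0 l x r ≤
      ∑ b ∈ Finset.Ico 0 l, ∫ y, D.kap b x r y * ⟪A + B * (y - x), D.G (b + 1) y⟫ := by
    unfold Gam Xi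
    rw [Finset.mul_sum, Finset.mul_sum, ← Finset.sum_sub_distrib]
    exact Finset.sum_le_sum fun b _ => D.TailDet1_pos (D.TailDet1_wt_kap b x r) (b + 1) hpos hM
  have h4 := mul_le_mul_of_nonneg_right hc (D.Gam0_nonneg l x r)
  have e1 : c * D.Gam0 l x r = c * (∫ y, chi 0 x r y * D.gam 0 y) + c * D.Gam 0 l x r := by
    rw [Gam0, mul_add]
  have e2 : M * D.Xi0 l x r = M * (∫ y, chi 0 x r y * D.bet 0 y) + M * D.Xi 0 l x r := by
    rw [Xi0, mul_add]
  have e3 : D.I 0 x r A B = ∫ y, chi 0 x r y * ⟪A + B * (y - x), D.G 0 y⟫ := rfl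
  linarith

/-- absolute bound -/
theorem abs_le {l : ℕ} (hl : l ≤ D.L) {x : ℂ} {r : ℝ} (h : Adm x r) {A B : ℂ} {M : ℝ}
    (hB : ‖B‖ ≤ 8) (hM : ∀ y, ‖y - x‖ ≤ r → ‖A + B * (y - x)‖ ≤ M) :
    |D.I l x r A B| ≤ (M + 1) * D.Gam0 l x r + M * D.Xi0 l x r + 1 := by
  have h1 := _root_.abs_le.1 (D.TailDet1_err hl h A hB)
  have h2 := _root_.abs_le.1 (D.TailDet1_abs (TailDet1_wt_chi 0 x r) 0 hM)
  have h3 : |∑ b ∈ Finset.Ico 0 l, ∫ y, D.kap b x r y * ⟪A + B * (y - x), D.G (b + 1) y⟫| ≤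
      M * (D.Gam 0 l x r + D.Xi 0 l x r) := by
    unfold Gam Xi
    rw [← Finset.sum_add_distrib, Finset.mul_sum]
    exact (Finset.abs_sum_le_sum_abs _ _).trans
      (Finset.sum_le_sum fun b _ => D.TailDet1_abs (D.TailDet1_wt_kap b x r) (b + 1) hM)
  have h4 := _root_.abs_le.1 h3
  have h5 := D.Gam0_nonneg l x r
  have e1 : M * D.Gam0 l x r = M * (∫ y, chi 0 x r y * D.gam 0 y) + M * D.Gam 0 l x r := by
    rw [Gam0, mul_add]
  have e2 : M * D.Xi0 l x r = M * (∫ y, chi 0 x r y * D.bet 0 y) + M * D.Xi 0 l x r := by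
    rw [Xi0, mul_add]
  have e3 : D.I 0 x r A B = ∫ y, chi 0 x r y * ⟪A + B * (y - x), D.G 0 y⟫ := rfl
  exact _root_.abs_le.2 ⟨by linarith, by linarith⟩

/-- the rotation part of the field does not contribute -/
theorem I_split {l : ℕ} (hl : l ≤ D.L) (x : ℂ) (r : ℝ) (A B : ℂ) :
    D.I l x r A B = D.I l x r A 0 + B.re * D.I l x r 0 1 := by
  have hD := Dl_pos l
  have := D.TailDet1_split hl (x := x) (r := r) (φ := fun s => ramp ((r - s) / Dl l))
    (continuous_ramp.measurable.comp (by fun_prop)) (fun _ => ramp_nonneg _)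
    (fun _ => ramp_le_one _) (fun s hs => ramp_of_le (by
      have : (r - s) / Dl l ≤ 0 := div_nonpos_of_nonpos_of_nonneg (by linarith) hD.le
      linarith)) A B
  simpa only [I, chi, zero_mul, add_zero, zero_add, one_mul] using this

theorem ball_split (x : ℂ) (r : ℝ) (A B : ℂ) :
    ∫ y in ball x r, ⟪A + B * (y - x), D.g y⟫
      = (∫ y in ball x r, ⟪A, D.g y⟫) + B.re * ∫ y in ball x r, ⟪y - x, D.g y⟫ := by
  have := D.TailDet1_split le_rfl (x := x) (r := r) (φ := indicator (Iio r) fun _ => (1 : ℝ))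
    (measurable_const.indicator measurableSet_Iio)
    (fun s => indicator_nonneg (fun _ _ => zero_le_one) s)
    (fun s => indicator_le_self' (fun _ _ => zero_le_one) s)
    (fun s hs => indicator_of_notMem (by simpa using hs.le) _) A B
  have e : ∀ y : ℂ, indicator (ball x r) (fun _ => (1 : ℝ)) y =
      indicator (Iio r) (fun _ => (1 : ℝ)) ‖y - x‖ := fun y => by
    simp only [indicator, mem_ball, dist_eq_norm, mem_Iio]
  simp only [TailDet1_ball_eq, e]
  rwa [D.hGL] at this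

/-- the last shell is negligible -/
theorem end_le {x : ℂ} {r : ℝ} (h : Adm x r) {A B : ℂ} {M : ℝ}
    (hM : ∀ y, ‖y - x‖ ≤ r → ‖A + B * (y - x)‖ ≤ M) :
    |(∫ y in ball x r, ⟪A + B * (y - x), D.g y⟫) - D.I D.L x r A B| ≤ M * tt D.L := by
  obtain ⟨hr1, hr2, -⟩ := h
  have hM0 : 0 ≤ M := (norm_nonneg _).trans (hM x (by rw [sub_self, norm_zero]; linarith))
  have hD := Dl_pos D.L
  have hD' := Dl_le D.L
  have hMg := D.Mg_nonneg
  have i1 := D.TailDet1_int_field (TailDet1_wt_ball x (le_refl r)) D.L A B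
  have i2 := D.TailDet1_int_field (TailDet1_wt_chi D.L x r) D.L A B
  have hS : MeasurableSet (ball x r \ ball x (r - 3 * Dl D.L)) :=
    measurableSet_ball.diff measurableSet_ball
  have hvol : ∀ s : ℝ, 0 ≤ s → volume.real (ball x s) = s ^ 2 * Real.pi := fun s hs => by
    rw [measureReal_def, Complex.volume_ball, ENNReal.toReal_mul, ENNReal.toReal_pow,
      ENNReal.toReal_ofReal hs]
    rfl
  have hv : volume.real (ball x r \ ball x (r - 3 * Dl D.L)) ≤ 200 * Dl D.L := by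
    rw [measureReal_sdiff (ball_subset_ball (by linarith)) measurableSet_ball
      measure_ball_lt_top.ne, hvol r (by linarith), hvol _ (by linarith)]
    have h1 : r ^ 2 - (r - 3 * Dl D.L) ^ 2 ≤ 48 * Dl D.L := by nlinarith
    have h2 := Real.pi_le_four
    have h3 := Real.pi_pos
    nlinarith
  have i3 : Integrable (indicator (ball x r \ ball x (r - 3 * Dl D.L)) fun _ : ℂ => M * D.Mg) :=
    (integrable_indicator_iff hS).2 (integrableOn_const
      ((measure_mono sdiff_subset).trans_lt measure_ball_lt_top).ne)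
  rw [TailDet1_ball_eq, ← D.hGL]
  unfold I
  rw [← integral_sub i1 i2, ← Real.norm_eq_abs]
  refine (norm_integral_le_of_norm_le i3 (Eventually.of_forall fun y => ?_)).trans ?_
  · rw [← sub_mul]
    by_cases h1 : y ∈ ball x r
    · by_cases h2 : y ∈ ball x (r - 3 * Dl D.L)
      · rw [indicator_of_mem h1, indicator_of_notMem fun h => h.2 h2]
        rw [mem_ball, dist_eq_norm] at h2
        rw [chi_eq_one (by linarith)]
        simp
      · rw [indicator_of_mem h1, indicator_of_mem (show y ∈ _ \ _ from ⟨h1, h2⟩)]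
        rw [mem_ball, dist_eq_norm] at h1
        have h3 := (TailDet1_wt_chi D.L x r).nonneg y
        have h4 := (TailDet1_wt_chi D.L x r).le_one y
        rw [Real.norm_eq_abs, abs_mul, abs_of_nonneg (by linarith)]
        refine (mul_le_of_le_one_left (abs_nonneg _) (by linarith)).trans
          ((abs_real_inner_le_norm _ _).trans ?_)
        exact mul_le_mul (hM y h1.le) (D.hGb _ _) (norm_nonneg _) hM0
    · rw [indicator_of_notMem h1, indicator_of_notMem fun h => h1 h.1]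
      rw [mem_ball, dist_eq_norm, not_lt] at h1
      rw [chi_eq_zero (by linarith)]
      simp
  · rw [integral_indicator_const _ hS, smul_eq_mul]
    have h1 := mul_le_mul_of_nonneg_right hv (mul_nonneg hM0 hMg)
    have h2 := mul_le_mul_of_nonneg_left D.hL hM0
    linarith

theorem inner_le_succ {l : ℕ} (hl : l < D.L) (x : ℂ) (r : ℝ) :
    ∫ y in ball x (r - 3 / 2 * Dl l), ‖D.G l y‖ ≤ D.N (l + 1) x r := by
  have hD := Dl_pos l
  have hD' := Dl_succ_le l
  have hW := TailDet1_wt_ball x (le_refl (r - 3 / 2 * Dl l))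
  have habs : ∀ y, |indicator (ball x (r - 3 / 2 * Dl l)) (fun _ => (1 : ℝ)) y| ≤ 1 := fun y => by
    rw [abs_of_nonneg (hW.nonneg y)]
    exact hW.le_one y
  rw [TailDet1_ball_eq]
  refine (D.dual_norm hl hW.meas hW.nonneg hW.le_one hW.supp).trans ?_
  refine integral_mono_of_nonneg (Eventually.of_forall fun y => mul_nonneg ?_ (norm_nonneg _))
    (D.TailDet1_int_norm (TailDet1_wt_chi (l + 1) x r) (l + 1))
    (Eventually.of_forall fun y => mul_le_mul_of_nonneg_right ?_ (norm_nonneg _))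
  · exact D.le_T l hW.meas habs fun w _ => hW.nonneg _
  · rcases le_or_gt (r - 1 / 2 * Dl l) ‖y - x‖ with hy | hy
    · refine (D.T_le l hW.meas habs (c := 0) fun w hw => le_of_eq ?_).trans (ramp_nonneg _)
      refine indicator_of_notMem ?_ _
      rw [mem_ball, dist_eq_norm, not_lt]
      have h4 : ‖y - x‖ ≤ ‖y + w - x‖ + ‖w‖ := by
        have := norm_sub_le (y + w - x) w
        rwa [show y + w - x - w = y - x by ring] at this
      linarith
    · rw [chi_eq_one (by linarith)]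
      exact D.T_le l hW.meas habs fun w _ => hW.le_one _

theorem inner_le (l : ℕ) (x : ℂ) (r : ℝ) :
    ∫ y in ball x (r - 5 * Dl l), ‖D.G l y‖ ≤ D.N l x r := by
  have hD := Dl_pos l
  have hW := TailDet1_wt_ball x (le_refl (r - 5 * Dl l))
  rw [TailDet1_ball_eq]
  refine integral_mono (D.TailDet1_int_norm hW l) (D.TailDet1_int_norm (TailDet1_wt_chi l x r) l)
    fun y => mul_le_mul_of_nonneg_right ?_ (norm_nonneg _)
  by_cases h : y ∈ ball x (r - 5 * Dl l)
  · rw [indicator_of_mem h]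
    rw [mem_ball, dist_eq_norm] at h
    rw [chi_eq_one (by linarith)]
  · rw [indicator_of_notMem h]
    exact ramp_nonneg _

end TData

end Crest.Agent.R112
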