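import Crest.Agent.R112.TailDefs
import Crest.Agent.R112.Avg

/-! # Row 112: elementary properties of the shell decomposition (task T1a) -/

open MeasureTheory Set Filter Topology Metric
open scoped ENNReal NNReal RealInnerProductSpace

namespace Crest.Agent.R112

/-- bounded measurable functions vanishing outside a ball are integrable -/
theorem integrable_of_bdd_supp {F : ℂ → ℝ} (hm : AEStronglyMeasurable F volume) {C R : ℝ} {x : ℂ}
    (hb : ∀ y, ‖y - x‖ ≤ R → |F y| ≤ C) (hs : ∀ y, R < ‖y - x‖ → F y = 0) : Integrable F := by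
  have h1 : IntegrableOn F (closedBall x R) := by
    refine Measure.integrableOn_of_bounded measure_closedBall_lt_top.ne hm (M := C) ?_
    refine (ae_restrict_mem measurableSet_closedBall).mono fun y hy => hb y ?_
    rwa [mem_closedBall, dist_eq_norm] at hy
  refine (integrableOn_iff_integrable_of_support_subset fun y hy => ?_).mp h1
  rw [mem_closedBall, dist_eq_norm]
  by_contra h
  exact hy (hs y (not_le.mp h))

theorem measurableSet_shell (x : ℂ) (r δ : ℝ) : MeasurableSet (shell x r δ) := by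
  exact (isClosed_le (by fun_prop) continuous_const).measurableSet

theorem shell_subset_ball {x : ℂ} {r δ : ℝ} (h : Adm x r) (hδ : δ ≤ 1 / 4) :
    shell x r δ ⊆ ball (0 : ℂ) 15 := by
  intro y hy
  have h1 : |‖y - x‖ - r| ≤ δ := hy
  have h2 := norm_add_le (y - x) x
  rw [sub_add_cancel] at h2
  rw [mem_ball_zero_iff]
  linarith [(abs_le.mp h1).2, h.2.2]

theorem good_nonneg (K : Set ℂ) (p : ℂ) : 0 ≤ good K p := by
  unfold good; split_ifs <;> simp
theorem bad_nonneg (K : Set ℂ) (p : ℂ) : 0 ≤ bad K p := by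
  unfold bad; split_ifs <;> simp
theorem good_add_bad (K : Set ℂ) (p : ℂ) : good K p + bad K p = ‖p‖ := by
  unfold good bad; split_ifs <;> simp
theorem measurable_good {K : Set ℂ} (hK : MeasurableSet K) : Measurable (good K) := by
  unfold good
  exact Measurable.ite hK measurable_norm measurable_const
theorem measurable_bad {K : Set ℂ} (hK : MeasurableSet K) : Measurable (bad K) := by
  unfold bad
  exact Measurable.ite hK measurable_const measurable_norm

/-- basic pointwise lower bound -/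
theorem Pos.inner_ge {e X p : ℂ} {c : ℝ} {K : Set ℂ} (hK : K ⊆ cone e) (h : Pos e c X) :
    c * good K p - ‖X‖ * bad K p ≤ ⟪X, p⟫ := by
  unfold good bad
  split_ifs with hp
  · rcases eq_or_ne p 0 with rfl | h0
    · simp
    have hn : 0 < ‖p‖ := norm_pos_iff.mpr h0
    have h1 : ‖p - ‖p‖ • e‖ ≤ ‖p‖ / 5 := hK hp
    have h2 : ‖‖p‖⁻¹ • p‖ = 1 := by
      rw [norm_smul, norm_inv, norm_norm, inv_mul_cancel₀ hn.ne']
    have h3 : ‖‖p‖⁻¹ • p - e‖ ≤ 1 / 5 := by
      have : ‖p‖⁻¹ • p - e = ‖p‖⁻¹ • (p - ‖p‖ • e) := by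
        rw [smul_sub, smul_smul, inv_mul_cancel₀ hn.ne', one_smul]
      rw [this, norm_smul, norm_inv, norm_norm, inv_mul_le_iff₀ hn]
      linarith
    have h4 := h _ h2 h3
    rw [inner_smul_right, le_inv_mul_iff₀ hn] at h4
    linarith
  · have := abs_real_inner_le_norm X p
    linarith [(abs_le.mp this).1]

theorem pos_self {e : ℂ} (he : ‖e‖ = 1) : Pos e (4 / 5) e := by
  intro n _ hn
  have h1 : ⟪e, n⟫ = ⟪e, e⟫ + ⟪e, n - e⟫ := by rw [← inner_add_right]; simp
  have h2 := abs_real_inner_le_norm e (n - e)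
  rw [h1, real_inner_self_eq_norm_sq, he]
  rw [he] at h2
  linarith [(abs_le.mp h2).1]

theorem ramp_nonneg (s : ℝ) : 0 ≤ ramp s := by
  exact le_max_left _ _
theorem ramp_le_one (s : ℝ) : ramp s ≤ 1 := by
  exact max_le zero_le_one (min_le_left _ _)
theorem ramp_of_le {s : ℝ} (h : s ≤ 2) : ramp s = 0 := by
  exact max_eq_left ((min_le_right _ _).trans (by linarith))
theorem ramp_of_ge {s : ℝ} (h : 3 ≤ s) : ramp s = 1 := by
  unfold ramp
  rw [min_eq_left (by linarith), max_eq_right zero_le_one]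
theorem ramp_lip (s s' : ℝ) : |ramp s - ramp s'| ≤ |s - s'| := by
  unfold ramp
  refine (abs_max_sub_max_le_max _ _ _ _).trans (max_le (by simp) ?_)
  refine (abs_min_sub_min_le_max _ _ _ _).trans (max_le (by simp) (le_of_eq ?_))
  congr 1; ring
theorem continuous_ramp : Continuous ramp := by
  unfold ramp; fun_prop
theorem continuous_chi (b : ℕ) (x : ℂ) (r : ℝ) : Continuous (chi b x r) := by
  exact continuous_ramp.comp (by fun_prop)
theorem continuous_chio (b : ℕ) (x : ℂ) (r : ℝ) : Continuous (chio b x r) := by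
  exact continuous_ramp.comp (by fun_prop)
theorem chi_eq_zero {b : ℕ} {x y : ℂ} {r : ℝ} (h : r - ‖y - x‖ ≤ 2 * Dl b) : chi b x r y = 0 := by
  exact ramp_of_le ((div_le_iff₀ (Dl_pos b)).mpr h)
theorem chi_eq_one {b : ℕ} {x y : ℂ} {r : ℝ} (h : 3 * Dl b ≤ r - ‖y - x‖) : chi b x r y = 1 := by
  exact ramp_of_ge ((le_div_iff₀ (Dl_pos b)).mpr h)
theorem chio_eq_zero {b : ℕ} {x y : ℂ} {r : ℝ} (h : ‖y - x‖ - r ≤ 2 * Dl b) :
    chio b x r y = 0 := by
  exact ramp_of_le ((div_le_iff₀ (Dl_pos b)).mpr h)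
theorem chio_eq_one {b : ℕ} {x y : ℂ} {r : ℝ} (h : 3 * Dl b ≤ ‖y - x‖ - r) :
    chio b x r y = 1 := by
  exact ramp_of_ge ((le_div_iff₀ (Dl_pos b)).mpr h)

theorem t1a_chi_abs (b : ℕ) (x : ℂ) (r : ℝ) (y : ℂ) : |chi b x r y| ≤ 1 := by
  unfold chi
  rw [abs_of_nonneg (ramp_nonneg _)]
  exact ramp_le_one _

theorem t1a_norm_add_ge (y w x : ℂ) : ‖y - x‖ - ‖w‖ ≤ ‖y + w - x‖ := by
  have h := norm_sub_le (y + w - x) w
  have h2 : y + w - x - w = y - x := by ring
  rw [h2] at h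
  linarith

theorem t1a_norm_add_le (y w x : ℂ) : ‖y + w - x‖ ≤ ‖y - x‖ + ‖w‖ := by
  have h := norm_add_le (y - x) w
  have h2 : y - x + w = y + w - x := by ring
  rwa [h2] at h

/-- moving a convolution to the other factor -/
theorem t1a_conv (τ : Measure ℂ) [IsProbabilityMeasure τ] {φ ψ : ℂ → ℝ} (hφ : Measurable φ)
    (hφi : Integrable φ) (hψ : Measurable ψ) {M : ℝ} (hM : ∀ y, |ψ y| ≤ M) :
    Integrable (fun y => φ y * ∫ w, ψ (y - w) ∂τ) ∧
      ∫ y, φ y * ∫ w, ψ (y - w) ∂τ = ∫ y, (∫ w, φ (y + w) ∂τ) * ψ y := by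
  have h1 : Integrable (fun z : ℂ × ℂ => φ z.1 * ψ (z.1 - z.2)) (volume.prod τ) := by
    refine Integrable.mono' ((hφi.norm.mul_const M).comp_fst τ)
      (Measurable.aestronglyMeasurable (by fun_prop)) (ae_of_all _ fun z => ?_)
    rw [norm_mul]
    exact mul_le_mul_of_nonneg_left (hM _) (norm_nonneg _)
  have h2 : Integrable (fun z : ℂ × ℂ => φ (z.1 + z.2) * ψ z.1) (volume.prod τ) := by
    have := (measurePreserving_add_prod volume τ).integrable_comp_of_integrable h1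
    simpa [Function.comp_def] using this
  refine ⟨by simpa only [integral_const_mul] using h1.integral_prod_left, ?_⟩
  calc ∫ y, φ y * ∫ w, ψ (y - w) ∂τ = ∫ y, ∫ w, φ y * ψ (y - w) ∂τ := by
        simp only [integral_const_mul]
    _ = ∫ w, (∫ y, φ y * ψ (y - w)) ∂τ := integral_integral_swap h1
    _ = ∫ w, (∫ y, φ (y + w) * ψ y) ∂τ := by
        refine integral_congr_ae (ae_of_all _ fun w => ?_)
        have := integral_add_right_eq_self (μ := volume) (fun y => φ y * ψ (y - w)) w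
        simpa using this.symm
    _ = ∫ y, ∫ w, φ (y + w) * ψ y ∂τ := (integral_integral_swap h2).symm
    _ = _ := by simp only [integral_mul_const]

namespace TData

variable (D : TData)

theorem Mg_nonneg : 0 ≤ D.Mg := by
  exact (norm_nonneg _).trans (D.hGb 0 0)
theorem gam_nonneg (b : ℕ) (y : ℂ) : 0 ≤ D.gam b y := by
  exact good_nonneg _ _
theorem bet_nonneg (b : ℕ) (y : ℂ) : 0 ≤ D.bet b y := by
  exact bad_nonneg _ _
theorem gam_add_bet (b : ℕ) (y : ℂ) : D.gam b y + D.bet b y = ‖D.G b y‖ := by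
  exact good_add_bad _ _
theorem gam_le (b : ℕ) (y : ℂ) : D.gam b y ≤ D.Mg := by
  linarith [D.gam_add_bet b y, D.bet_nonneg b y, D.hGb b y]
theorem bet_le (b : ℕ) (y : ℂ) : D.bet b y ≤ D.Mg := by
  linarith [D.gam_add_bet b y, D.gam_nonneg b y, D.hGb b y]
theorem measurable_gam (b : ℕ) : Measurable (D.gam b) := by
  exact (measurable_good D.hKm).comp (D.hGm b)
theorem measurable_bet (b : ℕ) : Measurable (D.bet b) := by
  exact (measurable_bad D.hKm).comp (D.hGm b)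

theorem measurable_T (b : ℕ) {φ : ℂ → ℝ} (hφ : Measurable φ) : Measurable (D.T b φ) := by
  have := D.hτp b
  have h : StronglyMeasurable (Function.uncurry fun y w : ℂ => φ (y + w)) :=
    Measurable.stronglyMeasurable (hφ.comp (measurable_fst.add measurable_snd))
  exact (h.integral_prod_right (ν := D.τ b)).measurable

theorem t1a_int (b : ℕ) {φ : ℂ → ℝ} (hφ : Measurable φ) {C : ℝ} (hC : ∀ y, |φ y| ≤ C) (y : ℂ) :
    Integrable (fun w => φ (y + w)) (D.τ b) := by
  have := D.hτp b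
  exact Integrable.of_bound (Measurable.aestronglyMeasurable (by fun_prop)) C
    (ae_of_all _ fun w => hC _)

/-- upper bound for `T` from a local upper bound -/
theorem T_le (b : ℕ) {φ : ℂ → ℝ} (hφ : Measurable φ) {C : ℝ} (hC : ∀ y, |φ y| ≤ C) {y : ℂ} {c : ℝ}
    (h : ∀ w, ‖w‖ ≤ Dl b → φ (y + w) ≤ c) : D.T b φ y ≤ c := by
  have := D.hτp b
  have h1 := integral_mono_ae (D.t1a_int b hφ hC y) (integrable_const c) ((D.hτs b).mono h)
  simpa [T] using h1

theorem le_T (b : ℕ) {φ : ℂ → ℝ} (hφ : Measurable φ) {C : ℝ} (hC : ∀ y, |φ y| ≤ C) {y : ℂ} {c : ℝ}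
    (h : ∀ w, ‖w‖ ≤ Dl b → c ≤ φ (y + w)) : c ≤ D.T b φ y := by
  have := D.hτp b
  have h1 := integral_mono_ae (integrable_const c) (D.t1a_int b hφ hC y) ((D.hτs b).mono h)
  simpa [T] using h1

/-- `T` is monotone with respect to local comparison -/
theorem T_mono (b : ℕ) {φ ψ : ℂ → ℝ} (hφ : Measurable φ) (hψ : Measurable ψ) {C : ℝ}
    (hC : ∀ y, |φ y| ≤ C) (hC' : ∀ y, |ψ y| ≤ C) {y : ℂ}
    (h : ∀ w, ‖w‖ ≤ Dl b → φ (y + w) ≤ ψ (y + w)) : D.T b φ y ≤ D.T b ψ y := by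
  exact integral_mono_ae (D.t1a_int b hφ hC y) (D.t1a_int b hψ hC' y) ((D.hτs b).mono h)

theorem T_add (b : ℕ) {φ ψ : ℂ → ℝ} (hφ : Measurable φ) (hψ : Measurable ψ) {C : ℝ}
    (hC : ∀ y, |φ y| ≤ C) (hC' : ∀ y, |ψ y| ≤ C) (y : ℂ) :
    D.T b (fun y => φ y + ψ y) y = D.T b φ y + D.T b ψ y := by
  exact integral_add (D.t1a_int b hφ hC y) (D.t1a_int b hψ hC' y)

theorem T_const_mul (b : ℕ) (φ : ℂ → ℝ) (c : ℝ) (y : ℂ) :
    D.T b (fun y => c * φ y) y = c * D.T b φ y := by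
  exact integral_const_mul _ _

theorem T_const (b : ℕ) (c : ℝ) (y : ℂ) : D.T b (fun _ => c) y = c := by
  have := D.hτp b
  simp [T]

theorem t1a_intG (b b' : ℕ) (y : ℂ) : Integrable (fun w => D.G b' (y - w)) (D.τ b) := by
  have := D.hτp b
  exact Integrable.of_bound
    (((D.hGm b').comp (measurable_const.sub measurable_id)).aestronglyMeasurable) D.Mg
    (ae_of_all _ fun w => D.hGb _ _)

/-- duality for constant fields -/
theorem dual {b : ℕ} (hb : b < D.L) {φ : ℂ → ℝ} (hφ : Measurable φ) {C R : ℝ} {x : ℂ}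
    (hC : ∀ y, |φ y| ≤ C) (hs : ∀ y, R < ‖y - x‖ → φ y = 0) (c : ℂ) :
    ∫ y, φ y * ⟪c, D.G b y⟫ = ∫ y, D.T b φ y * ⟪c, D.G (b + 1) y⟫ := by
  have := D.hτp b
  have hφi := integrable_of_bdd_supp hφ.aestronglyMeasurable (fun y _ => hC y) hs
  have hψ : Measurable fun y => ⟪c, D.G (b + 1) y⟫ :=
    (continuous_const.inner continuous_id).measurable.comp (D.hGm (b + 1))
  have h1 := (t1a_conv (D.τ b) hφ hφi hψ (M := ‖c‖ * D.Mg) fun y =>
    (abs_real_inner_le_norm _ _).trans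
      (mul_le_mul_of_nonneg_left (D.hGb _ _) (norm_nonneg _))).2
  refine Eq.trans (integral_congr_ae (ae_of_all _ fun y => ?_)) h1
  simp only
  rw [D.hsm b hb y, integral_inner (D.t1a_intG b (b + 1) y)]

/-- duality inequality for norms -/
theorem dual_norm {b : ℕ} (hb : b < D.L) {φ : ℂ → ℝ} (hφ : Measurable φ) {C R : ℝ} {x : ℂ}
    (h0 : ∀ y, 0 ≤ φ y) (hC : ∀ y, φ y ≤ C) (hs : ∀ y, R < ‖y - x‖ → φ y = 0) :
    ∫ y, φ y * ‖D.G b y‖ ≤ ∫ y, D.T b φ y * ‖D.G (b + 1) y‖ := by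
  have := D.hτp b
  have hφi := integrable_of_bdd_supp (C := C) hφ.aestronglyMeasurable
    (fun y _ => by rw [abs_of_nonneg (h0 y)]; exact hC y) hs
  have h1 := t1a_conv (D.τ b) hφ hφi (D.hGm (b + 1)).norm (M := D.Mg) fun y => by
    rw [abs_norm]; exact D.hGb _ _
  refine le_of_le_of_eq ?_ h1.2
  refine integral_mono_of_nonneg (ae_of_all _ fun y => mul_nonneg (h0 y) (norm_nonneg _)) h1.1
    (ae_of_all _ fun y => mul_le_mul_of_nonneg_left ?_ (h0 y))
  rw [D.hsm b hb y]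
  exact norm_integral_le_integral_norm _

theorem measurable_kap (b : ℕ) (x : ℂ) (r : ℝ) : Measurable (D.kap b x r) := by
  exact (continuous_chi _ _ _).measurable.sub (D.measurable_T b (continuous_chi _ _ _).measurable)
theorem kap_nonneg (b : ℕ) (x : ℂ) (r : ℝ) (y : ℂ) : 0 ≤ D.kap b x r y := by
  unfold kap
  rw [sub_nonneg]
  by_cases h : 3 * Dl (b + 1) ≤ r - ‖y - x‖
  · rw [chi_eq_one h]
    exact D.T_le b (continuous_chi _ _ _).measurable (t1a_chi_abs b x r) fun w _ => ramp_le_one _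
  · refine le_trans ?_ (ramp_nonneg _)
    refine D.T_le b (continuous_chi _ _ _).measurable (t1a_chi_abs b x r) fun w hw =>
      (chi_eq_zero ?_).le
    have h1 := t1a_norm_add_ge y w x
    have h2 := Dl_succ_le b
    have h3 := Dl_pos b
    linarith
theorem kap_le_chi (b : ℕ) (x : ℂ) (r : ℝ) (y : ℂ) : D.kap b x r y ≤ chi (b + 1) x r y := by
  unfold kap
  have := D.le_T b (continuous_chi b x r).measurable (t1a_chi_abs b x r) (y := y) (c := 0)
    fun w _ => ramp_nonneg _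
  linarith
theorem kap_le_one (b : ℕ) (x : ℂ) (r : ℝ) (y : ℂ) : D.kap b x r y ≤ 1 := by
  exact (D.kap_le_chi b x r y).trans (ramp_le_one _)

/-- support of the shell weight: depth in `(0, 4 Dl b]` -/
theorem kap_supp {b : ℕ} {x : ℂ} {r : ℝ} {y : ℂ} (h : D.kap b x r y ≠ 0) :
    ‖y - x‖ < r ∧ r - ‖y - x‖ ≤ 4 * Dl b := by
  have h2 := Dl_succ_le b
  have h3 := Dl_pos b
  have h4 := Dl_pos (b + 1)
  constructor
  · by_contra hc
    refine h (le_antisymm ((D.kap_le_chi b x r y).trans (chi_eq_zero ?_).le) (D.kap_nonneg b x r y))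
    linarith
  · by_contra hc
    refine h (le_antisymm ?_ (D.kap_nonneg b x r y))
    unfold kap
    have h5 := D.le_T b (continuous_chi b x r).measurable (t1a_chi_abs b x r) (y := y) (c := 1)
      fun w hw => (chi_eq_one (by linarith [t1a_norm_add_le y w x])).ge
    have h6 : chi (b + 1) x r y ≤ 1 := ramp_le_one _
    linarith

theorem Gam_nonneg (j l : ℕ) (x : ℂ) (r : ℝ) : 0 ≤ D.Gam j l x r := by
  exact Finset.sum_nonneg fun b _ =>
    integral_nonneg fun y => mul_nonneg (D.kap_nonneg _ _ _ _) (D.gam_nonneg _ _)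
theorem Xi_nonneg (j l : ℕ) (x : ℂ) (r : ℝ) : 0 ≤ D.Xi j l x r := by
  exact Finset.sum_nonneg fun b _ =>
    integral_nonneg fun y => mul_nonneg (D.kap_nonneg _ _ _ _) (D.bet_nonneg _ _)
theorem Gam0_nonneg (l : ℕ) (x : ℂ) (r : ℝ) : 0 ≤ D.Gam0 l x r := by
  exact add_nonneg (integral_nonneg fun y => mul_nonneg (ramp_nonneg _) (D.gam_nonneg _ _))
    (D.Gam_nonneg _ _ _ _)
theorem Xi0_nonneg (l : ℕ) (x : ℂ) (r : ℝ) : 0 ≤ D.Xi0 l x r := by
  exact add_nonneg (integral_nonneg fun y => mul_nonneg (ramp_nonneg _) (D.bet_nonneg _ _))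
    (D.Xi_nonneg _ _ _ _)
theorem N_nonneg (l : ℕ) (x : ℂ) (r : ℝ) : 0 ≤ D.N l x r := by
  exact integral_nonneg fun y => mul_nonneg (ramp_nonneg _) (norm_nonneg _)
theorem A_nonneg (l : ℕ) (x : ℂ) (r : ℝ) : 0 ≤ D.A l x r := by
  exact integral_nonneg fun y => D.bet_nonneg _ _
theorem Gam0_mono {l l' : ℕ} (h : l ≤ l') (x : ℂ) (r : ℝ) : D.Gam0 l x r ≤ D.Gam0 l' x r := by
  refine add_le_add le_rfl (Finset.sum_le_sum_of_subset_of_nonneg
    (Finset.Ico_subset_Ico_right h) fun b _ _ => ?_)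
  exact integral_nonneg fun y => mul_nonneg (D.kap_nonneg _ _ _ _) (D.gam_nonneg _ _)
theorem Gam_le_Gam0 (j l : ℕ) (x : ℂ) (r : ℝ) : D.Gam j l x r ≤ D.Gam0 l x r := by
  refine le_add_of_nonneg_of_le
    (integral_nonneg fun y => mul_nonneg (ramp_nonneg _) (D.gam_nonneg _ _))
    (Finset.sum_le_sum_of_subset_of_nonneg
      (Finset.Ico_subset_Ico_left (Nat.zero_le j)) fun b _ _ => ?_)
  exact integral_nonneg fun y => mul_nonneg (D.kap_nonneg _ _ _ _) (D.gam_nonneg _ _)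

theorem t1a_bet_intOn (b : ℕ) {S : Set ℂ} (hS : Bornology.IsBounded S) :
    IntegrableOn (D.bet b) S :=
  Measure.integrableOn_of_bounded hS.measure_lt_top.ne (D.measurable_bet b).aestronglyMeasurable
    (M := D.Mg) (ae_of_all _ fun y => by
      rw [Real.norm_of_nonneg (D.bet_nonneg b y)]; exact D.bet_le b y)

theorem t1a_shell_bdd (x : ℂ) (r δ : ℝ) : Bornology.IsBounded (shell x r δ) := by
  refine (isBounded_closedBall (x := x) (r := r + δ)).subset fun y hy => ?_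
  have h1 : |‖y - x‖ - r| ≤ δ := hy
  rw [mem_closedBall, dist_eq_norm]
  linarith [(abs_le.mp h1).2]

theorem t1a_weight_le (b : ℕ) {φ : ℂ → ℝ} (h0 : ∀ y, 0 ≤ φ y) (h1 : ∀ y, φ y ≤ 1) {S : Set ℂ}
    (hm : MeasurableSet S) (hS : Bornology.IsBounded S) (hφ : ∀ y, φ y ≠ 0 → y ∈ S) :
    ∫ y, φ y * D.bet b y ≤ ∫ y in S, D.bet b y := by
  rw [← integral_indicator hm]
  refine integral_mono_of_nonneg (ae_of_all _ fun y => mul_nonneg (h0 y) (D.bet_nonneg b y))
    ((integrable_indicator_iff hm).mpr (D.t1a_bet_intOn b hS)) (ae_of_all _ fun y => ?_)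
  by_cases hy : y ∈ S
  · simp only [indicator_of_mem hy]
    exact mul_le_of_le_one_left (D.bet_nonneg b y) (h1 y)
  · have : φ y = 0 := by
      by_contra h
      exact hy (hφ y h)
    simp [indicator_of_notMem hy, this]

/-- bad mass on subsets of the big ball -/
theorem bet_set_le {b : ℕ} (hb : b ≤ D.L) {S : Set ℂ} (hS : S ⊆ ball (0 : ℂ) 15) :
    ∫ y in S, D.bet b y ≤ 1 / tt b := by
  refine le_trans ?_ (D.hD b hb)
  exact setIntegral_mono_set (D.t1a_bet_intOn b isBounded_ball)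
    (ae_of_all _ fun y => D.bet_nonneg b y) hS.eventuallyLE

theorem A_le {b : ℕ} (hb : b < D.L) {x : ℂ} {r : ℝ} (h : Adm x r) : D.A b x r ≤ 1 / tt (b + 1) := by
  exact D.bet_set_le hb (shell_subset_ball h (by linarith [Dl_le b]))

theorem kap_bet_le_shell (b : ℕ) (x : ℂ) (r : ℝ) :
    ∫ y, D.kap b x r y * D.bet (b + 1) y ≤ ∫ y in shell x r (4 * Dl b), D.bet (b + 1) y := by
  refine D.t1a_weight_le _ (D.kap_nonneg b x r) (D.kap_le_one b x r) (measurableSet_shell _ _ _)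
    (t1a_shell_bdd _ _ _) fun y hy => ?_
  have h1 := D.kap_supp hy
  change |‖y - x‖ - r| ≤ 4 * Dl b
  rw [abs_le]
  constructor <;> linarith [h1.1, h1.2, Dl_pos b]

theorem kap_bet_le_A (b : ℕ) (x : ℂ) (r : ℝ) :
    ∫ y, D.kap b x r y * D.bet (b + 1) y ≤ D.A b x r := by
  refine (D.kap_bet_le_shell b x r).trans ?_
  refine setIntegral_mono_set (D.t1a_bet_intOn _ (t1a_shell_bdd _ _ _))
    (ae_of_all _ fun y => D.bet_nonneg _ y) (HasSubset.Subset.eventuallyLE fun y hy => ?_)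
  have h1 : |‖y - x‖ - r| ≤ 4 * Dl b := hy
  change |‖y - x‖ - r| ≤ 5 * Dl b
  linarith [Dl_pos b]

theorem chi_bet_le {b : ℕ} (hb : b ≤ D.L) {x : ℂ} {r : ℝ} (h : Adm x r) :
    ∫ y, chi b x r y * D.bet b y ≤ 1 / tt b := by
  refine le_trans ?_ (D.hD b hb)
  refine D.t1a_weight_le b (fun y => ramp_nonneg _) (fun y => ramp_le_one _) measurableSet_ball
    isBounded_ball fun y hy => ?_
  have h1 : 2 * Dl b < r - ‖y - x‖ := by
    by_contra hc
    exact hy (chi_eq_zero (not_lt.mp hc))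
  have h2 := norm_add_le (y - x) x
  rw [sub_add_cancel] at h2
  rw [mem_ball_zero_iff]
  linarith [h.2.2, Dl_pos b]

theorem Xi_le {j l : ℕ} (hl : l ≤ D.L) {x : ℂ} {r : ℝ} (h : Adm x r) : D.Xi j l x r ≤ 2 / tt l := by
  refine le_trans (Finset.sum_le_sum fun b hb => ?_) (sum_inv_tt_le j l)
  exact (D.kap_bet_le_A b x r).trans (D.A_le ((Finset.mem_Ico.mp hb).2.trans_le hl) h)

theorem Xi0_le {l : ℕ} (hl : l ≤ D.L) {x : ℂ} {r : ℝ} (h : Adm x r) : D.Xi0 l x r ≤ 3 / tt l := by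
  have h1 := D.chi_bet_le (Nat.zero_le _) h
  have h2 := D.Xi_le (j := 0) hl h
  have h3 : 1 / tt 0 ≤ 1 / tt l := one_div_le_one_div_of_le (tt_pos l) (tt_anti (Nat.zero_le l))
  have h4 : 3 / tt l = 1 / tt l + 2 / tt l := by ring
  unfold Xi0
  linarith

/-- bad mass when the blocks in `(m, l)` are light -/
theorem Xi0_le_of_light {m l : ℕ} (hl : l ≤ D.L) {x : ℂ} {r : ℝ} (h : Adm x r)
    (hlight : ∀ b, m < b → b < l → D.A b x r ≤ tt b) : D.Xi0 l x r ≤ 4 / tt (m + 1) := by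
  have hp := tt_pos (m + 1)
  have h4 : 4 / tt (m + 1) = 3 / tt (m + 1) + 1 / tt (m + 1) := by ring
  have h5 : 0 < 1 / tt (m + 1) := by positivity
  rcases le_total l (m + 1) with hm | hm
  · have h1 := D.Xi0_le hl h
    have h2 : 3 / tt l ≤ 3 / tt (m + 1) :=
      div_le_div_of_nonneg_left (by norm_num) hp (tt_anti hm)
    linarith
  · have h1 := D.Xi0_le (hm.trans hl) h
    have h2 : D.Xi0 l x r = D.Xi0 (m + 1) x r + D.Xi (m + 1) l x r := by
      unfold Xi0 Xi
      rw [add_assoc, Finset.sum_Ico_consecutive _ (Nat.zero_le _) hm]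
    have h3 : D.Xi (m + 1) l x r ≤ 2 * tt (m + 1) ^ 1 := by
      refine le_trans (Finset.sum_le_sum fun b hb => ?_) (sum_tt_pow_le (m + 1) l 1 le_rfl)
      rw [pow_one]
      exact (D.kap_bet_le_A b x r).trans
        (hlight b (Finset.mem_Ico.mp hb).1 (Finset.mem_Ico.mp hb).2)
    have h6 : 2 * tt (m + 1) ^ 1 ≤ 1 / tt (m + 1) := by
      rw [le_div_iff₀ hp]
      have := tt_le (m + 1)
      nlinarith
    linarith

end TData

end Crest.Agent.R112
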