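import Crest.Agent.R112.TailDet1

/-! # Row 112: localised two-sided telescoping, segment and transfer lemmas (task T2) -/

open MeasureTheory Set Filter Topology Metric
open scoped ENNReal NNReal RealInnerProductSpace

namespace Crest.Agent.R112

/-- two-sided shell cut-off -/
noncomputable def td2Zeta (b : ℕ) (x : ℂ) (r : ℝ) (y : ℂ) : ℝ := 1 - chi b x r y - chio b x r y

/-- indicator of the exterior of a disc -/
noncomputable def td2Psi (z : ℂ) (a : ℝ) (y : ℂ) : ℝ := if a ≤ ‖y - z‖ then 1 else 0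

/-- the localised cut-off -/
noncomputable def td2Phi (j b : ℕ) (x : ℂ) (r : ℝ) (z : ℂ) (a : ℝ) (y : ℂ) : ℝ :=
  td2Zeta b x r y * td2Psi z (a + 2 * Dl j - 2 * Dl b) y

theorem td2_zeta_mem (b : ℕ) (x : ℂ) (r : ℝ) (y : ℂ) :
    0 ≤ td2Zeta b x r y ∧ td2Zeta b x r y ≤ 1 := by
  have h1 : 0 ≤ chi b x r y := ramp_nonneg _
  have h2 : chi b x r y ≤ 1 := ramp_le_one _
  have h3 : 0 ≤ chio b x r y := ramp_nonneg _
  have h4 : chio b x r y ≤ 1 := ramp_le_one _
  have hD := Dl_pos b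
  unfold td2Zeta
  rcases le_total r ‖y - x‖ with h | h
  · rw [chi_eq_zero (by linarith)]
    constructor <;> linarith
  · rw [chio_eq_zero (by linarith)]
    constructor <;> linarith

theorem td2_zeta_one {b : ℕ} {x : ℂ} {r : ℝ} {y : ℂ} (h : |‖y - x‖ - r| ≤ 2 * Dl b) :
    td2Zeta b x r y = 1 := by
  rw [_root_.abs_le] at h
  unfold td2Zeta
  rw [chi_eq_zero (by linarith), chio_eq_zero (by linarith)]
  ring

theorem td2_zeta_zero {b : ℕ} {x : ℂ} {r : ℝ} {y : ℂ} (h : 3 * Dl b ≤ |‖y - x‖ - r|) :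
    td2Zeta b x r y = 0 := by
  have hD := Dl_pos b
  unfold td2Zeta
  rcases le_abs.1 h with h | h
  · rw [chi_eq_zero (by linarith), chio_eq_one (by linarith)]
    ring
  · rw [chi_eq_one (by linarith), chio_eq_zero (by linarith)]
    ring

theorem td2_measurableSet_far (z : ℂ) (a : ℝ) : MeasurableSet {y : ℂ | a ≤ ‖y - z‖} :=
  measurableSet_le measurable_const (by fun_prop)

theorem td2_measurable_phi (j b : ℕ) (x : ℂ) (r : ℝ) (z : ℂ) (a : ℝ) :
    Measurable (td2Phi j b x r z a) :=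
  ((measurable_const.sub (continuous_chi b x r).measurable).sub
    (continuous_chio b x r).measurable).mul
    (Measurable.ite (td2_measurableSet_far _ _) measurable_const measurable_const)

theorem td2_phi_mem (j b : ℕ) (x : ℂ) (r : ℝ) (z : ℂ) (a : ℝ) (y : ℂ) :
    0 ≤ td2Phi j b x r z a y ∧ td2Phi j b x r z a y ≤ 1 := by
  have := td2_zeta_mem b x r y
  unfold td2Phi td2Psi
  split_ifs
  · simpa using this
  · simp

theorem td2_phi_abs (j b : ℕ) (x : ℂ) (r : ℝ) (z : ℂ) (a : ℝ) (y : ℂ) :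
    |td2Phi j b x r z a y| ≤ 1 := by
  have := td2_phi_mem j b x r z a y
  rw [abs_of_nonneg this.1]
  exact this.2

theorem td2_phi_supp {j b : ℕ} {x : ℂ} {r : ℝ} {z : ℂ} {a : ℝ} {y : ℂ}
    (h : td2Phi j b x r z a y ≠ 0) :
    |‖y - x‖ - r| ≤ 3 * Dl b ∧ a + 2 * Dl j - 2 * Dl b ≤ ‖y - z‖ := by
  constructor
  · by_contra h1
    exact h (by rw [td2Phi, td2_zeta_zero (not_le.1 h1).le, zero_mul])
  · by_contra h1
    exact h (by rw [td2Phi, td2Psi, if_neg h1, mul_zero])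

theorem td2_phi_eq {j b : ℕ} {x : ℂ} {r : ℝ} {z : ℂ} {a : ℝ} {y : ℂ}
    (h : a + 2 * Dl j - 2 * Dl b ≤ ‖y - z‖) : td2Phi j b x r z a y = td2Zeta b x r y := by
  rw [td2Phi, td2Psi, if_pos h, mul_one]

theorem td2_shift (y w x : ℂ) : |‖y + w - x‖ - ‖y - x‖| ≤ ‖w‖ := by
  have := abs_norm_sub_norm_le (y + w - x) (y - x)
  rwa [show y + w - x - (y - x) = w by ring] at this

theorem td2_integrableOn {h : ℂ → ℝ} (hm : Measurable h) {M : ℝ} (hM : ∀ y, |h y| ≤ M)
    {S : Set ℂ} {x : ℂ} {r δ : ℝ} (hS : S ⊆ shell x r δ) : IntegrableOn h S := by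
  have h1 : S ⊆ closedBall x (r + δ) := fun y hy => by
    have h2 : |‖y - x‖ - r| ≤ δ := hS hy
    rw [mem_closedBall, dist_eq_norm]
    linarith [(_root_.abs_le.1 h2).2]
  exact Measure.integrableOn_of_bounded
    ((measure_mono h1).trans_lt measure_closedBall_lt_top).ne hm.aestronglyMeasurable
    (Eventually.of_forall hM)

theorem td2_integrable_mul {φ h : ℂ → ℝ} (hφ : Measurable φ) (h1 : ∀ y, |φ y| ≤ 1)
    {x : ℂ} {r δ : ℝ} (hs : ∀ y, φ y ≠ 0 → y ∈ shell x r δ) (hm : Measurable h) {M : ℝ}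
    (hM : ∀ y, y ∈ shell x r δ → |h y| ≤ M) : Integrable fun y => φ y * h y := by
  refine integrable_of_bdd_supp (x := x) (R := r + δ) (C := |M|) (hφ.mul hm).aestronglyMeasurable
    (fun y _ => ?_) fun y hy => ?_
  · by_cases h0 : φ y = 0
    · simp [h0]
    · rw [abs_mul]
      exact (mul_le_of_le_one_left (abs_nonneg _) (h1 y)).trans
        ((hM y (hs y h0)).trans (le_abs_self _))
  · by_cases h0 : φ y = 0
    · simp [h0]
    · have h2 : |‖y - x‖ - r| ≤ δ := hs y h0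
      linarith [(_root_.abs_le.1 h2).2]

theorem td2_mul_le_set {φ h : ℂ → ℝ} (hφ : Measurable φ) (h0 : ∀ y, 0 ≤ φ y) (h1 : ∀ y, φ y ≤ 1)
    {S : Set ℂ} (hSm : MeasurableSet S) {x : ℂ} {r δ : ℝ} (hS : S ⊆ shell x r δ)
    (hs : ∀ y, φ y ≠ 0 → y ∈ S) (hm : Measurable h) {M : ℝ} (hh : ∀ y, 0 ≤ h y)
    (hM : ∀ y, h y ≤ M) : ∫ y, φ y * h y ≤ ∫ y in S, h y := by
  have hM' : ∀ y, |h y| ≤ M := fun y => by rw [abs_of_nonneg (hh y)]; exact hM y
  rw [← integral_indicator hSm]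
  refine integral_mono (td2_integrable_mul hφ (fun y => by rw [abs_of_nonneg (h0 y)]; exact h1 y)
    (fun y hy => hS (hs y hy)) hm fun y _ => hM' y)
    ((td2_integrableOn hm hM' hS).integrable_indicator hSm) fun y => ?_
  by_cases hy : y ∈ S
  · simp only [indicator_of_mem hy]
    exact mul_le_of_le_one_left (hh y) (h1 y)
  · have : φ y = 0 := by
      by_contra h2
      exact hy (hs y h2)
    simp [indicator_of_notMem hy, this]

theorem td2_set_mono {h : ℂ → ℝ} (hm : Measurable h) {M : ℝ} (hh : ∀ y, 0 ≤ h y)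
    (hM : ∀ y, h y ≤ M) {S S' : Set ℂ} (hSS : S ⊆ S') {x : ℂ} {r δ : ℝ}
    (hS : S' ⊆ shell x r δ) : ∫ y in S, h y ≤ ∫ y in S', h y :=
  setIntegral_mono_set
    (td2_integrableOn hm (fun y => by rw [abs_of_nonneg (hh y)]; exact hM y) hS)
    (Eventually.of_forall hh) hSS.eventuallyLE

theorem td2_shell_mono (x : ℂ) (r : ℝ) {δ δ' : ℝ} (h : δ ≤ δ') : shell x r δ ⊆ shell x r δ' :=
  fun _ hy => le_trans (show |_| ≤ δ from hy) h

theorem td2_Dl_le_rr (j : ℕ) : Dl j ≤ rr j :=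
  pow_le_pow_of_le_one (tt_pos j).le (tt_le_one j) (by norm_num)

theorem td2_rr_le (j : ℕ) : rr j ≤ 1 / 10 ^ 12 := by
  have := tt_pow_le j (m := 0) (n := 40) (by norm_num)
  simpa [rr] using this

namespace TData

variable (D : TData)

theorem td2_abs_inner (b : ℕ) (y : ℂ) : |⟪D.e, D.G b y⟫| ≤ D.Mg := by
  have := abs_real_inner_le_norm D.e (D.G b y)
  rw [D.he, one_mul] at this
  exact this.trans (D.hGb b y)

theorem td2_measurable_inner (b : ℕ) : Measurable fun y => ⟪D.e, D.G b y⟫ :=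
  measurable_const.inner (D.hGm b)

theorem td2_abs_gam (b : ℕ) (y : ℂ) : |D.gam b y| ≤ D.Mg := by
  rw [abs_of_nonneg (D.gam_nonneg b y)]
  exact D.gam_le b y

theorem td2_abs_bet (b : ℕ) (y : ℂ) : |D.bet b y| ≤ D.Mg := by
  rw [abs_of_nonneg (D.bet_nonneg b y)]
  exact D.bet_le b y

/-- lower bound of a weighted integral of `⟪e, G b⟫` -/
theorem td2_lower (b : ℕ) {φ : ℂ → ℝ} (hφ : Measurable φ) (h0 : ∀ y, 0 ≤ φ y) (h1 : ∀ y, φ y ≤ 1)
    {S : Set ℂ} (hSm : MeasurableSet S) {x : ℂ} {r δ : ℝ} (hS : S ⊆ shell x r δ)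
    (hs : ∀ y, φ y ≠ 0 → y ∈ S) :
    4 / 5 * (∫ y, φ y * D.gam b y) - ∫ y in S, D.bet b y ≤ ∫ y, φ y * ⟪D.e, D.G b y⟫ := by
  have ha : ∀ y, |φ y| ≤ 1 := fun y => by rw [abs_of_nonneg (h0 y)]; exact h1 y
  have hs' : ∀ y, φ y ≠ 0 → y ∈ shell x r δ := fun y hy => hS (hs y hy)
  have i1 := td2_integrable_mul hφ ha hs' (D.measurable_gam b) fun y _ => D.td2_abs_gam b y
  have i2 := td2_integrable_mul hφ ha hs' (D.measurable_bet b) fun y _ => D.td2_abs_bet b y
  have i3 := td2_integrable_mul hφ ha hs' (D.td2_measurable_inner b)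
    fun y _ => D.td2_abs_inner b y
  have h2 := td2_mul_le_set hφ h0 h1 hSm hS hs (D.measurable_bet b) (D.bet_nonneg b) (D.bet_le b)
  have h3 : ∫ y, (4 / 5 * (φ y * D.gam b y) - φ y * D.bet b y) ≤ ∫ y, φ y * ⟪D.e, D.G b y⟫ := by
    refine integral_mono ((i1.const_mul _).sub i2) i3 fun y => ?_
    have h4 := Pos.inner_ge (p := D.G b y) D.hK (pos_self D.he)
    rw [D.he, one_mul] at h4
    have h5 := mul_le_mul_of_nonneg_left h4 (h0 y)
    simp only [gam, bet]
    linarith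
  rw [integral_sub (i1.const_mul _) i2, integral_const_mul] at h3
  linarith

/-- the smoothed localised cut-off -/
noncomputable def td2U (j b : ℕ) (x : ℂ) (r : ℝ) (z : ℂ) (a : ℝ) : ℂ → ℝ :=
  D.T b (td2Phi j b x r z a)

theorem td2_measurable_U (j b : ℕ) (x : ℂ) (r : ℝ) (z : ℂ) (a : ℝ) :
    Measurable (D.td2U j b x r z a) := D.measurable_T b (td2_measurable_phi j b x r z a)

theorem td2_U_mem (j b : ℕ) (x : ℂ) (r : ℝ) (z : ℂ) (a : ℝ) (y : ℂ) :
    0 ≤ D.td2U j b x r z a y ∧ D.td2U j b x r z a y ≤ 1 :=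
  ⟨D.le_T b (td2_measurable_phi j b x r z a) (td2_phi_abs j b x r z a)
    fun _ _ => (td2_phi_mem j b x r z a _).1,
   D.T_le b (td2_measurable_phi j b x r z a) (td2_phi_abs j b x r z a)
    fun _ _ => (td2_phi_mem j b x r z a _).2⟩

theorem td2_U_supp {j b : ℕ} (hjb : j ≤ b) {x : ℂ} {r : ℝ} {z : ℂ} {a : ℝ} {y : ℂ}
    (h : D.td2U j b x r z a y ≠ 0) :
    y ∈ shell x r (4 * Dl b) ∩ {y | a - Dl j ≤ ‖y - z‖} := by
  by_contra hy
  refine h (le_antisymm (D.T_le b (td2_measurable_phi j b x r z a) (td2_phi_abs j b x r z a)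
    fun w hw => le_of_eq ?_) (D.td2_U_mem j b x r z a y).1)
  by_contra h1
  obtain ⟨h2, h3⟩ := td2_phi_supp h1
  have h4 := _root_.abs_le.1 (td2_shift y w x)
  have h5 := _root_.abs_le.1 (td2_shift y w z)
  have h6 := Dl_anti hjb
  rw [_root_.abs_le] at h2
  refine hy ⟨?_, ?_⟩
  · change |‖y - x‖ - r| ≤ 4 * Dl b
    rw [_root_.abs_le]
    constructor <;> linarith
  · change a - Dl j ≤ ‖y - z‖
    linarith

theorem td2_U_one {j b : ℕ} {x : ℂ} {r : ℝ} {z : ℂ} {a : ℝ} {y : ℂ}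
    (h1 : |‖y - x‖ - r| ≤ Dl b) (h2 : a + 2 * Dl j - Dl b ≤ ‖y - z‖) :
    1 ≤ D.td2U j b x r z a y := by
  refine D.le_T b (td2_measurable_phi j b x r z a) (td2_phi_abs j b x r z a) fun w hw => ?_
  have h4 := _root_.abs_le.1 (td2_shift y w x)
  have h5 := _root_.abs_le.1 (td2_shift y w z)
  rw [_root_.abs_le] at h1
  rw [td2_phi_eq (by linarith), td2_zeta_one (by rw [_root_.abs_le]; constructor <;> linarith)]

theorem td2_phi_le_U (j b : ℕ) (x : ℂ) (r : ℝ) (z : ℂ) (a : ℝ) (y : ℂ) :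
    td2Phi j (b + 1) x r z a y ≤ D.td2U j b x r z a y := by
  by_cases h : td2Phi j (b + 1) x r z a y = 0
  · rw [h]
    exact (D.td2_U_mem j b x r z a y).1
  · obtain ⟨h2, h3⟩ := td2_phi_supp h
    have h4 := Dl_succ_le b
    have h5 := Dl_pos b
    exact (td2_phi_mem j (b + 1) x r z a y).2.trans (D.td2_U_one (by linarith) (by linarith))

theorem td2_kap_le (j b : ℕ) (x : ℂ) (r : ℝ) (z : ℂ) (a : ℝ) {y : ℂ}
    (hy : a + 2 * Dl j ≤ ‖y - z‖) :
    D.kap b x r y ≤ D.td2U j b x r z a y - td2Phi j (b + 1) x r z a y := by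
  by_cases h : D.kap b x r y = 0
  · rw [h]
    exact sub_nonneg.2 (D.td2_phi_le_U j b x r z a y)
  obtain ⟨h1, -⟩ := D.kap_supp h
  have hD := Dl_pos b
  have hD' := Dl_pos (b + 1)
  have hc := (continuous_chi b x r).measurable
  have hc1 : ∀ y, |chi b x r y| ≤ 1 := fun y => by
    rw [abs_of_nonneg (show 0 ≤ chi b x r y from ramp_nonneg _)]
    exact ramp_le_one _
  have h2 : 1 ≤ D.T b (fun y => td2Phi j b x r z a y + chi b x r y) y := by
    refine D.le_T b (φ := fun y => td2Phi j b x r z a y + chi b x r y)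
      ((td2_measurable_phi j b x r z a).add hc) (C := 2) (fun y => ?_)
      fun w hw => ?_
    · refine (abs_add_le _ _).trans ?_
      linarith [td2_phi_abs j b x r z a y, hc1 y]
    · have h4 := _root_.abs_le.1 (td2_shift y w x)
      have h5 := _root_.abs_le.1 (td2_shift y w z)
      rw [td2_phi_eq (by linarith), td2Zeta, chio_eq_zero (by linarith)]
      linarith
  rw [D.T_add b (td2_measurable_phi j b x r z a) hc (td2_phi_abs j b x r z a) hc1] at h2
  rw [td2_phi_eq (by linarith), td2Zeta, chio_eq_zero (by linarith), kap, td2U]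
  linarith

theorem td2_dual {j b : ℕ} (hb : b < D.L) (x : ℂ) (r : ℝ) (z : ℂ) (a : ℝ) :
    ∫ y, td2Phi j b x r z a y * ⟪D.e, D.G b y⟫
      = ∫ y, D.td2U j b x r z a y * ⟪D.e, D.G (b + 1) y⟫ := by
  refine D.dual hb (td2_measurable_phi j b x r z a) (x := x) (R := r + 3 * Dl b)
    (td2_phi_abs j b x r z a) (fun y hy => ?_) D.e
  by_contra h
  linarith [(_root_.abs_le.1 (td2_phi_supp h).1).2]

theorem td2_W_supp {j b : ℕ} (hjb : j ≤ b) {x : ℂ} {r : ℝ} {z : ℂ} {a : ℝ} {y : ℂ}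
    (h : D.td2U j b x r z a y - td2Phi j (b + 1) x r z a y ≠ 0) :
    y ∈ shell x r (4 * Dl b) ∩ {y | a - Dl j ≤ ‖y - z‖} := by
  refine D.td2_U_supp hjb fun h0 => h ?_
  have h1 := D.td2_phi_le_U j b x r z a y
  have h2 := (td2_phi_mem j (b + 1) x r z a y).1
  linarith

theorem td2_key {j m : ℕ} (hjm : j ≤ m) (hm : m < D.L) (x : ℂ) (r : ℝ) (z : ℂ) (a : ℝ) :
    4 / 5 * (∑ b ∈ Finset.Ico j m,
        ∫ y, (D.td2U j b x r z a y - td2Phi j (b + 1) x r z a y) * D.gam (b + 1) y)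
      + ∫ y, D.td2U j m x r z a y * ⟪D.e, D.G (m + 1) y⟫
      ≤ (∫ y, td2Phi j j x r z a y * ⟪D.e, D.G j y⟫)
        + ∑ b ∈ Finset.Ico j m,
          ∫ y in shell x r (4 * Dl b) ∩ {y | a - Dl j ≤ ‖y - z‖}, D.bet (b + 1) y := by
  induction m, hjm using Nat.le_induction with
  | base => rw [D.td2_dual hm, Finset.Ico_self, Finset.sum_empty, Finset.sum_empty]; linarith
  | succ m hjm ih =>
    have ih' := ih (by omega)
    rw [Finset.sum_Ico_succ_top hjm, Finset.sum_Ico_succ_top hjm, ← D.td2_dual hm]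
    have h1 := D.td2_lower (m + 1)
      (φ := fun y => D.td2U j m x r z a y - td2Phi j (m + 1) x r z a y)
      ((D.td2_measurable_U j m x r z a).sub (td2_measurable_phi j (m + 1) x r z a))
      (fun y => sub_nonneg.2 (D.td2_phi_le_U j m x r z a y))
      (fun y => by
        have := (D.td2_U_mem j m x r z a y).2
        have := (td2_phi_mem j (m + 1) x r z a y).1
        linarith)
      ((measurableSet_shell x r (4 * Dl m)).inter (td2_measurableSet_far z (a - Dl j)))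
      inter_subset_left fun y hy => D.td2_W_supp hjm hy
    have i1 := td2_integrable_mul (D.td2_measurable_U j m x r z a)
      (fun y => by
        rw [abs_of_nonneg (D.td2_U_mem j m x r z a y).1]
        exact (D.td2_U_mem j m x r z a y).2)
      (fun y hy => (D.td2_U_supp hjm hy).1) (D.td2_measurable_inner (m + 1))
      fun y _ => D.td2_abs_inner (m + 1) y
    have i2 := td2_integrable_mul (td2_measurable_phi j (m + 1) x r z a)
      (td2_phi_abs j (m + 1) x r z a) (x := x) (r := r) (δ := 3 * Dl (m + 1))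
      (fun y hy => (td2_phi_supp hy).1) (D.td2_measurable_inner (m + 1))
      fun y _ => D.td2_abs_inner (m + 1) y
    have h2 : ∫ y, (D.td2U j m x r z a y - td2Phi j (m + 1) x r z a y) * ⟪D.e, D.G (m + 1) y⟫
        = (∫ y, D.td2U j m x r z a y * ⟪D.e, D.G (m + 1) y⟫)
          - ∫ y, td2Phi j (m + 1) x r z a y * ⟪D.e, D.G (m + 1) y⟫ := by
      simp only [sub_mul]
      exact integral_sub i1 i2
    linarith

theorem td2_key' {j m : ℕ} (hjm : j ≤ m) (hm : m < D.L) (x : ℂ) (r : ℝ) (z : ℂ) (a : ℝ) :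
    (∑ b ∈ Finset.Ico j m,
        ∫ y, (D.td2U j b x r z a y - td2Phi j (b + 1) x r z a y) * D.gam (b + 1) y)
      + ∫ y, D.td2U j m x r z a y * D.gam (m + 1) y
      ≤ 5 / 4 * ((∫ y in shell x r (3 * Dl j) ∩ {y | a ≤ ‖y - z‖}, ‖D.G j y‖)
          + 3 * ∑ b ∈ Finset.Ico j (m + 1),
            ∫ y in shell x r (4 * Dl b) ∩ {y | a - Dl j ≤ ‖y - z‖}, D.bet (b + 1) y) := by
  have h1 := D.td2_key hjm hm x r z a
  have h2 := D.td2_lower (m + 1) (D.td2_measurable_U j m x r z a)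
    (fun y => (D.td2_U_mem j m x r z a y).1) (fun y => (D.td2_U_mem j m x r z a y).2)
    ((measurableSet_shell x r (4 * Dl m)).inter (td2_measurableSet_far z (a - Dl j)))
    inter_subset_left fun y hy => D.td2_U_supp hjm hy
  have hs : ∀ y, td2Phi j j x r z a y ≠ 0 → y ∈ shell x r (3 * Dl j) ∩ {y | a ≤ ‖y - z‖} :=
    fun y hy => ⟨(td2_phi_supp hy).1, by
      have := (td2_phi_supp hy).2
      change a ≤ ‖y - z‖
      linarith⟩
  have h3 := td2_mul_le_set (td2_measurable_phi j j x r z a)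
    (fun y => (td2_phi_mem j j x r z a y).1) (fun y => (td2_phi_mem j j x r z a y).2)
    ((measurableSet_shell x r (3 * Dl j)).inter (td2_measurableSet_far z a)) inter_subset_left hs
    (D.hGm j).norm (fun y => norm_nonneg _) (D.hGb j)
  have h4 : ∫ y, td2Phi j j x r z a y * ⟪D.e, D.G j y⟫ ≤ ∫ y, td2Phi j j x r z a y * ‖D.G j y‖ := by
    refine integral_mono (td2_integrable_mul (td2_measurable_phi j j x r z a)
      (td2_phi_abs j j x r z a) (fun y hy => (hs y hy).1) (D.td2_measurable_inner j)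
      fun y _ => D.td2_abs_inner j y) (td2_integrable_mul (td2_measurable_phi j j x r z a)
      (td2_phi_abs j j x r z a) (fun y hy => (hs y hy).1) (D.hGm j).norm
      fun y _ => by rw [abs_norm]; exact D.hGb j y) fun y => ?_
    refine mul_le_mul_of_nonneg_left ?_ (td2_phi_mem j j x r z a y).1
    have := real_inner_le_norm D.e (D.G j y)
    rwa [D.he, one_mul] at this
  have h5 : 0 ≤ ∑ b ∈ Finset.Ico j (m + 1),
      ∫ y in shell x r (4 * Dl b) ∩ {y | a - Dl j ≤ ‖y - z‖}, D.bet (b + 1) y :=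
    Finset.sum_nonneg fun b _ => integral_nonneg fun y => D.bet_nonneg _ y
  rw [Finset.sum_Ico_succ_top hjm] at h5 ⊢
  linarith

theorem td2_kap_shell {b : ℕ} {x : ℂ} {r : ℝ} {y : ℂ} (h : D.kap b x r y ≠ 0) :
    y ∈ shell x r (4 * Dl b) := by
  obtain ⟨h1, h2⟩ := D.kap_supp h
  change |‖y - x‖ - r| ≤ 4 * Dl b
  rw [abs_of_neg (by linarith)]
  linarith

theorem td2_abs_kap (b : ℕ) (x : ℂ) (r : ℝ) (y : ℂ) : |D.kap b x r y| ≤ 1 := by
  rw [abs_of_nonneg (D.kap_nonneg b x r y)]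
  exact D.kap_le_one b x r y

theorem td2_integrable_kap (b : ℕ) (x : ℂ) (r : ℝ) {h : ℂ → ℝ} (hm : Measurable h) {M : ℝ}
    (hM : ∀ y, y ∈ shell x r (4 * Dl b) → |h y| ≤ M) :
    Integrable fun y => D.kap b x r y * h y :=
  td2_integrable_mul (D.measurable_kap b x r) (D.td2_abs_kap b x r)
    (fun _ hy => D.td2_kap_shell hy) hm hM

theorem td2_kap_far {j b : ℕ} (x : ℂ) (r : ℝ) (z : ℂ) (a : ℝ) {W : ℂ → ℝ} (hW : Measurable W)
    (h0 : ∀ y, 0 ≤ W y) (h1 : ∀ y, W y ≤ 1) (hs : ∀ y, W y ≠ 0 → y ∈ shell x r (4 * Dl b))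
    (h : ∀ y, a + 2 * Dl j ≤ ‖y - z‖ → D.kap b x r y ≤ W y) :
    ∫ y in {y | a + 2 * Dl j ≤ ‖y - z‖}, D.kap b x r y * D.gam (b + 1) y
      ≤ ∫ y, W y * D.gam (b + 1) y := by
  rw [← integral_indicator (td2_measurableSet_far _ _)]
  refine integral_mono ((D.td2_integrable_kap b x r (D.measurable_gam _)
    fun y _ => D.td2_abs_gam _ y).indicator (td2_measurableSet_far _ _))
    (td2_integrable_mul hW (fun y => by rw [abs_of_nonneg (h0 y)]; exact h1 y) hs
      (D.measurable_gam _) fun y _ => D.td2_abs_gam _ y) fun y => ?_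
  by_cases hy : y ∈ {y | a + 2 * Dl j ≤ ‖y - z‖}
  · simp only [indicator_of_mem hy]
    exact mul_le_mul_of_nonneg_right (h y hy) (D.gam_nonneg _ y)
  · simp only [indicator_of_notMem hy]
    exact mul_nonneg (h0 y) (D.gam_nonneg _ y)

/-- one block of the segment lemma -/
theorem td2_block (j b : ℕ) (x : ℂ) (r : ℝ) (z : ℂ) {X : ℂ → ℂ} (hX : Measurable X) {M : ℝ}
    (hM : ∀ y, y ∈ shell x r (4 * Dl b) → ‖X y‖ ≤ M)
    (h3 : ∀ y, ‖y - x‖ < r → ‖X y‖ ≤ 3)
    (hn : ∀ y, ‖y - z‖ < 2 * rr j + 2 * Dl j → ‖X y‖ ≤ 20 * rr j) :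
    -(20 * rr j * ((∫ y, D.kap b x r y * D.gam (b + 1) y)
        + ∫ y, D.kap b x r y * D.bet (b + 1) y)
      + 3 * (∫ y in {y | 2 * rr j + 2 * Dl j ≤ ‖y - z‖}, D.kap b x r y * D.gam (b + 1) y)
      + 3 * ∫ y in shell x r (4 * Dl b) ∩ {y | 2 * rr j - Dl j ≤ ‖y - z‖}, D.bet (b + 1) y)
      ≤ ∫ y, D.kap b x r y * ⟪X y, D.G (b + 1) y⟫ := by
  have i1 := D.td2_integrable_kap b x r (D.measurable_gam (b + 1)) fun y _ => D.td2_abs_gam _ y
  have i2 := D.td2_integrable_kap b x r (D.measurable_bet (b + 1)) fun y _ => D.td2_abs_bet _ y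
  have hS := (measurableSet_shell x r (4 * Dl b)).inter (td2_measurableSet_far z (2 * rr j - Dl j))
  have i3 := i1.indicator (td2_measurableSet_far z (2 * rr j + 2 * Dl j))
  have i4 := (td2_integrableOn (D.measurable_bet (b + 1)) (D.td2_abs_bet (b + 1))
    (inter_subset_left : shell x r (4 * Dl b) ∩ {y | 2 * rr j - Dl j ≤ ‖y - z‖} ⊆ _)
    ).integrable_indicator hS
  have i5 := D.td2_integrable_kap b x r (hX.inner (D.hGm (b + 1))) (M := M * D.Mg)
    fun y hy => (abs_real_inner_le_norm _ _).trans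
      (mul_le_mul (hM y hy) (D.hGb _ y) (norm_nonneg _) ((norm_nonneg _).trans (hM y hy)))
  have i6 : Integrable fun y => 20 * rr j *
      (D.kap b x r y * D.gam (b + 1) y + D.kap b x r y * D.bet (b + 1) y) :=
    (i1.add i2).const_mul _
  have i7 : Integrable fun y => 20 * rr j *
      (D.kap b x r y * D.gam (b + 1) y + D.kap b x r y * D.bet (b + 1) y)
      + 3 * {y | 2 * rr j + 2 * Dl j ≤ ‖y - z‖}.indicator
        (fun y => D.kap b x r y * D.gam (b + 1) y) y := i6.add (i3.const_mul _)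
  rw [← integral_indicator (td2_measurableSet_far _ _), ← integral_indicator hS,
    ← integral_add i1 i2, ← integral_const_mul, ← integral_const_mul, ← integral_const_mul,
    ← integral_add i6 (i3.const_mul _), ← integral_add i7 (i4.const_mul _), ← integral_neg]
  refine integral_mono (i7.add (i4.const_mul _)).neg i5 fun y => ?_
  have hk := D.kap_nonneg b x r y
  have hk1 := D.kap_le_one b x r y
  have hg := D.gam_nonneg (b + 1) y
  have hb := D.bet_nonneg (b + 1) y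
  have hr := rr_pos j
  have hD := Dl_pos j
  have hkg := mul_nonneg hk hg
  have hkb := mul_nonneg hk hb
  have e1 : 0 ≤ {y | 2 * rr j + 2 * Dl j ≤ ‖y - z‖}.indicator
      (fun y => D.kap b x r y * D.gam (b + 1) y) y :=
    indicator_nonneg (fun y _ => mul_nonneg (D.kap_nonneg b x r y) (D.gam_nonneg _ y)) y
  have e2 : 0 ≤ (shell x r (4 * Dl b) ∩ {y | 2 * rr j - Dl j ≤ ‖y - z‖}).indicator
      (D.bet (b + 1)) y := indicator_nonneg (fun y _ => D.bet_nonneg _ y) y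
  have e3 : ∀ c, ‖X y‖ ≤ c → -(c * (D.kap b x r y * D.gam (b + 1) y
      + D.kap b x r y * D.bet (b + 1) y)) ≤ D.kap b x r y * ⟪X y, D.G (b + 1) y⟫ := by
    intro c hc
    have h4 := (_root_.abs_le.1 ((abs_real_inner_le_norm (X y) (D.G (b + 1) y)).trans
      (mul_le_mul_of_nonneg_right hc (norm_nonneg _)))).1
    rw [← D.gam_add_bet] at h4
    have h5 := mul_le_mul_of_nonneg_left h4 hk
    linarith
  simp only
  by_cases h0 : D.kap b x r y = 0
  · rw [h0] at *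
    linarith
  by_cases hy : y ∈ {y | 2 * rr j + 2 * Dl j ≤ ‖y - z‖}
  · have hy' : y ∈ shell x r (4 * Dl b) ∩ {y | 2 * rr j - Dl j ≤ ‖y - z‖} :=
      ⟨D.td2_kap_shell h0, by
        have : 2 * rr j + 2 * Dl j ≤ ‖y - z‖ := hy
        change 2 * rr j - Dl j ≤ ‖y - z‖
        linarith⟩
    rw [indicator_of_mem hy, indicator_of_mem hy']
    have h4 := e3 3 (h3 y (D.kap_supp h0).1)
    have h5 := mul_le_of_le_one_left hb hk1
    have h6 := mul_nonneg hr.le (add_nonneg hkg hkb)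
    linarith
  · have h4 := e3 _ (hn y (not_le.1 hy))
    linarith

/-- Y-lemma, first form.  Proof: `ζ_b = 1 - chi b - chio b`, `ψ_b = 1{a + 2 Dl j - 2 Dl b ≤ ‖y - z‖}`,
`Y_b = ∫ ζ_b ψ_b ⟪e, G b⟫`; by `dual`, `Y_b ≥ Y_{b+1} + 4/5 ∫ ψ_{b+1} (T ζ_b - ζ_{b+1}) gam - 2 bad_b`,
`T ζ_b - ζ_{b+1} ≥ kap b`, `Y_l ≥ 4/5 ∫ ζ_l ψ_l gam_l - bad_{l-1}`, `Y_j ≤ ∫ ‖G j‖`. -/
theorem Y1 {j l : ℕ} (hjl : j < l) (hl : l ≤ D.L) (x : ℂ) (r : ℝ) (z : ℂ) (a : ℝ) :
    ∑ b ∈ Finset.Ico j l,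
        ∫ y in {y | a + 2 * Dl j ≤ ‖y - z‖}, D.kap b x r y * D.gam (b + 1) y
      ≤ 5 / 4 * ((∫ y in shell x r (3 * Dl j) ∩ {y | a ≤ ‖y - z‖}, ‖D.G j y‖)
          + 3 * ∑ b ∈ Finset.Ico j l,
            ∫ y in shell x r (4 * Dl b) ∩ {y | a - Dl j ≤ ‖y - z‖}, D.bet (b + 1) y) := by
  obtain ⟨m, rfl⟩ : ∃ m, l = m + 1 := ⟨l - 1, by omega⟩
  have hjm : j ≤ m := by omega
  refine le_trans ?_ (D.td2_key' hjm hl x r z a)
  rw [Finset.sum_Ico_succ_top hjm]
  refine add_le_add (Finset.sum_le_sum fun b hb => ?_) ?_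
  · exact D.td2_kap_far x r z a
      (W := fun y => D.td2U j b x r z a y - td2Phi j (b + 1) x r z a y)
      ((D.td2_measurable_U j b x r z a).sub (td2_measurable_phi j (b + 1) x r z a))
      (fun y => sub_nonneg.2 (D.td2_phi_le_U j b x r z a y))
      (fun y => by
        have := (D.td2_U_mem j b x r z a y).2
        have := (td2_phi_mem j (b + 1) x r z a y).1
        linarith)
      (fun y hy => (D.td2_W_supp (Finset.mem_Ico.1 hb).1 hy).1)
      fun y hy => D.td2_kap_le j b x r z a hy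
  · exact D.td2_kap_far x r z a (D.td2_measurable_U j m x r z a)
      (fun y => (D.td2_U_mem j m x r z a y).1) (fun y => (D.td2_U_mem j m x r z a y).2)
      (fun y hy => (D.td2_U_supp hjm hy).1) fun y hy => by
        have := D.td2_kap_le j m x r z a hy
        have := (td2_phi_mem j (m + 1) x r z a y).1
        linarith

/-- Y-lemma, second form (uses `T ζ_{l-1} = 1` on `shell x r (5 Dl l)`). -/
theorem Y2 {j l : ℕ} (hjl : j < l) (hl : l ≤ D.L) (x : ℂ) (r : ℝ) (z : ℂ) (a : ℝ) :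
    (∫ y in shell x r (5 * Dl l) ∩ {y | a + 2 * Dl j ≤ ‖y - z‖}, D.gam l y)
      ≤ 5 / 4 * ((∫ y in shell x r (3 * Dl j) ∩ {y | a ≤ ‖y - z‖}, ‖D.G j y‖)
          + 3 * ∑ b ∈ Finset.Ico j l,
            ∫ y in shell x r (4 * Dl b) ∩ {y | a - Dl j ≤ ‖y - z‖}, D.bet (b + 1) y) := by
  obtain ⟨m, rfl⟩ : ∃ m, l = m + 1 := ⟨l - 1, by omega⟩
  have hjm : j ≤ m := by omega
  refine le_trans ?_ (D.td2_key' hjm hl x r z a)
  refine le_add_of_nonneg_of_le (Finset.sum_nonneg fun b _ => integral_nonneg fun y =>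
    mul_nonneg (sub_nonneg.2 (D.td2_phi_le_U j b x r z a y)) (D.gam_nonneg _ y)) ?_
  have hS := (measurableSet_shell x r (5 * Dl (m + 1))).inter
    (td2_measurableSet_far z (a + 2 * Dl j))
  rw [← integral_indicator hS]
  refine integral_mono ((td2_integrableOn (D.measurable_gam _) (D.td2_abs_gam _)
    inter_subset_left).integrable_indicator hS)
    (td2_integrable_mul (D.td2_measurable_U j m x r z a)
      (fun y => by
        rw [abs_of_nonneg (D.td2_U_mem j m x r z a y).1]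
        exact (D.td2_U_mem j m x r z a y).2)
      (fun y hy => (D.td2_U_supp hjm hy).1) (D.measurable_gam _) fun y _ => D.td2_abs_gam _ y)
    fun y => ?_
  by_cases hy : y ∈ shell x r (5 * Dl (m + 1)) ∩ {y | a + 2 * Dl j ≤ ‖y - z‖}
  · simp only [indicator_of_mem hy]
    have h1 : |‖y - x‖ - r| ≤ 5 * Dl (m + 1) := hy.1
    have h2 : a + 2 * Dl j ≤ ‖y - z‖ := hy.2
    have h4 := Dl_succ_le m
    have h5 := Dl_pos m
    exact le_mul_of_one_le_left (D.gam_nonneg _ y) (D.td2_U_one (by linarith) (by linarith))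
  · simp only [indicator_of_notMem hy]
    exact mul_nonneg (D.td2_U_mem j m x r z a y).1 (D.gam_nonneg _ y)

/-- bad mass away from the pivot in a segment -/
theorem bad_away {j l : ℕ} (hjl : j < l) {x : ℂ} {r : ℝ} {z : ℂ} (h1 : D.R1 j x r z)
    (hlight : ∀ b, j + 2 ≤ b → b < l → D.A b x r ≤ tt b) :
    ∑ b ∈ Finset.Ico j l,
        ∫ y in shell x r (4 * Dl b) ∩ {y | 2 * rr j - Dl j ≤ ‖y - z‖}, D.bet (b + 1) y
      ≤ tt (j + 1) := by
  have _ := hjl
  have hsub : Finset.Ico j l ⊆ insert j (insert (j + 1) (Finset.Ico (j + 2) l)) := by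
    intro b hb
    simp only [Finset.mem_insert, Finset.mem_Ico] at hb ⊢
    omega
  refine (Finset.sum_le_sum_of_subset_of_nonneg hsub fun b _ _ =>
    integral_nonneg fun y => D.bet_nonneg _ y).trans ?_
  rw [Finset.sum_insert (by simp only [Finset.mem_insert, Finset.mem_Ico]; omega),
    Finset.sum_insert (by simp only [Finset.mem_Ico]; omega)]
  have hs : ∀ b, j ≤ b → shell x r (4 * Dl b) ∩ {y | 2 * rr j - Dl j ≤ ‖y - z‖}
      ⊆ shell x r (5 * Dl j) \ ball z (rr j) := by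
    intro b hb y hy
    have h2 := Dl_anti hb
    have h3 := Dl_pos j
    have h4 := td2_Dl_le_rr j
    have h5 : 2 * rr j - Dl j ≤ ‖y - z‖ := hy.2
    refine ⟨td2_shell_mono x r (by linarith) hy.1, ?_⟩
    rw [mem_ball, dist_eq_norm]
    linarith
  have e1 := td2_set_mono (D.measurable_bet (j + 1)) (D.bet_nonneg _) (D.bet_le _) (hs j le_rfl)
    sdiff_subset
  have e2 := td2_set_mono (D.measurable_bet (j + 1 + 1)) (D.bet_nonneg _) (D.bet_le _)
    (hs (j + 1) (Nat.le_succ j)) sdiff_subset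
  have e3 : ∑ b ∈ Finset.Ico (j + 2) l,
      ∫ y in shell x r (4 * Dl b) ∩ {y | 2 * rr j - Dl j ≤ ‖y - z‖}, D.bet (b + 1) y
      ≤ ∑ b ∈ Finset.Ico (j + 2) l, tt b ^ 1 := by
    refine Finset.sum_le_sum fun b hb => ?_
    rw [Finset.mem_Ico] at hb
    rw [pow_one]
    refine le_trans ?_ (hlight b hb.1 hb.2)
    have := Dl_pos b
    exact td2_set_mono (D.measurable_bet _) (D.bet_nonneg _) (D.bet_le _)
      (inter_subset_left.trans (td2_shell_mono x r (by linarith))) subset_rfl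
  have e4 := sum_tt_pow_le (j + 2) l 1 le_rfl
  have e5 : tt (j + 2) ≤ tt (j + 1) / 10 ^ 12 := by
    have := tt_pow_le (j + 1) (m := 1) (n := 4) (by norm_num)
    rwa [← tt_succ, pow_one] at this
  have e6 := tt_pos (j + 1)
  unfold R1 th at h1
  rw [integral_add (td2_integrableOn (D.measurable_bet _) (D.td2_abs_bet _) sdiff_subset)
    (td2_integrableOn (D.measurable_bet _) (D.td2_abs_bet _) sdiff_subset)] at h1
  rw [pow_one] at e4
  linarith

/-- Segment lemma: along a segment with pivot `z` the field `v - v (y - x) / (z - x)`, which has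
norm `‖y - z‖ / ‖z - x‖`, loses little. -/
theorem seg {j l : ℕ} (hjl : j < l) (hl : l ≤ D.L) {x : ℂ} {r : ℝ} (hx : ‖x‖ ≤ 10)
    (hr : r ∈ Icc (1 / 4 : ℝ) 4) {z : ℂ} (hz : |‖z - x‖ - r| ≤ 2 * rr j) (h1 : D.R1 j x r z)
    (h2 : (∫ y in shell x r (5 * Dl j) \ ball z (2 * rr j), ‖D.G j y‖) ≤ th j)
    (hlight : ∀ b, j + 2 ≤ b → b < l → D.A b x r ≤ tt b)
    (hG : D.Gam0 l x r ≤ 1 / tt j ^ 32) :
    D.I j x r D.v (-(D.v / (z - x))) - 100 * tt (j + 1) ≤ D.I l x r D.v (-(D.v / (z - x))) := by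
  have hadm : Adm x r := ⟨by linarith [hr.1], by linarith [hr.2], by linarith [hr.2]⟩
  have hrr := td2_rr_le j
  have hrr0 := rr_pos j
  have hDr := td2_Dl_le_rr j
  have hD0 := Dl_pos j
  rw [_root_.abs_le] at hz
  have hzx : 1 / 5 ≤ ‖z - x‖ := by linarith [hr.1]
  have hzx0 : 0 < ‖z - x‖ := by linarith
  have hne : z - x ≠ 0 := norm_pos_iff.1 hzx0
  have hB : ‖-(D.v / (z - x))‖ ≤ 5 := by
    rw [norm_neg, norm_div, D.hv, div_le_iff₀ hzx0]
    linarith
  have hX : ∀ y, ‖D.v + -(D.v / (z - x)) * (y - x)‖ = ‖y - z‖ / ‖z - x‖ := by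
    intro y
    rw [show D.v + -(D.v / (z - x)) * (y - x) = -(D.v * (y - z) / (z - x)) by field_simp; ring,
      norm_neg, norm_div, norm_mul, D.hv, one_mul]
  have htri : ∀ y, ‖y - z‖ ≤ ‖y - x‖ + ‖z - x‖ := fun y => by
    rw [show y - z = y - x - (z - x) by ring]
    exact norm_sub_le _ _
  have hblock : ∀ b ∈ Finset.Ico j l, _ := fun b _ =>
    D.td2_block j b x r z (X := fun y => D.v + -(D.v / (z - x)) * (y - x)) (by fun_prop)
      (M := (r + 4 * Dl b + ‖z - x‖) / ‖z - x‖)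
      (fun y hy => by
        have h4 : |‖y - x‖ - r| ≤ 4 * Dl b := hy
        rw [hX]
        refine div_le_div_of_nonneg_right ?_ hzx0.le
        linarith [htri y, (_root_.abs_le.1 h4).2])
      (fun y hy => by
        rw [hX, div_le_iff₀ hzx0]
        linarith [htri y])
      (fun y hy => by
        rw [hX, div_le_iff₀ hzx0]
        nlinarith)
  have hsum := Finset.sum_le_sum hblock
  simp only [Finset.sum_neg_distrib, Finset.sum_add_distrib, ← Finset.mul_sum] at hsum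
  have htele := (_root_.abs_le.1 (D.tele hjl.le hl x r D.v (-(D.v / (z - x))))).1
  have hcomm := D.comm_le0 (j := j) hl hadm
  have hcomm0 : 0 ≤ ∑ b ∈ Finset.Ico j l, Dl b * D.N (b + 1) x r :=
    Finset.sum_nonneg fun b _ => mul_nonneg (Dl_pos b).le (D.N_nonneg _ x r)
  have hcomm1 := mul_le_mul_of_nonneg_right hB hcomm0
  have hY := D.Y1 hjl hl x r z (2 * rr j)
  have hbad := D.bad_away hjl h1 hlight
  have hset : ∫ y in shell x r (3 * Dl j) ∩ {y | 2 * rr j ≤ ‖y - z‖}, ‖D.G j y‖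
      ≤ ∫ y in shell x r (5 * Dl j) \ ball z (2 * rr j), ‖D.G j y‖ := by
    refine td2_set_mono (D.hGm j).norm (fun y => norm_nonneg _) (D.hGb j) (fun y hy => ?_)
      sdiff_subset
    refine ⟨td2_shell_mono x r (by linarith) hy.1, ?_⟩
    rw [mem_ball, dist_eq_norm, not_lt]
    exact hy.2
  have hGam : D.Gam j l x r ≤ 1 / tt j ^ 32 := (D.Gam_le_Gam0 j l x r).trans hG
  have hXi : D.Xi j l x r ≤ 4 / tt j ^ 16 := by
    have h4 := D.Xi0_le_of_light (m := j + 1) hl hadm fun b hb hb' => hlight b hb hb'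
    have h5 : tt (j + 1 + 1) = tt j ^ 16 := by rw [tt_succ, tt_succ, ← pow_mul]
    rw [h5] at h4
    refine le_trans ?_ h4
    refine le_add_of_nonneg_of_le (integral_nonneg fun y =>
      mul_nonneg (ramp_nonneg _) (D.bet_nonneg _ y)) ?_
    exact Finset.sum_le_sum_of_subset_of_nonneg (Finset.Ico_subset_Ico_left (Nat.zero_le j))
      fun b _ _ => integral_nonneg fun y => mul_nonneg (D.kap_nonneg b x r y) (D.bet_nonneg _ y)
  have ht := tt_pos j
  have n1 : rr j * D.Gam j l x r ≤ tt j ^ 8 := by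
    refine (mul_le_mul_of_nonneg_left hGam hrr0.le).trans (le_of_eq ?_)
    unfold rr
    field_simp
  have n2 : rr j * D.Xi j l x r ≤ 4 * tt j ^ 24 := by
    refine (mul_le_mul_of_nonneg_left hXi hrr0.le).trans (le_of_eq ?_)
    unfold rr
    field_simp
  have n3 : Dl j * D.Gam0 l x r ≤ tt j ^ 168 := by
    refine (mul_le_mul_of_nonneg_left hG hD0.le).trans (le_of_eq ?_)
    unfold Dl
    field_simp
  have n4 := tt_pow_le j (m := 4) (n := 8) (by norm_num)
  have n5 := tt_pow_le j (m := 4) (n := 24) (by norm_num)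
  have n6 := tt_pow_le j (m := 4) (n := 168) (by norm_num)
  have n7 := tt_pow_le j (m := 4) (n := 196) (by norm_num)
  have n8 := tt_pos (j + 1)
  rw [← tt_succ] at n4 n5 n6 n7
  unfold th at h2
  unfold Gam at n1
  unfold Xi at n2
  linarith

/-- Transfer lemma: no mass at level `l` on the circle away from the pivot of level `j`. -/
theorem transfer {j l : ℕ} (hjl : j < l) (hl : l ≤ D.L) {x : ℂ} {r : ℝ} {z : ℂ}
    (h1 : D.R1 j x r z)
    (h2 : (∫ y in shell x r (5 * Dl j) \ ball z (2 * rr j), ‖D.G j y‖) ≤ th j)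
    (hlight : ∀ b, j + 2 ≤ b → b < l → D.A b x r ≤ tt b) :
    (∫ y in shell x r (5 * Dl l) ∩ {y | 2 * rr j + 2 * Dl j ≤ ‖y - z‖}, ‖D.G l y‖)
      ≤ 20 * tt (j + 1) := by
  have hY := D.Y2 hjl hl x r z (2 * rr j)
  have hbad := D.bad_away hjl h1 hlight
  have hD0 := Dl_pos j
  have hset : ∫ y in shell x r (3 * Dl j) ∩ {y | 2 * rr j ≤ ‖y - z‖}, ‖D.G j y‖
      ≤ ∫ y in shell x r (5 * Dl j) \ ball z (2 * rr j), ‖D.G j y‖ := by
    refine td2_set_mono (D.hGm j).norm (fun y => norm_nonneg _) (D.hGb j) (fun y hy => ?_)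
      sdiff_subset
    refine ⟨td2_shell_mono x r (by linarith) hy.1, ?_⟩
    rw [mem_ball, dist_eq_norm, not_lt]
    exact hy.2
  obtain ⟨m, rfl⟩ : ∃ m, l = m + 1 := ⟨l - 1, by omega⟩
  have hm : m ∈ Finset.Ico j (m + 1) := Finset.mem_Ico.2 ⟨by omega, by omega⟩
  have h3 := Finset.single_le_sum (f := fun b =>
    ∫ y in shell x r (4 * Dl b) ∩ {y | 2 * rr j - Dl j ≤ ‖y - z‖}, D.bet (b + 1) y)
    (fun b _ => integral_nonneg fun y => D.bet_nonneg _ y) hm
  have h4 : ∫ y in shell x r (5 * Dl (m + 1)) ∩ {y | 2 * rr j + 2 * Dl j ≤ ‖y - z‖},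
      D.bet (m + 1) y
      ≤ ∫ y in shell x r (4 * Dl m) ∩ {y | 2 * rr j - Dl j ≤ ‖y - z‖}, D.bet (m + 1) y := by
    refine td2_set_mono (D.measurable_bet _) (D.bet_nonneg _) (D.bet_le _) (fun y hy => ?_)
      inter_subset_left
    have h5 := Dl_succ_le m
    have h6 := Dl_pos m
    have h7 : 2 * rr j + 2 * Dl j ≤ ‖y - z‖ := hy.2
    refine ⟨td2_shell_mono x r (by linarith) hy.1, ?_⟩
    change 2 * rr j - Dl j ≤ ‖y - z‖
    linarith
  simp only [← D.gam_add_bet (m + 1)]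
  rw [integral_add (td2_integrableOn (D.measurable_gam _) (D.td2_abs_gam _) inter_subset_left)
    (td2_integrableOn (D.measurable_bet _) (D.td2_abs_bet _) inter_subset_left)]
  have h8 := tt_pos (j + 1)
  unfold th at h2
  linarith

end TData

end Crest.Agent.R112
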