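import Crest.Agent.R112.TailDet2

/-! # Row 112: averaging over moving discs, the window lemma, the oscillation lemma (task T3) -/

open MeasureTheory Set Filter Topology Metric
open scoped ENNReal NNReal RealInnerProductSpace

namespace Crest.Agent.R112

theorem td3_meas_set (x w : ℂ) (r lam δ : ℝ) :
    MeasurableSet {p : ℝ × ℂ | p.2 ∈ shell (x + p.1 • w) (r + p.1 * lam) δ} := by
  exact (isClosed_le (f := fun p : ℝ × ℂ => |‖p.2 - (x + p.1 • w)‖ - (r + p.1 * lam)|)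
    (g := fun _ => δ) (by fun_prop) continuous_const).measurableSet

theorem td3_inner_eq (β : ℂ → ℝ≥0∞) (x w : ℂ) (r lam δ : ℝ) (U : Set ℂ) (s : ℝ) :
    ∫⁻ y in shell (x + s • w) (r + s * lam) δ ∩ U, β y =
      ∫⁻ y in U, {p : ℝ × ℂ | p.2 ∈ shell (x + p.1 • w) (r + p.1 * lam) δ}.indicator
        (fun p => β p.2) (s, y) := by
  rw [← Measure.restrict_restrict (measurableSet_shell _ _ _),
    ← lintegral_indicator (measurableSet_shell _ _ _)]
  rfl

theorem td3_meas_path (β : ℂ → ℝ≥0∞) (hβ : Measurable β) (x w : ℂ) (r lam δ : ℝ) (U : Set ℂ) :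
    Measurable fun s : ℝ => ∫⁻ y in shell (x + s • w) (r + s * lam) δ ∩ U, β y := by
  simp only [td3_inner_eq]
  exact Measurable.lintegral_prod_right'
    ((hβ.comp measurable_snd).indicator (td3_meas_set x w r lam δ))

theorem td3_intOn {F : ℂ → ℝ} (hm : Measurable F) {C : ℝ} (hC : ∀ y, |F y| ≤ C) {S : Set ℂ}
    {c : ℂ} {R : ℝ} (hS : S ⊆ closedBall c R) : IntegrableOn F S :=
  Measure.integrableOn_of_bounded
    ((measure_mono hS).trans_lt measure_closedBall_lt_top).ne hm.aestronglyMeasurable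
    (Eventually.of_forall hC)

theorem td3_shell_sub (x : ℂ) (r δ : ℝ) : shell x r δ ⊆ closedBall x (r + δ) := by
  intro y hy
  have := (_root_.abs_le.1 (show |‖y - x‖ - r| ≤ δ from hy)).2
  rw [mem_closedBall, dist_eq_norm]
  linarith

/-- a moving annulus whose radius grows faster than its centre moves sweeps each point during a
time at most `2 δ` -/
theorem lintegral_shell_path (β : ℂ → ℝ≥0∞) (hβ : Measurable β) (x w : ℂ) (r lam δ : ℝ)
    (h : ‖w‖ + 1 ≤ |lam|) (S : Set ℝ) (U : Set ℂ) (hU : MeasurableSet U) :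
    ∫⁻ s in S, ∫⁻ y in shell (x + s • w) (r + s * lam) δ ∩ U, β y
      ≤ ENNReal.ofReal (2 * δ) * ∫⁻ y in U, β y := by
  simp only [td3_inner_eq]
  rw [lintegral_lintegral_swap (f := fun s y =>
    {p : ℝ × ℂ | p.2 ∈ shell (x + p.1 • w) (r + p.1 * lam) δ}.indicator (fun p => β p.2) (s, y))
    ((hβ.comp measurable_snd).indicator (td3_meas_set x w r lam δ)).aemeasurable,
    ← lintegral_const_mul _ hβ]
  refine lintegral_mono fun y => ?_
  have hT : MeasurableSet {s : ℝ | y ∈ shell (x + s • w) (r + s * lam) δ} :=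
    measurable_prodMk_right (td3_meas_set x w r lam δ)
  have e : (fun s : ℝ => {p : ℝ × ℂ | p.2 ∈ shell (x + p.1 • w) (r + p.1 * lam) δ}.indicator
      (fun p => β p.2) (s, y)) =
      {s : ℝ | y ∈ shell (x + s • w) (r + s * lam) δ}.indicator fun _ => β y := by
    funext s; rfl
  rw [e, lintegral_indicator_const hT, mul_comm]
  refine mul_le_mul_left ?_ _
  refine (Measure.restrict_le_self _).trans ((Real.volume_le_diam _).trans
    (ediam_le_of_forall_dist_le fun s hs s' hs' => ?_))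
  have h1 := _root_.abs_le.1 (show |‖y - (x + s • w)‖ - (r + s * lam)| ≤ δ from hs)
  have h2 := _root_.abs_le.1 (show |‖y - (x + s' • w)‖ - (r + s' * lam)| ≤ δ from hs')
  have h3 := abs_norm_sub_norm_le (y - (x + s • w)) (y - (x + s' • w))
  have e3 : y - (x + s • w) - (y - (x + s' • w)) = (s' - s) • w := by module
  rw [e3, norm_smul, Real.norm_eq_abs, abs_sub_comm s' s, _root_.abs_le] at h3
  have h4 : |(s - s') * lam| ≤ 2 * δ + |s - s'| * ‖w‖ := by
    rw [_root_.abs_le]; constructor <;> nlinarith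
  rw [abs_mul] at h4
  rw [Real.dist_eq]
  nlinarith [mul_le_mul_of_nonneg_left h (abs_nonneg (s - s'))]

namespace TData

variable (D : TData)

theorem td3_normG_meas (b : ℕ) : Measurable fun y => ‖D.G b y‖ := (D.hGm b).norm

theorem td3_normG_le (b : ℕ) (y : ℂ) : |‖D.G b y‖| ≤ D.Mg := by
  rw [abs_norm]; exact D.hGb b y

theorem td3_bet_le (b : ℕ) (y : ℂ) : |D.bet b y| ≤ D.Mg := by
  rw [abs_of_nonneg (D.bet_nonneg b y)]; exact D.bet_le b y

/-- time average of the bad mass of a moving shell -/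
theorem td3_shell_avg {b : ℕ} (hb : b ≤ D.L) (x : ℂ) (r : ℝ) {σ : ℝ} (hσ : σ = 1 ∨ σ = -1)
    {δ : ℝ} (hδ : 0 ≤ δ) (S : Set ℝ) :
    IntegrableOn (fun s : ℝ => ∫ y in shell x (r + s * σ) δ ∩ ball 0 15, D.bet b y) S ∧
      ∫ s in S, ∫ y in shell x (r + s * σ) δ ∩ ball 0 15, D.bet b y ≤ 2 * δ * (1 / tt b) := by
  have hβ : Measurable fun y => ENNReal.ofReal (D.bet b y) := (D.measurable_bet b).ennreal_ofReal
  have e : ∀ U : Set ℂ, ∫ y in U, D.bet b y = (∫⁻ y in U, ENNReal.ofReal (D.bet b y)).toReal :=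
    fun U => integral_eq_lintegral_of_nonneg_ae (Eventually.of_forall (D.bet_nonneg b))
      (D.measurable_bet b).aestronglyMeasurable
  have h1 := lintegral_shell_path _ hβ x 0 r σ δ (by rcases hσ with rfl | rfl <;> simp) S
    (ball 0 15) measurableSet_ball
  have h2 := td3_meas_path _ hβ x 0 r σ δ (ball 0 15)
  simp only [smul_zero, add_zero] at h1 h2
  have h3 : ∫⁻ y in ball (0 : ℂ) 15, ENNReal.ofReal (D.bet b y) ≤ ENNReal.ofReal (1 / tt b) := by
    rw [← ofReal_integral_eq_lintegral_ofReal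
      (td3_intOn (D.measurable_bet b) (D.td3_bet_le b) ball_subset_closedBall)
      (Eventually.of_forall (D.bet_nonneg b))]
    exact ENNReal.ofReal_le_ofReal (D.bet_set_le hb Subset.rfl)
  have h4 := h1.trans (mul_le_mul_right h3 _)
  rw [← ENNReal.ofReal_mul (by positivity)] at h4
  have h5 := (h4.trans_lt ENNReal.ofReal_lt_top).ne
  simp only [e]
  refine ⟨integrable_toReal_of_lintegral_ne_top h2.aemeasurable h5, ?_⟩
  rw [integral_toReal h2.aemeasurable (ae_lt_top h2 h5)]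
  have := tt_pos b
  exact ENNReal.toReal_le_of_le_ofReal (by positivity) h4

theorem td3_I_smul (l : ℕ) (x : ℂ) (r σ : ℝ) : D.I l x r 0 σ = σ * D.I l x r 0 1 := by
  unfold TData.I
  rw [← integral_const_mul]
  refine integral_congr_ae (Eventually.of_forall fun y => ?_)
  simp only [zero_add, one_mul]
  rw [← Complex.real_smul, real_inner_smul_left]
  ring

/-- integrability of cut-off functionals -/
theorem td3_int {φ : ℂ → ℝ} (hφ : Measurable φ) (h1 : ∀ y, |φ y| ≤ 1) {x : ℂ} {R : ℝ}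
    (hs : ∀ y, R < ‖y - x‖ → φ y = 0) (b : ℕ) (B : ℂ) :
    Integrable fun y => φ y * ⟪0 + B * (y - x), D.G b y⟫ := by
  refine integrable_of_bdd_supp (C := ‖B‖ * R * D.Mg) (R := R) (x := x)
    (hφ.mul (Measurable.inner (by fun_prop) (D.hGm b))).aestronglyMeasurable (fun y hy => ?_)
    fun y hy => by rw [hs y hy, zero_mul]
  rw [abs_mul, zero_add]
  have h2 := abs_real_inner_le_norm (B * (y - x)) (D.G b y)
  rw [norm_mul] at h2
  have h3 := D.hGb b y
  have h4 : ‖B‖ * ‖y - x‖ * ‖D.G b y‖ ≤ ‖B‖ * R * D.Mg := by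
    have : 0 ≤ R := (norm_nonneg _).trans hy
    gcongr
  calc _ ≤ 1 * (‖B‖ * R * D.Mg) := mul_le_mul (h1 y) (h2.trans h4) (abs_nonneg _) zero_le_one
    _ = _ := one_mul _

theorem td3_int' {φ F : ℂ → ℝ} (hφ : Measurable φ) (h1 : ∀ y, |φ y| ≤ 1) {x : ℂ} {R : ℝ}
    (hs : ∀ y, R < ‖y - x‖ → φ y = 0) (hF : Measurable F) (h2 : ∀ y, |F y| ≤ D.Mg) :
    Integrable fun y => φ y * F y := by
  refine integrable_of_bdd_supp (C := D.Mg) (R := R) (x := x)
    (hφ.mul hF).aestronglyMeasurable (fun y _ => ?_) fun y hy => by rw [hs y hy, zero_mul]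
  rw [abs_mul]
  calc _ ≤ 1 * D.Mg := mul_le_mul (h1 y) (h2 y) (abs_nonneg _) zero_le_one
    _ = _ := one_mul _

theorem td3_chi_abs (b : ℕ) (x : ℂ) (r : ℝ) (y : ℂ) : |chi b x r y| ≤ 1 := by
  unfold chi
  rw [abs_of_nonneg (ramp_nonneg _)]; exact ramp_le_one _

theorem td3_chi_supp (b : ℕ) (x : ℂ) (r : ℝ) (y : ℂ) (h : r < ‖y - x‖) : chi b x r y = 0 :=
  chi_eq_zero (by linarith [Dl_pos b])

theorem td3_kap_abs (b : ℕ) (x : ℂ) (r : ℝ) (y : ℂ) : |D.kap b x r y| ≤ 1 := by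
  rw [abs_of_nonneg (D.kap_nonneg _ _ _ _)]; exact D.kap_le_one _ _ _ _

theorem td3_kap_supp (b : ℕ) (x : ℂ) (r : ℝ) (y : ℂ) (h : r < ‖y - x‖) : D.kap b x r y = 0 := by
  by_contra h'
  linarith [(D.kap_supp h').1]

/-- moving the radius by at most `Dl l ^ 2` -/
theorem td3_move {l : ℕ} (hl : l < D.L) (x : ℂ) {r ρ : ℝ} (hr : r ≤ 5)
    (hρ : |ρ - r| ≤ Dl l ^ 2) :
    D.N l x ρ ≤ D.N (l + 1) x r ∧
      |D.I l x ρ 0 1 - D.I l x r 0 1| ≤ 5 * Dl l * D.N (l + 1) x r := by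
  have hd := Dl_pos l
  have hd1 := Dl_le l
  have hρ' := _root_.abs_le.1 hρ
  have hw : Dl l ^ 2 ≤ Dl l / 2 := by nlinarith
  have hB := D.inner_le_succ hl x r
  rw [← integral_indicator measurableSet_ball] at hB
  have hI : Integrable ((ball x (r - 3 / 2 * Dl l)).indicator fun y => ‖D.G l y‖) :=
    (integrable_indicator_iff measurableSet_ball).2
      (td3_intOn (D.td3_normG_meas l) (D.td3_normG_le l) ball_subset_closedBall)
  have hz : ∀ y, y ∉ ball x (r - 3 / 2 * Dl l) → chi l x ρ y = 0 ∧ chi l x r y = 0 := by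
    intro y hy
    rw [mem_ball, dist_eq_norm, not_lt] at hy
    exact ⟨chi_eq_zero (by linarith), chi_eq_zero (by linarith)⟩
  constructor
  · refine le_trans (integral_mono_of_nonneg (Eventually.of_forall fun y => ?_) hI
      (Eventually.of_forall fun y => ?_)) hB
    · exact mul_nonneg (ramp_nonneg _) (norm_nonneg _)
    · by_cases hy : y ∈ ball x (r - 3 / 2 * Dl l)
      · rw [indicator_of_mem hy]
        exact mul_le_of_le_one_left (norm_nonneg _) (ramp_le_one _)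
      · rw [indicator_of_notMem hy]
        simp [(hz y hy).1]
  · unfold TData.I
    rw [← integral_sub
      (D.td3_int (continuous_chi l x ρ).measurable (td3_chi_abs l x ρ) (td3_chi_supp l x ρ) l 1)
      (D.td3_int (continuous_chi l x r).measurable (td3_chi_abs l x r) (td3_chi_supp l x r) l 1)]
    refine le_trans ?_ (mul_le_mul_of_nonneg_left hB (by positivity))
    rw [← integral_const_mul, ← Real.norm_eq_abs]
    refine norm_integral_le_of_norm_le (hI.const_mul _) (Eventually.of_forall fun y => ?_)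
    by_cases hy : y ∈ ball x (r - 3 / 2 * Dl l)
    · rw [indicator_of_mem hy, ← sub_mul, Real.norm_eq_abs, abs_mul, zero_add, one_mul]
      rw [mem_ball, dist_eq_norm] at hy
      have h1 : |chi l x ρ y - chi l x r y| ≤ Dl l := by
        refine (ramp_lip _ _).trans ?_
        rw [← sub_div, abs_div, abs_of_pos hd, div_le_iff₀ hd, ← sq]
        rwa [sub_sub_sub_cancel_right]
      have h2 := abs_real_inner_le_norm (y - x) (D.G l y)
      have h3 : ‖y - x‖ * ‖D.G l y‖ ≤ 5 * ‖D.G l y‖ :=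
        mul_le_mul_of_nonneg_right (by linarith) (norm_nonneg _)
      calc _ ≤ Dl l * (5 * ‖D.G l y‖) := mul_le_mul h1 (h2.trans h3) (abs_nonneg _) hd.le
        _ = _ := by ring
    · rw [indicator_of_notMem hy, (hz y hy).1, (hz y hy).2]
      simp

/-- the shell terms -/
theorem td3_shell_term {l b : ℕ} (hlb : l ≤ b) {x : ℂ} {r ρ : ℝ} (hρ5 : ρ ≤ 5)
    (hρ : |ρ - r| ≤ Dl l ^ 2) {σ : ℝ} (hσ : σ = 1 ∨ σ = -1) (z : ℂ) (a : ℝ)
    (hhelp : ∀ y ∈ shell x r (5 * Dl l), ‖y - z‖ < a + 2 * Dl l →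
      Pos D.e (1 / 20) ((σ : ℂ) * (y - x))) :
    1 / 20 * (∫ y, D.kap b x ρ y * D.gam (b + 1) y)
      - 101 / 20 * (∫ y in {y | a + 2 * Dl l ≤ ‖y - z‖}, D.kap b x ρ y * D.gam (b + 1) y)
      - 5 * (∫ y, D.kap b x ρ y * D.bet (b + 1) y)
      ≤ ∫ y, D.kap b x ρ y * ⟪0 + (σ : ℂ) * (y - x), D.G (b + 1) y⟫ := by
  have hd := Dl_pos l
  have hd1 := Dl_le l
  have hρ' := _root_.abs_le.1 hρ
  have hw : Dl l ^ 2 ≤ Dl l / 2 := by nlinarith
  have hm : MeasurableSet {y : ℂ | a + 2 * Dl l ≤ ‖y - z‖} :=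
    (isClosed_le continuous_const (by fun_prop)).measurableSet
  have i1 := D.td3_int' (D.measurable_kap b x ρ) (D.td3_kap_abs b x ρ) (D.td3_kap_supp b x ρ)
    (D.measurable_gam (b + 1)) fun y => by
      rw [abs_of_nonneg (D.gam_nonneg _ y)]; exact D.gam_le _ y
  have i2 := D.td3_int' (D.measurable_kap b x ρ) (D.td3_kap_abs b x ρ) (D.td3_kap_supp b x ρ)
    (D.measurable_bet (b + 1)) (D.td3_bet_le _)
  rw [← integral_indicator hm, ← integral_const_mul, ← integral_const_mul, ← integral_const_mul,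
    ← integral_sub (i1.const_mul _) ((i1.indicator hm).const_mul _),
    ← integral_sub ((i1.const_mul _).sub' ((i1.indicator hm).const_mul _)) (i2.const_mul _)]
  refine integral_mono (((i1.const_mul _).sub ((i1.indicator hm).const_mul _)).sub
    (i2.const_mul _)) (D.td3_int (D.measurable_kap b x ρ) (D.td3_kap_abs b x ρ)
      (D.td3_kap_supp b x ρ) _ _) fun y => ?_
  simp only [zero_add]
  by_cases hk : D.kap b x ρ y = 0
  · simp [indicator, hk]
  obtain ⟨k1, k2⟩ := D.kap_supp hk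
  have k0 := D.kap_nonneg b x ρ y
  have hX : ‖(σ : ℂ) * (y - x)‖ ≤ 5 := by
    rw [norm_mul]
    rcases hσ with rfl | rfl <;> simp <;> linarith
  have g0 := D.gam_nonneg (b + 1) y
  have b0 := D.bet_nonneg (b + 1) y
  by_cases hy : y ∈ {y : ℂ | a + 2 * Dl l ≤ ‖y - z‖}
  · rw [indicator_of_mem hy]
    have h2 := (_root_.abs_le.1 (abs_real_inner_le_norm ((σ : ℂ) * (y - x)) (D.G (b + 1) y))).1
    rw [← D.gam_add_bet] at h2
    have h3 : -(5 * (D.gam (b + 1) y + D.bet (b + 1) y)) ≤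
        ⟪(σ : ℂ) * (y - x), D.G (b + 1) y⟫ := by nlinarith
    nlinarith [mul_le_mul_of_nonneg_left h3 k0]
  · rw [indicator_of_notMem hy]
    have hDb : Dl b ≤ Dl l := Dl_anti hlb
    have hs : y ∈ shell x r (5 * Dl l) := by
      show |‖y - x‖ - r| ≤ 5 * Dl l
      rw [_root_.abs_le]; constructor <;> linarith
    have h2 := Pos.inner_ge (p := D.G (b + 1) y) D.hK (hhelp y hs (not_le.1 hy))
    have h3 : 1 / 20 * D.gam (b + 1) y - 5 * D.bet (b + 1) y ≤
        ⟪(σ : ℂ) * (y - x), D.G (b + 1) y⟫ := by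
      refine le_trans ?_ h2
      have : ‖(σ : ℂ) * (y - x)‖ * D.bet (b + 1) y ≤ 5 * D.bet (b + 1) y :=
        mul_le_mul_of_nonneg_right hX b0
      exact sub_le_sub_left this _
    nlinarith [mul_le_mul_of_nonneg_left h3 k0]

/-- the lower bound for the radial slope at a nearby radius -/
theorem td3_slope {l : ℕ} (hl : l + 1 < D.L) {x : ℂ} {r ρ : ℝ} (hx : ‖x‖ ≤ 10)
    (hr : r ∈ Icc (1 / 4 : ℝ) 4) (hρ : |ρ - r| ≤ Dl l ^ 2) {σ : ℝ} (hσ : σ = 1 ∨ σ = -1)
    (z : ℂ) (a : ℝ)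
    (hhelp : ∀ y ∈ shell x r (5 * Dl l), ‖y - z‖ < a + 2 * Dl l →
      Pos D.e (1 / 20) ((σ : ℂ) * (y - x))) :
    σ * D.I l x r 0 1 - 8 * (Dl l * D.N (l + 1) x r)
      - 7 * (∫ y in shell x r (5 * Dl l) ∩ {y | a ≤ ‖y - z‖}, ‖D.G l y‖) - 24 * D.A l x r
      - 6 * tt l - 24 * ∑ b ∈ Finset.Ico (l + 1) D.L,
        ∫ y in shell x ρ (4 * Dl b) ∩ ball 0 15, D.bet (b + 1) y
      ≤ ∫ y in ball x ρ, ⟪0 + (σ : ℂ) * (y - x), D.g y⟫ := by
  have hd := Dl_pos l
  have hd1 := Dl_le l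
  have hρ' := _root_.abs_le.1 hρ
  have hw : Dl l ^ 2 ≤ Dl l / 2 := by nlinarith
  have hρ5 : ρ ≤ 5 := by linarith [hr.2]
  have hadm : Adm x ρ := ⟨by linarith [hr.1], by linarith, by linarith [hr.2]⟩
  have hσn : ‖(σ : ℂ)‖ = 1 := by rcases hσ with rfl | rfl <;> simp
  have h1 := (_root_.abs_le.1 (D.end_le hadm (A := 0) (B := σ) (M := 5) fun y hy => by
    rw [zero_add, norm_mul, hσn]; linarith)).1
  have h2 := (_root_.abs_le.1 (D.tele (j := l) (by omega) le_rfl x ρ 0 σ)).1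
  rw [hσn, one_mul] at h2
  have h3 := D.comm_le (j := l) (by omega) le_rfl hadm
  obtain ⟨h4, h5⟩ := D.td3_move (by omega : l < D.L) x (by linarith [hr.2]) hρ
  have h6 : σ * D.I l x r 0 1 - 5 * Dl l * D.N (l + 1) x r ≤ D.I l x ρ 0 σ := by
    rw [td3_I_smul]
    have := _root_.abs_le.1 h5
    rcases hσ with rfl | rfl <;> linarith
  have h7 := Finset.sum_le_sum (s := Finset.Ico l D.L) fun b hb =>
    D.td3_shell_term (Finset.mem_Ico.1 hb).1 hρ5 hρ hσ z a hhelp
  rw [Finset.sum_sub_distrib, Finset.sum_sub_distrib, ← Finset.mul_sum, ← Finset.mul_sum,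
    ← Finset.mul_sum] at h7
  have h8 := D.Y1 (j := l) (by omega) le_rfl x ρ z a
  have hib : ∀ b δ, IntegrableOn (D.bet b) (shell x ρ δ) := fun b δ =>
    td3_intOn (D.measurable_bet b) (D.td3_bet_le b) (td3_shell_sub _ _ _)
  have h9 : (∫ y in shell x ρ (3 * Dl l) ∩ {y | a ≤ ‖y - z‖}, ‖D.G l y‖)
      ≤ ∫ y in shell x r (5 * Dl l) ∩ {y | a ≤ ‖y - z‖}, ‖D.G l y‖ := by
    refine setIntegral_mono_set (td3_intOn (D.td3_normG_meas l) (D.td3_normG_le l)
      (inter_subset_left.trans (td3_shell_sub _ _ _)))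
      (Eventually.of_forall fun y => norm_nonneg _) (LE.le.eventuallyLE ?_)
    refine inter_subset_inter_left _ fun y hy => ?_
    have := _root_.abs_le.1 (show |‖y - x‖ - ρ| ≤ 3 * Dl l from hy)
    show |‖y - x‖ - r| ≤ 5 * Dl l
    rw [_root_.abs_le]; constructor <;> linarith
  have h10 : ∑ b ∈ Finset.Ico l D.L,
      ∫ y in shell x ρ (4 * Dl b) ∩ {y | a - Dl l ≤ ‖y - z‖}, D.bet (b + 1) y ≤
      ∑ b ∈ Finset.Ico l D.L, ∫ y in shell x ρ (4 * Dl b), D.bet (b + 1) y :=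
    Finset.sum_le_sum fun b _ => setIntegral_mono_set (hib _ _)
      (Eventually.of_forall (D.bet_nonneg _)) inter_subset_left.eventuallyLE
  have h11 : ∑ b ∈ Finset.Ico l D.L, ∫ y, D.kap b x ρ y * D.bet (b + 1) y ≤
      ∑ b ∈ Finset.Ico l D.L, ∫ y in shell x ρ (4 * Dl b), D.bet (b + 1) y :=
    Finset.sum_le_sum fun b _ => D.kap_bet_le_shell b x ρ
  have h12 : ∑ b ∈ Finset.Ico l D.L, ∫ y in shell x ρ (4 * Dl b), D.bet (b + 1) y ≤
      D.A l x r + ∑ b ∈ Finset.Ico (l + 1) D.L,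
        ∫ y in shell x ρ (4 * Dl b) ∩ ball 0 15, D.bet (b + 1) y := by
    rw [Finset.sum_eq_sum_Ico_succ_bot (by omega : l < D.L)]
    refine add_le_add ?_ (le_of_eq (Finset.sum_congr rfl fun b _ => ?_))
    · refine setIntegral_mono_set (td3_intOn (D.measurable_bet _) (D.td3_bet_le _)
        (td3_shell_sub _ _ _)) (Eventually.of_forall (D.bet_nonneg _))
        (LE.le.eventuallyLE fun y hy => ?_)
      have := _root_.abs_le.1 (show |‖y - x‖ - ρ| ≤ 4 * Dl l from hy)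
      show |‖y - x‖ - r| ≤ 5 * Dl l
      rw [_root_.abs_le]; constructor <;> linarith
    · rw [inter_eq_left.2 (shell_subset_ball hadm (by linarith [Dl_le b]))]
  have h13 : tt D.L ≤ tt l := tt_anti (by omega)
  have h14 : tt l ^ 196 ≤ tt l / 10 ^ 12 := by
    simpa using tt_pow_le l (m := 1) (n := 196) (by norm_num)
  have h15 := tt_pos l
  have h16 := D.Gam_nonneg l D.L x ρ
  have h17 : 0 ≤ ∫ y in shell x r (5 * Dl l) ∩ {y | a ≤ ‖y - z‖}, ‖D.G l y‖ :=
    integral_nonneg fun y => norm_nonneg _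
  have h18 : 0 ≤ ∑ b ∈ Finset.Ico l D.L, ∫ y in shell x ρ (4 * Dl b), D.bet (b + 1) y :=
    Finset.sum_nonneg fun b _ => integral_nonneg (D.bet_nonneg _)
  have h19 := mul_le_mul_of_nonneg_left h4 hd.le
  have h20 : 0 ≤ Dl l * D.N (l + 1) x r := mul_nonneg hd.le (D.N_nonneg _ _ _)
  have h21 : Dl l * D.Gam l D.L x ρ ≤ 1 / 10 ^ 12 * D.Gam l D.L x ρ :=
    mul_le_mul_of_nonneg_right hd1 h16
  unfold TData.Gam at h3 h16 h21
  linarith

/-- Window lemma.  `σ = ±1`.  If `avg f x (r + σ w) ≤ avg f x r` with `w = Dl l ^ 2`, then the inner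
slope at level `l` is controlled by the mass of `G l` near the circle outside the helpful region. -/
theorem window {l : ℕ} (hl : l + 1 < D.L) {x : ℂ} {r : ℝ} (hx : ‖x‖ ≤ 10)
    (hr : r ∈ Icc (1 / 4 : ℝ) 4) {σ : ℝ} (hσ : σ = 1 ∨ σ = -1)
    (hopt : avg D.f x (r + σ * Dl l ^ 2) ≤ avg D.f x r) (z : ℂ) (a : ℝ)
    (hhelp : ∀ y ∈ shell x r (5 * Dl l), ‖y - z‖ < a + 2 * Dl l →
      Pos D.e (1 / 20) ((σ : ℂ) * (y - x))) :
    σ * D.I l x r 0 1
      ≤ 30 * ((∫ y in shell x r (5 * Dl l) ∩ {y | a ≤ ‖y - z‖}, ‖D.G l y‖)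
          + D.A l x r + Dl l * D.N (l + 1) x r + tt l) := by
  have hd := Dl_pos l
  have hd1 := Dl_le l
  have ht := tt_pos l
  have hw0 : 0 < Dl l ^ 2 := by positivity
  have hw : Dl l ^ 2 ≤ Dl l / 2 := by nlinarith
  set μ := ∫ y in shell x r (5 * Dl l) ∩ {y | a ≤ ‖y - z‖}, ‖D.G l y‖ with hμ
  have hμ0 : 0 ≤ μ := integral_nonneg fun y => norm_nonneg _
  have hA0 := D.A_nonneg l x r
  have hN0 : 0 ≤ Dl l * D.N (l + 1) x r := mul_nonneg hd.le (D.N_nonneg _ _ _)
  set L0 := σ * D.I l x r 0 1 - 8 * (Dl l * D.N (l + 1) x r) - 7 * μ - 24 * D.A l x r - 6 * tt l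
    with hL0
  suffices h : L0 ≤ tt l by linarith
  by_contra hcon
  have hL : 0 < L0 := by linarith
  set α : ℝ → ℝ := fun s => ∑ b ∈ Finset.Ico (l + 1) D.L,
    ∫ y in shell x (r + s * σ) (4 * Dl b) ∩ ball 0 15, D.bet (b + 1) y with hα
  have hav := fun b (hb : b ∈ Finset.Ico (l + 1) D.L) => D.td3_shell_avg (b := b + 1)
    (Finset.mem_Ico.1 hb).2 x r hσ (δ := 4 * Dl b) (by linarith [Dl_pos b]) (Ioc 0 (Dl l ^ 2))
  have hαi : IntegrableOn α (Ioc 0 (Dl l ^ 2)) := integrable_finset_sum _ fun b hb => (hav b hb).1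
  have hαI : ∫ s in Ioc 0 (Dl l ^ 2), α s ≤ 16 * tt l ^ 784 := by
    rw [hα, integral_finset_sum _ fun b hb => (hav b hb).1]
    refine (Finset.sum_le_sum fun b hb => (hav b hb).2).trans ?_
    have e : ∀ b, 2 * (4 * Dl b) * (1 / tt (b + 1)) = 8 * tt b ^ 196 := fun b => by
      have := tt_pos b
      rw [tt_succ, Dl]; field_simp; ring
    simp only [e]
    rw [← Finset.mul_sum]
    have := sum_tt_pow_le (l + 1) D.L 196 (by norm_num)
    rw [tt_succ, ← pow_mul, show 4 * 196 = 784 by norm_num] at this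
    linarith
  have hFc : Continuous fun s : ℝ => davg D.g (x + s • (0 : ℂ)) (r + s * σ) 0 σ :=
    (continuous_davg D.hg 0 σ).comp (f := fun s : ℝ => (x + s • (0 : ℂ), r + s * σ)) (by fun_prop)
  have hftc := intervalIntegral.integral_eq_sub_of_hasDerivAt (a := 0) (b := Dl l ^ 2)
    (fun s _ => hasDerivAt_avg D.hf D.hg x 0 r σ s) (hFc.intervalIntegrable _ _)
  rw [intervalIntegral.integral_of_le hw0.le] at hftc
  simp only [smul_zero, add_zero, zero_mul] at hftc hFc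
  rw [mul_comm (Dl l ^ 2) σ] at hftc
  have hpi := Real.pi_pos
  have hpt : ∀ s ∈ Ioc 0 (Dl l ^ 2),
      (L0 / 125 - 3000 * α s) / Real.pi ≤ davg D.g x (r + s * σ) 0 σ := by
    intro s hs
    have hρ : |r + s * σ - r| ≤ Dl l ^ 2 := by
      rw [add_sub_cancel_left, abs_mul, abs_of_pos hs.1]
      rcases hσ with rfl | rfl <;> simpa using hs.2
    have h1 := D.td3_slope hl hx hr hρ hσ z a hhelp
    set ρ := r + s * σ with hρdef
    have hρ' := _root_.abs_le.1 hρ
    have hρ1 : 1 / 5 ≤ ρ := by linarith [hr.1]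
    have hρ5 : ρ ≤ 5 := by linarith [hr.2]
    have hρ0 : 0 < ρ := by linarith
    have e : ∫ y in ball x ρ, ⟪0 + (σ / ρ) • (y - x), D.g y⟫
        = ρ⁻¹ * ∫ y in ball x ρ, ⟪0 + (σ : ℂ) * (y - x), D.g y⟫ := by
      rw [← integral_const_mul]
      refine integral_congr_ae (Eventually.of_forall fun y => ?_)
      simp only [zero_add]
      rw [← Complex.real_smul, real_inner_smul_left, real_inner_smul_left]
      ring
    rw [davg_eq_ball D.g x hρ0, e]
    have hα0 : 0 ≤ α s := Finset.sum_nonneg fun b _ => integral_nonneg (D.bet_nonneg _)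
    have h2 : L0 - 24 * α s ≤ ∫ y in ball x ρ, ⟪0 + (σ : ℂ) * (y - x), D.g y⟫ := h1
    have h3 : ρ ^ 3 ≤ 5 ^ 3 := pow_le_pow_left₀ hρ0.le hρ5 3
    have h4 : (1 / 5) ^ 3 ≤ ρ ^ 3 := pow_le_pow_left₀ (by norm_num) hρ1 3
    rw [div_le_div_iff₀ hpi (by positivity), mul_comm Real.pi, ← mul_assoc]
    refine mul_le_mul_of_nonneg_right ?_ hpi.le
    rw [inv_mul_eq_div, le_div_iff₀ hρ0]
    refine le_trans ?_ h2
    nlinarith [mul_le_mul_of_nonneg_left h3 hL.le, mul_le_mul_of_nonneg_left h4 hα0]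
  have hci : Integrable (fun _ : ℝ => L0 / 125) (volume.restrict (Ioc 0 (Dl l ^ 2))) :=
    continuous_const.integrableOn_Ioc
  have hmono := setIntegral_mono_on ((hci.sub (hαi.const_mul 3000)).div_const Real.pi)
    (hFc.integrableOn_Ioc) measurableSet_Ioc hpt
  simp only [Pi.sub_apply] at hmono
  rw [hftc, integral_div, integral_sub hci (hαi.const_mul 3000),
    integral_const_mul, setIntegral_const] at hmono
  have hvol : (volume : Measure ℝ).real (Ioc 0 (Dl l ^ 2)) = tt l ^ 400 := by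
    rw [Real.volume_real_Ioc_of_le hw0.le, sub_zero, Dl, ← pow_mul]
  rw [hvol, smul_eq_mul] at hmono
  have h5 := hmono.trans (sub_nonpos.2 hopt)
  rw [div_nonpos_iff] at h5
  have h6 : tt l ^ 400 * (L0 / 125) - 3000 * ∫ s in Ioc 0 (Dl l ^ 2), α s ≤ 0 := by
    rcases h5 with h | h
    · linarith [h.2]
    · exact h.1
  have h7 : tt l ^ 784 ≤ tt l ^ 401 / 10 ^ 12 := tt_pow_le l (by norm_num)
  have h8 : tt l ^ 401 ≤ tt l ^ 400 * L0 := by
    rw [pow_succ]
    exact mul_le_mul_of_nonneg_left (by linarith) (by positivity)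
  have h9 : 0 < tt l ^ 401 := by positivity
  have h10 : tt l ^ 400 * (L0 / 125) = tt l ^ 400 * L0 / 125 := by ring
  rw [h10] at h6
  generalize tt l ^ 400 * L0 = u at h6 h8
  generalize tt l ^ 401 = v at h7 h8 h9
  generalize tt l ^ 784 = w at h7 hαI
  linarith

end TData

end Crest.Agent.R112
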