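import Crest.Agent.R112.TailDet3

/-! # Row 112: the deterministic part of the tail lemma (task T4) -/

open MeasureTheory Set Filter Topology Metric
open scoped ENNReal NNReal RealInnerProductSpace

namespace Crest.Agent.R112

theorem inner_ofReal_mul_t4 (s : ℝ) (u n : ℂ) : ⟪(s : ℂ) * u, n⟫ = s * ⟪u, n⟫ := by
  rw [← Complex.real_smul, real_inner_smul_left]

theorem div_re_eq_t4 (v w : ℂ) : (v / w).re = ⟪v, w⟫ / ‖w‖ ^ 2 := by
  rw [Complex.div_re, Complex.inner, Complex.sq_norm]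
  simp only [Complex.mul_re, Complex.conj_re, Complex.conj_im]
  ring

theorem rr_le_t4 (b : ℕ) : rr b ≤ 1 / 10 ^ 12 := by
  have := tt_pow_le b (m := 0) (n := 40) (by norm_num)
  simpa [rr] using this

theorem Dl_le_rr_t4 (b : ℕ) : Dl b ≤ rr b / 10 ^ 12 := tt_pow_le b (by norm_num)

theorem rr_succ_le_t4 (b : ℕ) : rr (b + 1) ≤ rr b / 10 ^ 12 := by
  have : rr (b + 1) = tt b ^ 160 := by unfold rr; rw [tt_succ]; ring
  rw [this]; exact tt_pow_le b (by norm_num)

theorem rr_anti_t4 : Antitone rr := fun _ _ h => pow_le_pow_left₀ (tt_pos _).le (tt_anti h) _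

theorem adm_of_t4 {x : ℂ} {r : ℝ} (hx : ‖x‖ ≤ 10) (hr : r ∈ Icc (1 / 4 : ℝ) 4) : Adm x r :=
  ⟨by linarith [hr.1], by linarith [hr.2], by linarith [hr.2]⟩

theorem integrableOn_shell_t4 {F : ℂ → ℝ} (hF : Measurable F) {C : ℝ} (hb : ∀ y, |F y| ≤ C)
    (x : ℂ) (r δ : ℝ) : IntegrableOn F (shell x r δ) := by
  refine Measure.integrableOn_of_bounded (M := C) ?_ hF.aestronglyMeasurable
    (Eventually.of_forall fun y => by simpa using hb y)
  have : shell x r δ ⊆ closedBall x (r + δ) := by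
    intro y hy
    rw [mem_closedBall, dist_eq_norm]
    have := (_root_.abs_le.1 (show |‖y - x‖ - r| ≤ δ from hy)).2
    linarith
  exact ((measure_mono this).trans_lt measure_closedBall_lt_top).ne

theorem shell_mono_t4 (x : ℂ) (r : ℝ) {δ δ' : ℝ} (h : δ ≤ δ') : shell x r δ ⊆ shell x r δ' :=
  fun _ hy => le_trans hy h

/-- integral of a nonnegative function over a set covered by two sets -/
theorem setIntegral_le_add_t4 {F : ℂ → ℝ} (h0 : ∀ y, 0 ≤ F y) {S A B : Set ℂ}
    (hA : MeasurableSet A) (hB : MeasurableSet B) (hiA : IntegrableOn F A) (hiB : IntegrableOn F B)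
    (h : S ⊆ A ∪ B) : ∫ y in S, F y ≤ (∫ y in A, F y) + ∫ y in B, F y := by
  have h1 : ∫ y in S, F y ≤ ∫ y in A ∪ (B \ A), F y := by
    apply setIntegral_mono_set (hiA.union (hiB.mono_set sdiff_subset))
      (Eventually.of_forall h0)
    apply LE.le.eventuallyLE
    rw [union_sdiff_self]; exact h
  rw [setIntegral_union disjoint_sdiff_right (hB.diff hA) hiA (hiB.mono_set sdiff_subset)] at h1
  have h2 : ∫ y in B \ A, F y ≤ ∫ y in B, F y :=
    setIntegral_mono_set hiB (Eventually.of_forall h0) sdiff_subset.eventuallyLE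
  linarith

namespace TData

variable (D : TData)

theorem pos_v_t4 : Pos D.e (19 / 20) D.v := by
  intro n hn hne
  have h1 : ‖D.v - n‖ ≤ 3 / 10 := by
    calc ‖D.v - n‖ = ‖(D.v - D.e) - (n - D.e)‖ := by congr 1; ring
      _ ≤ ‖D.v - D.e‖ + ‖n - D.e‖ := norm_sub_le _ _
      _ ≤ 3 / 10 := by linarith [D.hve]
  have h2 := norm_sub_sq_real D.v n
  rw [D.hv, hn] at h2
  nlinarith [norm_nonneg (D.v - n)]

theorem integrableOn_bet_t4 (b : ℕ) (x : ℂ) (r δ : ℝ) : IntegrableOn (D.bet b) (shell x r δ) :=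
  integrableOn_shell_t4 (D.measurable_bet b) (C := D.Mg)
    (fun y => by rw [abs_of_nonneg (D.bet_nonneg b y)]; exact D.bet_le b y) x r δ

theorem integrableOn_normG_t4 (b : ℕ) (x : ℂ) (r δ : ℝ) :
    IntegrableOn (fun y => ‖D.G b y‖) (shell x r δ) :=
  integrableOn_shell_t4 (D.hGm b).norm (C := D.Mg)
    (fun y => by rw [abs_of_nonneg (norm_nonneg _)]; exact D.hGb b y) x r δ

theorem Dl_N_le_t4 {l : ℕ} (hl : l + 1 ≤ D.L) {x : ℂ} {r : ℝ} (h : Adm x r)
    (hG : D.Gam0 (l + 1) x r ≤ 1 / tt l ^ 32) : Dl l * D.N (l + 1) x r ≤ tt l := by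
  have h1 := D.N_le0 hl h
  have h0 := tt_pos l
  have hD := Dl_pos l
  rw [tt_succ] at h1
  have h2 : D.N (l + 1) x r ≤ 5 / 4 * (1 / tt l ^ 32) + 6 / tt l ^ 4 := by linarith
  have h3 : Dl l * (5 / 4 * (1 / tt l ^ 32) + 6 / tt l ^ 4)
      = 5 / 4 * tt l ^ 168 + 6 * tt l ^ 196 := by
    unfold Dl; field_simp
  have h4 := tt_pow_le l (m := 1) (n := 168) (by norm_num)
  have h5 := tt_pow_le l (m := 1) (n := 196) (by norm_num)
  rw [pow_one] at h4 h5
  calc Dl l * D.N (l + 1) x r ≤ Dl l * (5 / 4 * (1 / tt l ^ 32) + 6 / tt l ^ 4) := by gcongr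
    _ = _ := h3
    _ ≤ tt l := by linarith

/-- the functional of the pivot field in terms of the slope -/
theorem I_pivot_t4 {l : ℕ} (hl : l ≤ D.L) (x : ℂ) (r : ℝ) (z : ℂ) :
    D.I l x r D.v (-(D.v / (z - x)))
      = D.I l x r D.v 0 - (D.v / (z - x)).re * D.I l x r 0 1 := by
  rw [D.I_split hl x r D.v (-(D.v / (z - x))), Complex.neg_re]; ring

/-- termination lemma -/
theorem term {l : ℕ} (hl : l + 1 < D.L) {x : ℂ} {r : ℝ} (hx : ‖x‖ ≤ 10)
    (hr : r ∈ Icc (1 / 4 : ℝ) 4) {z : ℂ} (hz : |‖z - x‖ - r| ≤ 2 * rr l)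
    (h2 : (∫ y in shell x r (5 * Dl l) \ ball z (2 * rr l), ‖D.G l y‖) ≤ th l)
    (hopt : ∀ σ : ℝ, σ = 1 ∨ σ = -1 → avg D.f x (r + σ * Dl l ^ 2) ≤ avg D.f x r)
    (hG : D.Gam0 (l + 1) x r ≤ 1 / tt l ^ 32) {X : ℝ} (hX : 1 ≤ X) (hXi : D.Xi0 l x r ≤ X)
    (hA : D.A l x r ≤ X) :
    1 / 40 * D.Gam0 l x r - 1000 * X ≤ D.I l x r D.v (-(D.v / (z - x))) := by
  have hadm := adm_of_t4 hx hr
  have hlL : l ≤ D.L := by omega
  have hrr := rr_le_t4 l
  have hrr0 := rr_pos l
  have hG0 := D.Gam0_nonneg l x r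
  obtain ⟨hz1, hz2⟩ := _root_.abs_le.1 hz
  set w := z - x with hw
  set ρ := ‖w‖ with hρ
  have hρ1 : 1 / 5 ≤ ρ := by linarith [hr.1]
  have hρ0 : 0 < ρ := by linarith
  set p := (D.v / w).re with hp
  have hp' : p = ⟪D.v, w⟫ / ρ ^ 2 := div_re_eq_t4 _ _
  have hve : |⟪D.v, w⟫ - ⟪D.e, w⟫| ≤ ρ / 10 := by
    rw [← inner_sub_left]
    calc |⟪D.v - D.e, w⟫| ≤ ‖D.v - D.e‖ * ‖w‖ := abs_real_inner_le_norm _ _
      _ ≤ 1 / 10 * ρ := by gcongr; exact D.hve
      _ = ρ / 10 := by ring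
  rw [D.I_pivot_t4 hlL]
  change _ ≤ D.I l x r D.v 0 - p * D.I l x r 0 1
  by_cases hpole : |⟪D.e, w⟫| ≤ ρ / 2
  · -- non-pole case
    have hvw : |⟪D.v, w⟫| ≤ 3 / 5 * ρ := by
      have := abs_add_le (⟪D.v, w⟫ - ⟪D.e, w⟫) ⟪D.e, w⟫
      rw [sub_add_cancel] at this
      linarith
    have hpa : |p| ≤ 3 / 5 / ρ := by
      rw [hp', abs_div, abs_of_pos (pow_pos hρ0 2), div_le_div_iff₀ (pow_pos hρ0 2) hρ0]
      nlinarith
    have hpr : ∀ y : ℂ, ‖y - x‖ ≤ r → |p| * ‖y - x‖ ≤ 61 / 100 := by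
      intro y hy
      calc |p| * ‖y - x‖ ≤ 3 / 5 / ρ * r := by gcongr
        _ ≤ 61 / 100 := by
          rw [div_mul_eq_mul_div, div_le_iff₀ hρ0]; linarith
    have hI : D.I l x r D.v ((-p : ℝ) : ℂ) = D.I l x r D.v 0 - p * D.I l x r 0 1 := by
      rw [D.I_split hlL x r D.v ((-p : ℝ) : ℂ), Complex.ofReal_re]; ring
    have key := D.pos_le hlL hadm (A := D.v) (B := ((-p : ℝ) : ℂ)) (c := 3 / 10) (M := 2)
      (by norm_num) ?_ ?_ ?_
    · rw [← hI]; linarith
    · rw [Complex.norm_real, Real.norm_eq_abs, abs_neg]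
      calc |p| ≤ 3 / 5 / ρ := hpa
        _ ≤ 3 / 5 / (1 / 5) := by gcongr
        _ ≤ 8 := by norm_num
    · intro y hy n hn hne
      rw [inner_add_left, inner_ofReal_mul_t4]
      have h1 := D.pos_v_t4 n hn hne
      have h3 : |p * ⟪y - x, n⟫| ≤ 61 / 100 := by
        rw [abs_mul]
        calc |p| * |⟪y - x, n⟫| ≤ |p| * (‖y - x‖ * ‖n‖) := by
              gcongr; exact abs_real_inner_le_norm _ _
          _ = |p| * ‖y - x‖ := by rw [hn, mul_one]
          _ ≤ _ := hpr y hy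
      have := (_root_.abs_le.1 h3).2
      linarith
    · intro y hy
      calc ‖D.v + ((-p : ℝ) : ℂ) * (y - x)‖ ≤ ‖D.v‖ + ‖((-p : ℝ) : ℂ) * (y - x)‖ := norm_add_le _ _
        _ = 1 + |p| * ‖y - x‖ := by
          rw [D.hv, norm_mul, Complex.norm_real, Real.norm_eq_abs, abs_neg]
        _ ≤ 2 := by linarith [hpr y hy]
  · -- pole case
    push Not at hpole
    obtain ⟨σ, hσ, hσe⟩ : ∃ σ : ℝ, (σ = 1 ∨ σ = -1) ∧ ρ / 2 < σ * ⟪D.e, w⟫ := by
      rcases le_total 0 ⟪D.e, w⟫ with h | h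
      · exact ⟨1, Or.inl rfl, by rwa [abs_of_nonneg h, ← one_mul ⟪D.e, w⟫] at hpole⟩
      · exact ⟨-1, Or.inr rfl, by rw [abs_of_nonpos h] at hpole; linarith⟩
    have hσabs : |σ| = 1 := by rcases hσ with rfl | rfl <;> simp
    have hσv : 0 ≤ σ * ⟪D.v, w⟫ := by
      have : |σ * (⟪D.v, w⟫ - ⟪D.e, w⟫)| ≤ ρ / 10 := by rw [abs_mul, hσabs, one_mul]; exact hve
      have := (_root_.abs_le.1 this).1
      nlinarith
    have hσp : 0 ≤ σ * p := by
      rw [hp', ← mul_div_assoc]; positivity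
    have hp5 : σ * p ≤ 5 := by
      have h1 : |p| ≤ 5 := by
        calc |p| ≤ ‖D.v / w‖ := Complex.abs_re_le_norm _
          _ = 1 / ρ := by rw [norm_div, D.hv]
          _ ≤ 1 / (1 / 5) := by gcongr
          _ = 5 := by norm_num
      calc σ * p ≤ |σ * p| := le_abs_self _
        _ = |p| := by rw [abs_mul, hσabs, one_mul]
        _ ≤ 5 := h1
    have hwin := D.window hl hx hr hσ (hopt σ hσ) z (2 * rr l) ?_
    · have hset : shell x r (5 * Dl l) ∩ {y | 2 * rr l ≤ ‖y - z‖}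
          = shell x r (5 * Dl l) \ ball z (2 * rr l) := by
        ext y; simp [mem_ball, dist_eq_norm]
      rw [hset] at hwin
      have hN := D.Dl_N_le_t4 hl.le hadm hG
      have ht1 := tt_le_one l
      have hth : th l ≤ 1 := by unfold th; linarith [tt_le_one (l + 1)]
      have hI : σ * D.I l x r 0 1 ≤ 120 * X := by linarith
      have hpI : p * D.I l x r 0 1 ≤ 600 * X := by
        have : p * D.I l x r 0 1 = (σ * p) * (σ * D.I l x r 0 1) := by
          rcases hσ with rfl | rfl <;> ring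
        rw [this]
        calc (σ * p) * (σ * D.I l x r 0 1) ≤ (σ * p) * (120 * X) := by gcongr
          _ ≤ 5 * (120 * X) := by gcongr
          _ = 600 * X := by ring
      have key := D.pos_le hlL hadm (A := D.v) (B := 0) (c := 19 / 20) (M := 1)
        (by norm_num) (by simp) (fun y _ => by simpa using D.pos_v_t4)
        (fun y _ => by simp [D.hv])
      linarith
    · intro y _ hyz n hn hne
      rw [inner_ofReal_mul_t4]
      have e1 : y - x = w + (y - z) := by rw [hw]; ring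
      have e2 : ⟪y - x, n⟫ = ⟪D.e, w⟫ + ⟪w, n - D.e⟫ + ⟪y - z, n⟫ := by
        rw [e1, inner_add_left, inner_sub_right w n D.e, real_inner_comm w D.e]; ring
      have h3 : |σ * ⟪w, n - D.e⟫| ≤ ρ / 5 := by
        rw [abs_mul, hσabs, one_mul]
        calc |⟪w, n - D.e⟫| ≤ ‖w‖ * ‖n - D.e‖ := abs_real_inner_le_norm _ _
          _ ≤ ρ * (1 / 5) := by gcongr
          _ = ρ / 5 := by ring
      have h4 : |σ * ⟪y - z, n⟫| ≤ 2 * rr l + 2 * Dl l := by
        rw [abs_mul, hσabs, one_mul]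
        calc |⟪y - z, n⟫| ≤ ‖y - z‖ * ‖n‖ := abs_real_inner_le_norm _ _
          _ ≤ 2 * rr l + 2 * Dl l := by rw [hn, mul_one]; exact hyz.le
      have h5 := Dl_le l
      have := (_root_.abs_le.1 h3).1
      have := (_root_.abs_le.1 h4).1
      rw [e2]
      nlinarith

/-- a heavy block has much bad mass near the pivot -/
theorem heavy_mass_t4 {j : ℕ} {x : ℂ} {r : ℝ} {z : ℂ} (h1 : D.R1 j x r z)
    (hh : tt (j + 1) ≤ D.A (j + 1) x r) :
    th j ≤ ∫ y in shell x r (5 * Dl j) ∩ ball z (rr j), D.bet (j + 2) y := by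
  have hsub : shell x r (5 * Dl (j + 1))
      ⊆ (shell x r (5 * Dl j) ∩ ball z (rr j)) ∪ (shell x r (5 * Dl j) \ ball z (rr j)) := by
    rw [inter_union_sdiff]
    exact shell_mono_t4 x r (by linarith [Dl_anti (Nat.le_succ j)])
  have hi := D.integrableOn_bet_t4 (j + 2) x r (5 * Dl j)
  have hi' := D.integrableOn_bet_t4 (j + 1) x r (5 * Dl j)
  have hms := measurableSet_shell x r (5 * Dl j)
  have key := setIntegral_le_add_t4 (D.bet_nonneg (j + 2)) (hms.inter measurableSet_ball)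
    (hms.diff measurableSet_ball) (hi.mono_set inter_subset_left) (hi.mono_set sdiff_subset) hsub
  have h3 : ∫ y in shell x r (5 * Dl j) \ ball z (rr j), D.bet (j + 2) y ≤ th j := by
    refine le_trans ?_ h1
    apply setIntegral_mono (hi.mono_set sdiff_subset)
      ((hi'.mono_set sdiff_subset).add (hi.mono_set sdiff_subset))
    intro y
    have := D.bet_nonneg (j + 1) y
    simp only [Pi.add_apply]; linarith
  have h4 : tt (j + 1) = 3 * th j := by unfold th; ring
  unfold A at hh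
  have := th_pos j
  linarith

theorem pivot_near_t4 {j : ℕ} {x : ℂ} {r : ℝ} {z : ℂ} (h1 : D.R1 j x r z)
    (hh : tt (j + 1) ≤ D.A (j + 1) x r) : |‖z - x‖ - r| ≤ 2 * rr j := by
  have h := D.heavy_mass_t4 h1 hh
  have hne : (shell x r (5 * Dl j) ∩ ball z (rr j)).Nonempty := by
    by_contra hc
    rw [not_nonempty_iff_eq_empty] at hc
    rw [hc] at h
    simp only [Measure.restrict_empty, integral_zero_measure] at h
    linarith [th_pos j]
  obtain ⟨y, hy1, hy2⟩ := hne
  rw [mem_ball, dist_eq_norm] at hy2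
  have h3 : |‖z - x‖ - ‖y - x‖| ≤ ‖y - z‖ := by
    calc |‖z - x‖ - ‖y - x‖| ≤ ‖(z - x) - (y - x)‖ := abs_norm_sub_norm_le _ _
      _ = ‖y - z‖ := by rw [← norm_neg]; congr 1; ring
  have h4 := Dl_le_rr_t4 j
  have h5 := rr_pos j
  obtain ⟨a1, a2⟩ := _root_.abs_le.1 (show |‖y - x‖ - r| ≤ 5 * Dl j from hy1)
  obtain ⟨a3, a4⟩ := _root_.abs_le.1 h3
  rw [_root_.abs_le]; constructor <;> linarith

theorem away_small_t4 {j : ℕ} (hj : j ≤ D.L) {x : ℂ} {r : ℝ} (hadm : Adm x r) {z : ℂ}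
    (h1 : D.R1 j x r z) (h2 : D.R2 j x r) (hh : tt (j + 1) ≤ D.A (j + 1) x r)
    (hG : D.Gam0 j x r ≤ 1 / tt j ^ 32) :
    (∫ y in shell x r (5 * Dl j) \ ball z (2 * rr j), ‖D.G j y‖) ≤ th j := by
  apply h2 z (D.heavy_mass_t4 h1 hh)
  have h3 := D.inner_le j x r
  have h4 := D.N_le0 hj hadm
  have h0 := tt_pos j
  have h5 : 1 / tt j ^ 32 ≤ 1 / 10 ^ 12 * (1 / tt j ^ 48) := by
    have := tt_pow_le j (m := 32) (n := 48) (by norm_num)
    rw [div_mul_div_comm, one_mul, div_le_div_iff₀ (by positivity) (by positivity)]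
    linarith
  have h6 : 1 / tt j ≤ 1 / 10 ^ 12 * (1 / tt j ^ 48) := by
    have := tt_pow_le j (m := 1) (n := 48) (by norm_num)
    rw [div_mul_div_comm, one_mul, div_le_div_iff₀ (by positivity) (by positivity)]
    rw [pow_one] at this
    linarith
  have h7 : 6 / tt j = 6 * (1 / tt j) := by ring
  have h8 : 0 < 1 / tt j ^ 48 := by positivity
  linarith

theorem opt_window_t4 {j : ℕ} {x : ℂ} {r lo hi : ℝ}
    (hopt : ∀ s ∈ Icc lo hi, avg D.f x s ≤ avg D.f x r) (h0 : D.R0 j x r lo hi)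
    (hh : tt (j + 1) ≤ D.A (j + 1) x r) :
    ∀ σ : ℝ, σ = 1 ∨ σ = -1 → avg D.f x (r + σ * Dl j ^ 2) ≤ avg D.f x r := by
  obtain ⟨h1, h2⟩ := h0 hh
  have := sq_nonneg (Dl j)
  rintro σ (rfl | rfl) <;> apply hopt <;> constructor <;> linarith

/-- two consecutive heavy blocks have nearby pivots -/
theorem pivots_close_t4 {j : ℕ} {x : ℂ} {r : ℝ} {z z' : ℂ} (h1 : D.R1 j x r z)
    (h1' : D.R1 (j + 1) x r z') (hh : tt (j + 1) ≤ D.A (j + 1) x r) : ‖z - z'‖ ≤ 4 * rr j := by
  by_contra hc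
  push Not at hc
  have hr1 : rr (j + 1) ≤ rr j := rr_anti_t4 (Nat.le_succ j)
  have hr0 := rr_pos j
  have hsub : shell x r (5 * Dl (j + 1))
      ⊆ (shell x r (5 * Dl j) \ ball z (rr j))
        ∪ (shell x r (5 * Dl (j + 1)) \ ball z' (rr (j + 1))) := by
    intro y hy
    by_cases hyz : y ∈ ball z (rr j)
    · right
      refine ⟨hy, fun hyz' => ?_⟩
      rw [mem_ball, dist_eq_norm] at hyz hyz'
      have : ‖z - z'‖ ≤ ‖y - z‖ + ‖y - z'‖ := by
        calc ‖z - z'‖ = ‖(y - z') - (y - z)‖ := by congr 1; ring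
          _ ≤ ‖y - z'‖ + ‖y - z‖ := norm_sub_le _ _
          _ = _ := add_comm _ _
      linarith
    · left
      exact ⟨shell_mono_t4 x r (by linarith [Dl_anti (Nat.le_succ j)]) hy, hyz⟩
  have hi := fun b c => D.integrableOn_bet_t4 b x r c
  have key := setIntegral_le_add_t4 (D.bet_nonneg (j + 2))
    ((measurableSet_shell x r _).diff measurableSet_ball)
    ((measurableSet_shell x r _).diff measurableSet_ball)
    ((hi _ _).mono_set sdiff_subset) ((hi _ _).mono_set sdiff_subset) hsub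
  have h3 : ∫ y in shell x r (5 * Dl j) \ ball z (rr j), D.bet (j + 2) y ≤ th j := by
    refine le_trans ?_ h1
    apply setIntegral_mono ((hi _ _).mono_set sdiff_subset)
      (((hi _ _).mono_set sdiff_subset).add ((hi _ _).mono_set sdiff_subset))
    intro y
    have := D.bet_nonneg (j + 1) y
    simp only [Pi.add_apply]; linarith
  have h4 : ∫ y in shell x r (5 * Dl (j + 1)) \ ball z' (rr (j + 1)), D.bet (j + 2) y
      ≤ th (j + 1) := by
    refine le_trans ?_ h1'
    apply setIntegral_mono ((hi _ _).mono_set sdiff_subset)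
      (((hi _ _).mono_set sdiff_subset).add ((hi _ _).mono_set sdiff_subset))
    intro y
    have := D.bet_nonneg (j + 1 + 2) y
    simp only [Pi.add_apply]; linarith
  unfold A at hh
  unfold th at h3 h4
  have := tt_succ_le (j + 1)
  have := tt_pos (j + 1)
  linarith

theorem re_div_le_t4 {x z : ℂ} (hz : 1 / 5 ≤ ‖z - x‖) : |(D.v / (z - x)).re| ≤ 5 := by
  calc |(D.v / (z - x)).re| ≤ ‖D.v / (z - x)‖ := Complex.abs_re_le_norm _
    _ = 1 / ‖z - x‖ := by rw [norm_div, D.hv]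
    _ ≤ 1 / (1 / 5) := by gcongr
    _ = 5 := by norm_num

theorem re_div_sub_le_t4 {x z z' : ℂ} (hz : 1 / 5 ≤ ‖z - x‖) (hz' : 1 / 5 ≤ ‖z' - x‖) :
    |(D.v / (z - x)).re - (D.v / (z' - x)).re| ≤ 25 * ‖z - z'‖ := by
  have h0 : z - x ≠ 0 := by intro h; rw [h, norm_zero] at hz; norm_num at hz
  have h0' : z' - x ≠ 0 := by intro h; rw [h, norm_zero] at hz'; norm_num at hz'
  rw [← Complex.sub_re]
  calc |(D.v / (z - x) - D.v / (z' - x)).re| ≤ ‖D.v / (z - x) - D.v / (z' - x)‖ :=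
        Complex.abs_re_le_norm _
    _ = ‖D.v * (z' - z) / ((z - x) * (z' - x))‖ := by congr 1; field_simp; ring
    _ = ‖z - z'‖ / (‖z - x‖ * ‖z' - x‖) := by
        rw [norm_div, norm_mul, norm_mul, D.hv, one_mul, norm_sub_rev]
    _ ≤ ‖z - z'‖ / (1 / 5 * (1 / 5)) := by gcongr
    _ = 25 * ‖z - z'‖ := by ring

/-- switching pivots costs little -/
theorem switch_t4 {j l : ℕ} (hjl : j < l) (hl : l + 1 < D.L) {x : ℂ} {r : ℝ} (hx : ‖x‖ ≤ 10)
    (hr : r ∈ Icc (1 / 4 : ℝ) 4) {z z' : ℂ} (h1 : D.R1 j x r z) (h1' : D.R1 l x r z')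
    (hh : tt (j + 1) ≤ D.A (j + 1) x r) (hh' : tt (l + 1) ≤ D.A (l + 1) x r)
    (h2 : (∫ y in shell x r (5 * Dl j) \ ball z (2 * rr j), ‖D.G j y‖) ≤ th j)
    (h2' : (∫ y in shell x r (5 * Dl l) \ ball z' (2 * rr l), ‖D.G l y‖) ≤ th l)
    (hopt : ∀ σ : ℝ, σ = 1 ∨ σ = -1 → avg D.f x (r + σ * Dl l ^ 2) ≤ avg D.f x r)
    (hlight : ∀ b, j + 2 ≤ b → b ≤ l → D.A b x r ≤ tt b)
    (hG : D.Gam0 l x r ≤ 1 / tt j ^ 32) (hG' : D.Gam0 (l + 1) x r ≤ 1 / tt l ^ 32) :
    D.I l x r D.v (-(D.v / (z - x))) - 7200 * tt (j + 1)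
      ≤ D.I l x r D.v (-(D.v / (z' - x))) := by
  have hadm := adm_of_t4 hx hr
  have hlL : l ≤ D.L := by omega
  have hz : 1 / 5 ≤ ‖z - x‖ := by
    have := (_root_.abs_le.1 (D.pivot_near_t4 h1 hh)).1
    linarith [rr_le_t4 j, hr.1]
  have hz' : 1 / 5 ≤ ‖z' - x‖ := by
    have := (_root_.abs_le.1 (D.pivot_near_t4 h1' hh')).1
    linarith [rr_le_t4 l, hr.1]
  rw [D.I_pivot_t4 hlL, D.I_pivot_t4 hlL]
  suffices h : |(D.v / (z - x)).re - (D.v / (z' - x)).re| * |D.I l x r 0 1|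
      ≤ 7200 * tt (j + 1) by
    rw [← abs_mul] at h
    have := (_root_.abs_le.1 h).1
    linarith
  have h0 := tt_pos j
  by_cases hzz : ‖z - z'‖ ≤ 4 * rr j
  · have ha := D.abs_le hlL hadm (A := 0) (B := 1) (M := 4) (by simp)
      (fun y hy => by simpa using hy.trans hr.2)
    have hXi := D.Xi0_le_of_light (m := j + 1) hlL hadm (fun b hb hb' => hlight b hb hb'.le)
    have e1 : tt (j + 1 + 1) = tt j ^ 16 := by rw [tt_succ, tt_succ]; ring
    rw [e1] at hXi
    have h16 : 4 / tt j ^ 16 ≤ 4 * (1 / tt j ^ 32) := by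
      rw [mul_one_div]
      gcongr 4 / ?_
      exact pow_le_pow_of_le_one h0.le (tt_le_one j) (by norm_num)
    have h32 : 1 ≤ 1 / tt j ^ 32 := by
      rw [le_div_iff₀ (by positivity), one_mul]; exact pow_le_one₀ h0.le (tt_le_one j)
    have hI : |D.I l x r 0 1| ≤ 22 * (1 / tt j ^ 32) := by linarith
    have hp := D.re_div_sub_le_t4 hz hz'
    have h8 := tt_pow_le j (m := 4) (n := 8) (by norm_num)
    have h4 : 0 < tt j ^ 4 := by positivity
    calc |(D.v / (z - x)).re - (D.v / (z' - x)).re| * |D.I l x r 0 1|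
        ≤ (25 * (4 * rr j)) * (22 * (1 / tt j ^ 32)) := by
          gcongr
          · have := rr_pos j; positivity
          · linarith
      _ = 2200 * tt j ^ 8 := by unfold rr; field_simp; norm_num
      _ ≤ 7200 * tt (j + 1) := by rw [tt_succ]; linarith
  · have hjl' : j + 2 ≤ l := by
      by_contra hc
      have : l = j + 1 := by omega
      subst this
      exact hzz (D.pivots_close_t4 h1 h1' hh)
    push Not at hzz
    have htr := D.transfer hjl hlL h1 h2 (fun b hb hb' => hlight b hb hb'.le)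
    have hsub : shell x r (5 * Dl l) ∩ {y | -1 ≤ ‖y - z‖}
        ⊆ (shell x r (5 * Dl l) \ ball z' (2 * rr l))
          ∪ (shell x r (5 * Dl l) ∩ {y | 2 * rr j + 2 * Dl j ≤ ‖y - z‖}) := by
      rintro y ⟨hy, -⟩
      by_cases hyz : y ∈ ball z' (2 * rr l)
      · right
        refine ⟨hy, ?_⟩
        rw [mem_ball, dist_eq_norm] at hyz
        have h3 : ‖z - z'‖ ≤ ‖y - z‖ + ‖y - z'‖ := by
          calc ‖z - z'‖ = ‖(y - z') - (y - z)‖ := by congr 1; ring
            _ ≤ ‖y - z'‖ + ‖y - z‖ := norm_sub_le _ _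
            _ = _ := add_comm _ _
        have h4 : rr l ≤ rr (j + 1) := rr_anti_t4 (by omega)
        have h5 := rr_succ_le_t4 j
        have h6 := Dl_le_rr_t4 j
        have h7 := rr_pos j
        show 2 * rr j + 2 * Dl j ≤ ‖y - z‖
        linarith
      · exact Or.inl ⟨hy, hyz⟩
    have hi := D.integrableOn_normG_t4 l x r (5 * Dl l)
    have hms := measurableSet_shell x r (5 * Dl l)
    have hm2 : MeasurableSet {y : ℂ | 2 * rr j + 2 * Dl j ≤ ‖y - z‖} :=
      measurableSet_le measurable_const (by fun_prop)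
    have hmass := setIntegral_le_add_t4 (fun y => norm_nonneg (D.G l y))
      (hms.diff measurableSet_ball) (hms.inter hm2) (hi.mono_set sdiff_subset)
      (hi.mono_set inter_subset_left) hsub
    have hN := D.Dl_N_le_t4 hl.le hadm hG'
    have hA := hlight l hjl' le_rfl
    have htl : tt l ≤ tt (j + 1) := tt_anti (by omega)
    have hth : th l ≤ tt (j + 1) := by
      unfold th; linarith [tt_succ_le l, tt_pos (l + 1)]
    have hw : ∀ σ : ℝ, σ = 1 ∨ σ = -1 → σ * D.I l x r 0 1 ≤ 720 * tt (j + 1) := by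
      intro σ hσ
      have := D.window hl hx hr hσ (hopt σ hσ) z (-1) (fun y _ hy => by
        exfalso; linarith [norm_nonneg (y - z), Dl_le l])
      linarith
    have hI : |D.I l x r 0 1| ≤ 720 * tt (j + 1) := by
      have a1 := hw 1 (Or.inl rfl)
      have a2 := hw (-1) (Or.inr rfl)
      rw [_root_.abs_le]; constructor <;> linarith
    have hp : |(D.v / (z - x)).re - (D.v / (z' - x)).re| ≤ 10 := by
      have := abs_sub (D.v / (z - x)).re (D.v / (z' - x)).re
      linarith [D.re_div_le_t4 hz, D.re_div_le_t4 hz']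
    calc |(D.v / (z - x)).re - (D.v / (z' - x)).re| * |D.I l x r 0 1|
        ≤ 10 * (720 * tt (j + 1)) := by gcongr
      _ = 7200 * tt (j + 1) := by ring

/-- the bound at the finest level -/
theorem top_le_t4 {x : ℂ} {r : ℝ} (hx : ‖x‖ ≤ 10) (hr : r ∈ Icc (1 / 4 : ℝ) 4) :
    19 / 40 * D.Gam0 D.L x r - D.Xi0 D.L x r - 2 ≤ ∫ y in ball x r, ⟪D.v, D.g y⟫ := by
  have hadm := adm_of_t4 hx hr
  have key := D.pos_le le_rfl hadm (A := D.v) (B := 0) (c := 19 / 20) (M := 1)
    (by norm_num) (by simp) (fun y _ => by simpa using D.pos_v_t4) (fun y _ => by simp [D.hv])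
  have hend := D.end_le hadm (A := D.v) (B := 0) (M := 1) (fun y _ => by simp [D.hv])
  simp only [zero_mul, add_zero] at hend
  have := (_root_.abs_le.1 hend).1
  linarith [tt_le_one D.L]

/-- deterministic main lemma -/
theorem det_main {x : ℂ} {r lo hi : ℝ} (hx : ‖x‖ ≤ 10) (hr : r ∈ Icc (1 / 4 : ℝ) 4)
    (hopt : ∀ s ∈ Icc lo hi, avg D.f x s ≤ avg D.f x r)
    (hslope : ∫ y in ball x r, ⟪y - x, D.g y⟫ = 0) {b₀ : ℕ} (hb₀ : b₀ ≤ D.L)
    (hreg : ∀ j, b₀ ≤ j → j + 1 < D.L →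
      (∃ z, D.R1 j x r z) ∧ D.R2 j x r ∧ D.R0 j x r lo hi) :
    -∫ y in ball x r, ⟪D.v, D.g y⟫ ≤ 10 ^ 6 / tt (b₀ + 1) := by
  classical
  have hadm := adm_of_t4 hx hr
  set a := -∫ y in ball x r, ⟪D.v, D.g y⟫ with ha
  have ht0 := tt_pos (b₀ + 1)
  have hinv : ∀ b, 1 ≤ 1 / tt b := fun b => by
    rw [le_div_iff₀ (tt_pos b), one_mul]; exact tt_le_one b
  rcases le_or_gt a 0 with ha0 | ha0
  · exact ha0.trans (by positivity)
  have htop := D.top_le_t4 hx hr
  -- pivots
  have hz : ∀ j, ∃ z, b₀ ≤ j → j + 1 < D.L → D.R1 j x r z := by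
    intro j
    by_cases h : b₀ ≤ j ∧ j + 1 < D.L
    · obtain ⟨z, hz⟩ := (hreg j h.1 h.2).1
      exact ⟨z, fun _ _ => hz⟩
    · exact ⟨0, fun h1 h2 => absurd ⟨h1, h2⟩ h⟩
  choose z hz using hz
  -- the invariant
  have main : ∀ d j, D.L ≤ j + d → b₀ ≤ j → j + 1 < D.L → tt (j + 1) ≤ D.A (j + 1) x r →
      D.Gam0 (j + 1) x r ≤ 1 / tt j ^ 32 ∧
        a ≤ -D.I j x r D.v (-(D.v / (z j - x))) + 20000 * tt (j + 1) := by
    intro d
    induction d with
    | zero => intro j h1 _ h2; omega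
    | succ d ih =>
      intro j hd hj hjL hh
      have hR1 := hz j hj hjL
      have hR2 := (hreg j hj hjL).2.1
      have hzn := D.pivot_near_t4 hR1 hh
      have htj := tt_pos j
      have e16 : tt (j + 1 + 1) = tt j ^ 16 := by rw [tt_succ, tt_succ]; ring
      have h1632 : 1 / tt j ^ 16 ≤ 1 / 10 ^ 12 * (1 / tt j ^ 32) := by
        have := tt_pow_le j (m := 16) (n := 32) (by norm_num)
        rw [div_mul_div_comm, one_mul, div_le_div_iff₀ (by positivity) (by positivity)]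
        linarith
      have h16 : 1 ≤ 1 / tt j ^ 16 := by rw [← e16]; exact hinv _
      by_cases hex : ∃ l, j < l ∧ l + 1 < D.L ∧ tt (l + 1) ≤ D.A (l + 1) x r
      · -- there is a finer heavy block
        set l := Nat.find hex with hl
        obtain ⟨hjl, hlL, hhl⟩ : j < l ∧ l + 1 < D.L ∧ tt (l + 1) ≤ D.A (l + 1) x r :=
          Nat.find_spec hex
        have hlight : ∀ b, j + 2 ≤ b → b ≤ l → D.A b x r ≤ tt b := by
          intro b hb hb'
          obtain ⟨c, rfl⟩ : ∃ c, b = c + 1 := ⟨b - 1, by omega⟩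
          have := Nat.find_min hex (m := c) (by omega)
          by_contra hc
          exact this ⟨by omega, by omega, (not_le.1 hc).le⟩
        have hbl : b₀ ≤ l := by omega
        obtain ⟨hGl, hal⟩ := ih l (by omega) hbl hlL hhl
        have hR1' := hz l hbl hlL
        have hR2' := (hreg l hbl hlL).2.1
        have hR0' := (hreg l hbl hlL).2.2
        have hopt' := D.opt_window_t4 hopt hR0' hhl
        have h2' := D.away_small_t4 (by omega) hadm hR1' hR2' hhl
          ((D.Gam0_mono (Nat.le_succ l) x r).trans hGl)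
        have htl : tt (l + 1) ≤ tt (j + 1) / 2 :=
          (tt_succ_le_half l).trans (by linarith [tt_anti (show j + 1 ≤ l by omega)])
        have hG : D.Gam0 l x r ≤ 1 / tt j ^ 32 := by
          by_contra hc
          push Not at hc
          have hXi := D.Xi0_le_of_light (m := j + 1) (l := l) (by omega) hadm
            (fun b hb hb' => hlight b hb hb'.le)
          have hA : D.A l x r ≤ 4 / tt (j + 1 + 1) := by
            have e : 4 / tt (j + 1 + 1) = 4 * (1 / tt (j + 1 + 1)) := by ring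
            have := hinv (j + 1 + 1)
            rcases (show l = j + 1 ∨ j + 2 ≤ l by omega) with h | h
            · have := D.A_le (b := l) (by omega) hadm
              rw [h] at this ⊢
              linarith
            · have := hlight l h le_rfl
              linarith [tt_le_one l]
          have hterm := D.term hlL hx hr (D.pivot_near_t4 hR1' hhl) h2' hopt' hGl
            (X := 4 / tt (j + 1 + 1))
            (by rw [le_div_iff₀ (tt_pos _)]; linarith [tt_le_one (j + 1 + 1)]) hXi hA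
          rw [e16] at hterm
          have e : 4 / tt j ^ 16 = 4 * (1 / tt j ^ 16) := by ring
          have := tt_le_one (l + 1)
          linarith
        have h2 := D.away_small_t4 (by omega) hadm hR1 hR2 hh
          ((D.Gam0_mono hjl.le x r).trans hG)
        refine ⟨(D.Gam0_mono hjl x r).trans hG, ?_⟩
        have hsw := D.switch_t4 hjl hlL hx hr hR1 hR1' hh hhl h2 h2' hopt' hlight hG hGl
        have hseg := D.seg hjl (by omega) hx hr hzn hR1 h2
          (fun b hb hb' => hlight b hb hb'.le) hG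
        have := tt_pos (j + 1)
        linarith
      · -- finest heavy block
        have hlight : ∀ b, j + 2 ≤ b → b < D.L → D.A b x r ≤ tt b := by
          intro b hb hb'
          obtain ⟨c, rfl⟩ : ∃ c, b = c + 1 := ⟨b - 1, by omega⟩
          by_contra hc
          exact hex ⟨c, by omega, hb', (not_le.1 hc).le⟩
        have hXi := D.Xi0_le_of_light (m := j + 1) (l := D.L) le_rfl hadm hlight
        rw [e16] at hXi
        have hG : D.Gam0 D.L x r ≤ 1 / tt j ^ 32 := by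
          have e : 4 / tt j ^ 16 = 4 * (1 / tt j ^ 16) := by ring
          linarith
        have h2 := D.away_small_t4 (by omega) hadm hR1 hR2 hh
          ((D.Gam0_mono (by omega) x r).trans hG)
        refine ⟨(D.Gam0_mono hjL.le x r).trans hG, ?_⟩
        have hseg := D.seg (j := j) (l := D.L) (by omega) le_rfl hx hr hzn hR1 h2 hlight hG
        have hsp := D.ball_split x r D.v (-(D.v / (z j - x)))
        rw [hslope, mul_zero, add_zero] at hsp
        obtain ⟨hzn1, hzn2⟩ := _root_.abs_le.1 hzn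
        have hrr := rr_le_t4 j
        have hzpos : 0 < ‖z j - x‖ := by linarith [hr.1]
        have hend := D.end_le hadm (A := D.v) (B := -(D.v / (z j - x))) (M := 3) (fun y hy => by
          calc ‖D.v + -(D.v / (z j - x)) * (y - x)‖
              ≤ ‖D.v‖ + ‖-(D.v / (z j - x)) * (y - x)‖ := norm_add_le _ _
            _ = 1 + ‖y - x‖ / ‖z j - x‖ := by
              rw [norm_mul, norm_neg, norm_div, D.hv]; ring
            _ ≤ 1 + 2 := by
              gcongr
              rw [div_le_iff₀ hzpos]; linarith [hr.1]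
            _ = 3 := by norm_num)
        rw [hsp] at hend
        have := (_root_.abs_le.1 hend).1
        have := tt_anti hjL.le
        have := tt_pos (j + 1)
        linarith
  have e6 : (10 : ℝ) ^ 6 / tt (b₀ + 1) = 10 ^ 6 * (1 / tt (b₀ + 1)) := by ring
  have e4 : 4 / tt (b₀ + 1) = 4 * (1 / tt (b₀ + 1)) := by ring
  have hb := hinv (b₀ + 1)
  by_cases hex : ∃ j, b₀ ≤ j ∧ j + 1 < D.L ∧ tt (j + 1) ≤ D.A (j + 1) x r
  · set j := Nat.find hex with hj
    obtain ⟨hbj, hjL, hh⟩ : b₀ ≤ j ∧ j + 1 < D.L ∧ tt (j + 1) ≤ D.A (j + 1) x r :=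
      Nat.find_spec hex
    have hlight : ∀ b, b₀ < b → b ≤ j → D.A b x r ≤ tt b := by
      intro b hb hb'
      obtain ⟨c, rfl⟩ : ∃ c, b = c + 1 := ⟨b - 1, by omega⟩
      have := Nat.find_min hex (m := c) (by omega)
      by_contra hc
      exact this ⟨by omega, by omega, (not_le.1 hc).le⟩
    obtain ⟨hG, haj⟩ := main D.L j (by omega) hbj hjL hh
    have hR1 := hz j hbj hjL
    have h2 := D.away_small_t4 (by omega) hadm hR1 (hreg j hbj hjL).2.1 hh
      ((D.Gam0_mono (Nat.le_succ j) x r).trans hG)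
    have hXi := D.Xi0_le_of_light (m := b₀) (l := j) (by omega) hadm
      (fun b hb hb' => hlight b hb hb'.le)
    have hA : D.A j x r ≤ 4 / tt (b₀ + 1) := by
      rcases (show j = b₀ ∨ b₀ < j by omega) with h | h
      · have := D.A_le (b := j) (by omega) hadm
        rw [h] at this ⊢
        linarith
      · have := hlight j h le_rfl
        linarith [tt_le_one j]
    have hterm := D.term hjL hx hr (D.pivot_near_t4 hR1 hh) h2
      (D.opt_window_t4 hopt (hreg j hbj hjL).2.2 hh) hG (X := 4 / tt (b₀ + 1))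
      (by linarith) hXi hA
    have := D.Gam0_nonneg j x r
    have := tt_le_one (j + 1)
    linarith
  · have hlight : ∀ b, b₀ < b → b < D.L → D.A b x r ≤ tt b := by
      intro b hb hb'
      obtain ⟨c, rfl⟩ : ∃ c, b = c + 1 := ⟨b - 1, by omega⟩
      by_contra hc
      exact hex ⟨c, by omega, hb', (not_le.1 hc).le⟩
    have hXi := D.Xi0_le_of_light (m := b₀) (l := D.L) le_rfl hadm hlight
    have := D.Gam0_nonneg D.L x r
    linarith

end TData

end Crest.Agent.R112
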