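import Crest.Agent.R112.TailDet1

/-! # Row 112: measure of the exceptional sets (task M1) -/

open MeasureTheory Set Filter Topology Metric
open scoped ENNReal NNReal RealInnerProductSpace

namespace Crest.Agent.R112

/-- translation trick -/
theorem transl_trick (N : ℂ → ℝ≥0∞) (hN : Measurable N) (cap θ : ℝ≥0∞) (hcap : cap ≠ ⊤)
    (hNc : ∀ x, N x ≤ cap) (h : ℂ) (hh : ‖h‖ ≤ 1) (hmono : ∀ x, N x ≤ N (x + h)) (E : Set ℂ)
    (hE : E ⊆ closedBall (0 : ℂ) 10) (hinc : ∀ x ∈ E, N x + θ ≤ N (x + h)) :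
    θ * volume E ≤ cap * ENNReal.ofReal (100 * ‖h‖) := by
  set B := closedBall (0 : ℂ) 10 with hB
  set B' := closedBall (0 : ℂ) (10 + ‖h‖) with hB'
  have hBm : MeasurableSet B := measurableSet_closedBall
  have hBm' : MeasurableSet B' := measurableSet_closedBall
  have hBB : B ⊆ B' := closedBall_subset_closedBall (by linarith [norm_nonneg h])
  have hNh : Measurable fun x => N (x + h) := hN.comp (measurable_add_const h)
  set E' := B ∩ {x | N x + θ ≤ N (x + h)} with hE'
  have hEm : MeasurableSet E' := hBm.inter (measurableSet_le (hN.add_const θ) hNh)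
  have hEE : E ⊆ E' := fun x hx => ⟨hE hx, hinc x hx⟩
  have hfin : ∫⁻ x in B, N x ≠ ⊤ := by
    refine ne_top_of_le_ne_top ?_ (lintegral_mono fun x => hNc x)
    rw [setLIntegral_const]
    exact ENNReal.mul_ne_top hcap measure_closedBall_lt_top.ne
  have h1 : (∫⁻ x in B, N x) + θ * volume E' ≤ ∫⁻ x in B, N (x + h) := by
    have e : θ * volume E' = ∫⁻ x in B, E'.indicator (fun _ => θ) x := by
      rw [lintegral_indicator hEm, setLIntegral_const, Measure.restrict_apply hEm,
        inter_eq_left.2 inter_subset_left]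
    rw [e, ← lintegral_add_left hN]
    refine lintegral_mono fun x => ?_
    by_cases hx : x ∈ E'
    · simp only [indicator_of_mem hx]; exact hx.2
    · simp only [indicator_of_notMem hx, add_zero]; exact hmono x
  have h2 : ∫⁻ x in B, N (x + h) ≤ ∫⁻ x in B', N x := by
    rw [← lintegral_indicator hBm, ← lintegral_indicator hBm',
      ← lintegral_add_right_eq_self (B'.indicator N) h]
    refine lintegral_mono fun x => ?_
    by_cases hx : x ∈ B
    · have : x + h ∈ B' := by
        rw [hB, mem_closedBall_zero_iff] at hx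
        rw [hB', mem_closedBall_zero_iff]
        linarith [norm_add_le x h]
      simp only [indicator_of_mem hx, indicator_of_mem this, le_refl]
    · simp only [indicator_of_notMem hx, zero_le]
  have h3 : volume (B' \ B) ≤ ENNReal.ofReal (100 * ‖h‖) := by
    rw [measure_sdiff hBB hBm.nullMeasurableSet measure_closedBall_lt_top.ne, hB, hB',
      Complex.volume_closedBall, Complex.volume_closedBall, tsub_le_iff_right,
      ← ENNReal.ofReal_pow (by positivity), ← ENNReal.ofReal_pow (by norm_num),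
      ← ENNReal.ofReal_coe_nnreal, ← ENNReal.ofReal_mul (by positivity),
      ← ENNReal.ofReal_mul (by positivity), ← ENNReal.ofReal_add (by positivity) (by positivity)]
    apply ENNReal.ofReal_le_ofReal
    rw [NNReal.coe_real_pi]
    have a0 := norm_nonneg h
    have a1 := Real.pi_le_four
    have a2 := Real.pi_pos
    have a3 : ‖h‖ ^ 2 ≤ ‖h‖ := by nlinarith
    nlinarith [mul_le_mul_of_nonneg_left a1 a0, mul_le_mul_of_nonneg_left a3 a2.le]
  have h4 : ∫⁻ x in B', N x ≤ (∫⁻ x in B, N x) + cap * ENNReal.ofReal (100 * ‖h‖) := by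
    rw [← union_sdiff_cancel hBB]
    refine (lintegral_union_le _ _ _).trans (add_le_add le_rfl ?_)
    refine (lintegral_mono fun x => hNc x).trans ?_
    rw [setLIntegral_const]
    exact mul_le_mul_right h3 cap
  refine le_trans (mul_le_mul_right (measure_mono hEE) θ) ?_
  exact (ENNReal.add_le_add_iff_left hfin).1 (h1.trans (h2.trans h4))

/-- neighbourhoods of a Lipschitz family of circles through a point are thin -/
theorem lip_shell {ρ : ℂ → ℝ} (hρ : LipschitzWith (1 / 2) ρ) (y : ℂ) {w : ℝ} (hw : 0 ≤ w)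
    (hw1 : w ≤ 1) :
    volume {x : ℂ | |‖x - y‖ - ρ x| ≤ w ∧ ρ x ≤ 5} ≤ ENNReal.ofReal (200 * w) := by
  set S := {x : ℂ | |‖x - y‖ - ρ x| ≤ w ∧ ρ x ≤ 5} with hS
  have hc := hρ.continuous
  have hSm : MeasurableSet S := by
    have c1 : IsClosed {x : ℂ | |‖x - y‖ - ρ x| ≤ w} := isClosed_le (by fun_prop) continuous_const
    have c2 : IsClosed {x : ℂ | ρ x ≤ 5} := isClosed_le hc continuous_const
    exact (c1.inter c2).measurableSet
  set P : ℝ × ℝ → ℂ := fun p => p.1 * (Real.cos p.2 + Real.sin p.2 * Complex.I) + y with hP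
  have hPc : Continuous P := by fun_prop
  have hu : ∀ θ : ℝ, ‖(Real.cos θ + Real.sin θ * Complex.I : ℂ)‖ = 1 := fun θ => by
    push_cast; exact Complex.norm_cos_add_sin_mul_I θ
  have hPn : ∀ r θ : ℝ, 0 < r → ‖P (r, θ) - y‖ = r := fun r θ hr => by
    simp only [hP, add_sub_cancel_right, norm_mul, hu, mul_one, Complex.norm_real,
      Real.norm_eq_abs, abs_of_pos hr]
  have hPd : ∀ r r' θ : ℝ, dist (P (r, θ)) (P (r', θ)) = |r - r'| := fun r r' θ => by
    rw [dist_eq_norm]
    simp only [hP, add_sub_add_right_eq_sub, ← sub_mul, norm_mul, hu, mul_one]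
    rw [← Complex.ofReal_sub, Complex.norm_real, Real.norm_eq_abs]
  rw [← lintegral_indicator_one hSm, ← lintegral_add_right_eq_self _ y,
    ← Complex.lintegral_comp_polarCoord_symm, polarCoord_target]
  have hf : Measurable fun p : ℝ × ℝ => ENNReal.ofReal p.1 * S.indicator (1 : ℂ → ℝ≥0∞) (P p) :=
    (ENNReal.measurable_ofReal.comp measurable_fst).mul
      ((measurable_one.indicator hSm).comp hPc.measurable)
  have e : ∀ p : ℝ × ℝ, ENNReal.ofReal p.1 • S.indicator (1 : ℂ → ℝ≥0∞)
      (Complex.polarCoord.symm p + y) = ENNReal.ofReal p.1 * S.indicator 1 (P p) := fun p => by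
    rw [Complex.polarCoord_symm_apply, smul_eq_mul]
  simp only [e]
  rw [Measure.volume_eq_prod, ← Measure.prod_restrict, lintegral_prod_symm _ hf.aemeasurable]
  have key : ∀ θ : ℝ, ∫⁻ r in Ioi (0 : ℝ), ENNReal.ofReal r * S.indicator (1 : ℂ → ℝ≥0∞) (P (r, θ))
      ≤ ENNReal.ofReal (24 * w) := by
    intro θ
    set T := {r : ℝ | 0 < r ∧ P (r, θ) ∈ S} with hT
    have hTd : volume T ≤ ENNReal.ofReal (4 * w) := by
      refine (Real.volume_le_diam T).trans (Metric.ediam_le fun r hr r' hr' => ?_)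
      rw [edist_dist, Real.dist_eq]
      apply ENNReal.ofReal_le_ofReal
      have a1 := hr.2.1
      have a2 := hr'.2.1
      rw [hPn _ _ hr.1] at a1
      rw [hPn _ _ hr'.1] at a2
      have a3 := hρ.dist_le_mul (P (r, θ)) (P (r', θ))
      rw [hPd, Real.dist_eq] at a3
      have a4 : |r - r'| ≤ |r - ρ (P (r, θ))| + |ρ (P (r, θ)) - ρ (P (r', θ))|
          + |r' - ρ (P (r', θ))| := by
        rw [abs_sub_comm r']
        exact (abs_sub_le _ (ρ (P (r', θ))) _).trans (add_le_add (abs_sub_le _ _ _) le_rfl)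
      push_cast at a3
      linarith
    calc _ ≤ ∫⁻ r in Ioi (0 : ℝ), T.indicator (fun _ => ENNReal.ofReal 6) r := by
          refine setLIntegral_mono' measurableSet_Ioi fun r hr => ?_
          by_cases hm : P (r, θ) ∈ S
          · rw [indicator_of_mem hm, indicator_of_mem (show r ∈ T from ⟨hr, hm⟩), Pi.one_apply,
              mul_one]
            apply ENNReal.ofReal_le_ofReal
            have a1 := hm.1
            rw [hPn _ _ hr] at a1
            linarith [(abs_le.1 a1).2, hm.2]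
          · rw [indicator_of_notMem hm, mul_zero]; exact zero_le
      _ ≤ ∫⁻ r, T.indicator (fun _ => ENNReal.ofReal 6) r := setLIntegral_le_lintegral _ _
      _ ≤ ENNReal.ofReal 6 * volume T := lintegral_indicator_const_le _ _
      _ ≤ ENNReal.ofReal 6 * ENNReal.ofReal (4 * w) := mul_le_mul_right hTd _
      _ = _ := by rw [← ENNReal.ofReal_mul (by norm_num)]; congr 1; ring
  refine (lintegral_mono key).trans ?_
  rw [setLIntegral_const, Real.volume_Ioo, ← ENNReal.ofReal_mul (by positivity)]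
  apply ENNReal.ofReal_le_ofReal
  nlinarith [mul_le_mul_of_nonneg_left Real.pi_le_four hw]

/-- strips around bisectors are thin -/
theorem m1_strip (z y : ℂ) {w ρ : ℝ} (hw : 0 < w) (hρ : 0 < ρ) (hwρ : 3 * w ≤ 2 * ρ)
    (hd : ρ ≤ ‖y - z‖) :
    volume {x : ℂ | ‖x‖ ≤ 10 ∧ |‖z - x‖ ^ 2 - ‖y - x‖ ^ 2| ≤ w}
      ≤ ENNReal.ofReal (150 * (w / ρ)) := by
  set φ : ℂ → ℝ := fun x => ‖z - x‖ ^ 2 - ‖y - x‖ ^ 2 with hφ
  have hd0 : 0 < ‖y - z‖ := by linarith
  set s : ℝ := 3 * w / (2 * ‖y - z‖ ^ 2) with hs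
  have hs0 : 0 < s := by positivity
  set h : ℂ := s • (y - z) with hh
  have hn : ‖h‖ ≤ 3 / 2 * (w / ρ) := by
    rw [hh, norm_smul, Real.norm_eq_abs, abs_of_pos hs0]
    calc s * ‖y - z‖ = 3 / 2 * (w / ‖y - z‖) := by rw [hs]; field_simp
      _ ≤ _ := by gcongr
  have hn1 : ‖h‖ ≤ 1 := by
    refine hn.trans ?_
    rw [← mul_div_assoc, div_le_one hρ]; linarith
  have hφh : ∀ x, φ (x + h) = φ x + 3 * w := fun x => by
    have e : s * (2 * ‖y - z‖ ^ 2) = 3 * w := by rw [hs]; field_simp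
    rw [← e]
    simp only [hφ, hh, Complex.sq_norm, Complex.normSq_apply, Complex.sub_re, Complex.sub_im,
      Complex.add_re, Complex.add_im, Complex.smul_re, Complex.smul_im, smul_eq_mul]
    ring
  have hUm : MeasurableSet {x | w < φ x} :=
    (isOpen_lt continuous_const (by fun_prop)).measurableSet
  have := transl_trick ({x | w < φ x}.indicator 1) (measurable_one.indicator hUm) 1 1
    ENNReal.one_ne_top (fun x => indicator_le_self' (fun _ _ => zero_le) x) h hn1
    (fun x => by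
      by_cases hx : x ∈ {x | w < φ x}
      · rw [indicator_of_mem hx, indicator_of_mem (show x + h ∈ {x | w < φ x} by
          show w < φ (x + h)
          rw [hφh]; linarith [show w < φ x from hx])]
        exact le_rfl
      · rw [indicator_of_notMem hx]; exact zero_le)
    {x : ℂ | ‖x‖ ≤ 10 ∧ |φ x| ≤ w} (fun x hx => mem_closedBall_zero_iff.2 hx.1)
    (fun x hx => by
      obtain ⟨a1, a2⟩ := abs_le.1 hx.2
      rw [indicator_of_notMem (show x ∉ {x | w < φ x} from not_lt.2 a2),
        indicator_of_mem (show x + h ∈ {x | w < φ x} by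
          show w < φ (x + h)
          rw [hφh]; linarith), zero_add]
      exact le_rfl)
  rw [one_mul, one_mul] at this
  exact this.trans (ENNReal.ofReal_le_ofReal (by linarith))

namespace TData

variable (D : TData)

/-- bisector estimate -/
theorem meas_X1 {j : ℕ} (hj : j + 1 < D.L) :
    volume {x : ℂ | ‖x‖ ≤ 10 ∧ ∃ r ∈ Icc (1 / 4 : ℝ) 4, ∀ z, ¬ D.R1 j x r z}
      ≤ ENNReal.ofReal (tt j ^ 20) := by
  set β : ℂ → ℝ := fun y => D.bet (j + 1) y + D.bet (j + 2) y with hβ
  have hβ0 : ∀ y, 0 ≤ β y := fun y => add_nonneg (D.bet_nonneg _ y) (D.bet_nonneg _ y)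
  have hβm : Measurable β := (D.measurable_bet _).add (D.measurable_bet _)
  have hint : ∀ b, IntegrableOn (D.bet b) (ball (0 : ℂ) 15) := fun b =>
    Measure.integrableOn_of_bounded (M := D.Mg) measure_ball_lt_top.ne
      (D.measurable_bet b).aestronglyMeasurable (Eventually.of_forall fun y => by
        rw [Real.norm_eq_abs, abs_of_nonneg (D.bet_nonneg b y)]; exact D.bet_le b y)
  have hβi : IntegrableOn β (ball (0 : ℂ) 15) := (hint _).add (hint _)
  set ν : Measure ℂ :=
    (volume.restrict (ball (0 : ℂ) 15)).withDensity fun y => ENNReal.ofReal (β y) with hν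
  have hνS : ∀ S : Set ℂ, MeasurableSet S → S ⊆ ball (0 : ℂ) 15 →
      ν S = ENNReal.ofReal (∫ y in S, β y) := by
    intro S hS hsub
    rw [hν, withDensity_apply _ hS, Measure.restrict_restrict hS, inter_eq_left.2 hsub,
      ofReal_integral_eq_lintegral_ofReal (hβi.mono_set hsub) (Eventually.of_forall hβ0)]
  set t := tt j with ht
  have ht0 : 0 < t := tt_pos j
  have hνu : ν univ ≤ ENNReal.ofReal (2 / t ^ 16) := by
    rw [hν, withDensity_apply _ MeasurableSet.univ, Measure.restrict_univ,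
      ← ofReal_integral_eq_lintegral_ofReal hβi (Eventually.of_forall hβ0)]
    apply ENNReal.ofReal_le_ofReal
    rw [hβ, integral_add (hint _) (hint _)]
    have a1 := D.bet_set_le (b := j + 1) (by omega) (Subset.refl _)
    have a2 := D.bet_set_le (b := j + 2) (by omega) (Subset.refl _)
    have a3 : 1 / tt (j + 1) ≤ 1 / tt (j + 2) :=
      one_div_le_one_div_of_le (tt_pos _) (tt_succ_le _)
    have a4 : tt (j + 2) = t ^ 16 := by rw [tt_succ, tt_succ, ← pow_mul]
    have a5 : 2 / t ^ 16 = 1 / t ^ 16 + 1 / t ^ 16 := by ring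
    rw [a4] at a2 a3
    linarith
  have : IsFiniteMeasure ν := ⟨lt_of_le_of_lt hνu ENNReal.ofReal_lt_top⟩
  set A : Set (ℂ × ℂ × ℂ) := {p | ‖p.1‖ ≤ 10 ∧ rr j ≤ ‖p.2.2 - p.2.1‖ ∧
    |‖p.2.1 - p.1‖ ^ 2 - ‖p.2.2 - p.1‖ ^ 2| ≤ 83 * Dl j} with hA
  have hAm : MeasurableSet A := by
    have c1 : IsClosed {p : ℂ × ℂ × ℂ | ‖p.1‖ ≤ 10} := isClosed_le (by fun_prop) continuous_const
    have c2 : IsClosed {p : ℂ × ℂ × ℂ | rr j ≤ ‖p.2.2 - p.2.1‖} :=
      isClosed_le continuous_const (by fun_prop)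
    have c3 : IsClosed {p : ℂ × ℂ × ℂ | |‖p.2.1 - p.1‖ ^ 2 - ‖p.2.2 - p.1‖ ^ 2| ≤ 83 * Dl j} :=
      isClosed_le (by fun_prop) continuous_const
    exact (c1.inter (c2.inter c3)).measurableSet
  have hDl := Dl_le j
  have hDl0 := Dl_pos j
  have low : {x : ℂ | ‖x‖ ≤ 10 ∧ ∃ r ∈ Icc (1 / 4 : ℝ) 4, ∀ z, ¬ D.R1 j x r z}
      ⊆ {x | ENNReal.ofReal (th j) * ENNReal.ofReal (th j) ≤ (ν.prod ν) (Prod.mk x ⁻¹' A)} := by
    rintro x ⟨hx, r, ⟨hr1, hr2⟩, hz⟩
    set Sh := shell x r (5 * Dl j) with hSh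
    have hShm : MeasurableSet Sh := measurableSet_shell _ _ _
    have hShs : Sh ⊆ ball (0 : ℂ) 15 :=
      shell_subset_ball ⟨by linarith, by linarith, by linarith⟩ (by linarith)
    have a1 : ∀ z, ENNReal.ofReal (th j) ≤ ν (Sh \ ball z (rr j)) := fun z => by
      rw [hνS _ (hShm.diff measurableSet_ball) (sdiff_subset.trans hShs)]
      exact ENNReal.ofReal_le_ofReal (not_le.1 (hz z)).le
    have a2 : ENNReal.ofReal (th j) ≤ ν Sh := (a1 0).trans (measure_mono sdiff_subset)
    show ENNReal.ofReal (th j) * ENNReal.ofReal (th j) ≤ (ν.prod ν) (Prod.mk x ⁻¹' A)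
    rw [Measure.prod_apply (measurable_prodMk_left hAm)]
    calc _ ≤ ENNReal.ofReal (th j) * ν Sh := mul_le_mul_right a2 _
      _ = ∫⁻ _ in Sh, ENNReal.ofReal (th j) ∂ν := (setLIntegral_const _ _).symm
      _ ≤ ∫⁻ z in Sh, ν (Prod.mk z ⁻¹' (Prod.mk x ⁻¹' A)) ∂ν := by
          refine setLIntegral_mono' hShm fun z hz' => (a1 z).trans (measure_mono ?_)
          rintro y ⟨hy1, hy2⟩
          refine ⟨hx, ?_, ?_⟩
          · rw [mem_ball_iff_norm, not_lt] at hy2
            exact hy2
          · obtain ⟨b1, b2⟩ := _root_.abs_le.1 (show |‖z - x‖ - r| ≤ 5 * Dl j from hz')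
            obtain ⟨b3, b4⟩ := _root_.abs_le.1 (show |‖y - x‖ - r| ≤ 5 * Dl j from hy1)
            show |‖z - x‖ ^ 2 - ‖y - x‖ ^ 2| ≤ 83 * Dl j
            rw [sq_sub_sq, abs_mul, abs_of_nonneg (by positivity)]
            have c1 : ‖z - x‖ + ‖y - x‖ ≤ 83 / 10 := by linarith
            have c2 : |‖z - x‖ - ‖y - x‖| ≤ 10 * Dl j := _root_.abs_le.2 ⟨by linarith, by linarith⟩
            calc _ ≤ 83 / 10 * (10 * Dl j) := mul_le_mul c1 c2 (abs_nonneg _) (by norm_num)
              _ = _ := by ring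
      _ ≤ _ := setLIntegral_le_lintegral _ _
  have hq : Dl j / rr j = t ^ 160 := by
    unfold Dl rr; rw [← ht]; field_simp
  have up : ∫⁻ x, (ν.prod ν) (Prod.mk x ⁻¹' A)
      ≤ ENNReal.ofReal (12450 * t ^ 160) * (ENNReal.ofReal (2 / t ^ 16) * ENNReal.ofReal (2 / t ^ 16)) := by
    rw [← Measure.prod_apply hAm, Measure.prod_apply_symm hAm]
    have b : ∀ p : ℂ × ℂ, volume ((fun x => (x, p)) ⁻¹' A) ≤ ENNReal.ofReal (12450 * t ^ 160) := by
      rintro ⟨z, y⟩
      by_cases hd : rr j ≤ ‖y - z‖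
      · have c := m1_strip z y (w := 83 * Dl j) (by positivity) (rr_pos j) (by
          have c1 := tt_pow_le j (m := 40) (n := 200) (by norm_num)
          have c2 := rr_pos j
          unfold Dl rr at *
          linarith) hd
        rw [mul_div_assoc, hq, ← mul_assoc] at c
        norm_num only at c
        refine le_trans (measure_mono fun x hx => ?_) c
        exact ⟨hx.1, hx.2.2⟩
      · have : (fun x => (x, (z, y))) ⁻¹' A = ∅ :=
          eq_empty_of_forall_notMem fun x hx => hd hx.2.1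
        rw [this, measure_empty]; exact zero_le
    refine (lintegral_mono b).trans ?_
    rw [lintegral_const, ← univ_prod_univ, Measure.prod_prod]
    gcongr
  have mk := mul_meas_ge_le_lintegral₀ (μ := volume)
    (measurable_measure_prodMk_left (ν := ν.prod ν) hAm).aemeasurable
    (ENNReal.ofReal (th j) * ENNReal.ofReal (th j))
  have fin := (mul_le_mul_right (measure_mono low) _).trans (mk.trans up)
  have hth := th_pos j
  rw [← ENNReal.ofReal_mul hth.le, ← ENNReal.ofReal_mul (by positivity),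
    ← ENNReal.ofReal_mul (by positivity)] at fin
  refine (ENNReal.mul_le_mul_iff_right (a := ENNReal.ofReal (th j * th j))
    (ENNReal.ofReal_pos.2 (by positivity)).ne' ENNReal.ofReal_ne_top).1 (fin.trans ?_)
  rw [← ENNReal.ofReal_mul (by positivity)]
  apply ENNReal.ofReal_le_ofReal
  have e1 : 12450 * t ^ 160 * (2 / t ^ 16 * (2 / t ^ 16)) = 49800 * t ^ 128 := by
    field_simp; norm_num
  have e2 : th j * th j * t ^ 20 = t ^ 28 / 9 := by
    unfold th; rw [tt_succ, ← ht]; ring
  have e3 := tt_pow_le j (m := 28) (n := 128) (by norm_num)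
  rw [← ht] at e3
  have e4 : 0 < t ^ 28 := by positivity
  rw [e1, e2]
  linarith

end TData

end Crest.Agent.R112
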