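import Crest.Agent.R112.TailMeas1

/-! # Row 112: pivot estimate (task M2) -/

open MeasureTheory Set Filter Topology Metric
open scoped ENNReal NNReal RealInnerProductSpace

namespace Crest.Agent.R112

/-- the power difference of the pivot `y₀` and of `y` with respect to the centre `x` -/
noncomputable def tm2Phi (y₀ x y : ℂ) : ℝ := ‖y₀ - x‖ ^ 2 - ‖y - x‖ ^ 2

lemma tm2Phi_add (y₀ x y h : ℂ) : tm2Phi y₀ (x + h) y = tm2Phi y₀ x y + 2 * ⟪y - y₀, h⟫ := by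
  simp only [tm2Phi, Complex.sq_norm, Complex.normSq_apply, Complex.inner, Complex.sub_re,
    Complex.sub_im, Complex.add_re, Complex.add_im, Complex.mul_re, Complex.conj_re,
    Complex.conj_im]
  ring

lemma tm2Phi_step {ρ w : ℝ} (hρ : 0 < ρ) (hw : 0 < w) {d y₀ y : ℂ} (h : ρ / 2 ≤ ⟪y - y₀, d⟫)
    (x : ℂ) : tm2Phi y₀ x y + 3 * w ≤ tm2Phi y₀ (x + (3 * w / ρ) • d) y := by
  rw [tm2Phi_add, inner_smul_right]
  have : 3 * w / ρ * (ρ / 2) ≤ 3 * w / ρ * ⟪y - y₀, d⟫ := by gcongr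
  have e : 3 * w / ρ * (ρ / 2) = 3 * w / 2 := by field_simp
  linarith

/-- capped mass of the half-plane part of the disc; `p = (y₀, x)` -/
noncomputable def tm2N (μ : Measure ℂ) (ρ w : ℝ) (cap : ℝ≥0∞) (d : ℂ) (p : ℂ × ℂ) : ℝ≥0∞ :=
  min (μ {y | ρ / 2 ≤ ⟪y - p.1, d⟫ ∧ w < tm2Phi p.1 p.2 y}) cap

lemma tm2N_meas (μ : Measure ℂ) [SFinite μ] (ρ w : ℝ) (cap : ℝ≥0∞) (d : ℂ) :
    Measurable (tm2N μ ρ w cap d) := by
  have h : MeasurableSet {q : (ℂ × ℂ) × ℂ | ρ / 2 ≤ ⟪q.2 - q.1.1, d⟫ ∧ w < tm2Phi q.1.1 q.1.2 q.2} := by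
    have c1 : Continuous fun q : (ℂ × ℂ) × ℂ => ⟪q.2 - q.1.1, d⟫ := by fun_prop
    have c2 : Continuous fun q : (ℂ × ℂ) × ℂ => tm2Phi q.1.1 q.1.2 q.2 := by unfold tm2Phi; fun_prop
    exact (measurableSet_le measurable_const c1.measurable).inter
      (measurableSet_lt measurable_const c2.measurable)
  exact (measurable_measure_prodMk_left (ν := μ) h).min measurable_const

/-- the pairs (pivot, centre) at which the capped mass jumps -/
def tm2W (μ : Measure ℂ) (ρ w : ℝ) (cap θ : ℝ≥0∞) (d : ℂ) : Set (ℂ × ℂ) :=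
  {p | ‖p.2‖ ≤ 10 ∧ tm2N μ ρ w cap d p + θ ≤ tm2N μ ρ w cap d (p.1, p.2 + (3 * w / ρ) • d)}

lemma tm2W_meas (μ : Measure ℂ) [SFinite μ] (ρ w : ℝ) (cap θ : ℝ≥0∞) (d : ℂ) :
    MeasurableSet (tm2W μ ρ w cap θ d) := by
  have c1 : Measurable fun p : ℂ × ℂ => ‖p.2‖ := by fun_prop
  have c2 : Measurable fun p : ℂ × ℂ => (p.1, p.2 + (3 * w / ρ) • d) := by fun_prop
  exact (measurableSet_le c1 measurable_const).inter
    (measurableSet_le ((tm2N_meas μ ρ w cap d).add_const θ) ((tm2N_meas μ ρ w cap d).comp c2))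

lemma tm2W_vol (μ : Measure ℂ) [SFinite μ] {ρ w : ℝ} (hρ : 0 < ρ) (hw : 0 < w) (hwρ : 3 * w ≤ ρ)
    {cap : ℝ≥0∞} (hcap : cap ≠ ⊤) (θ : ℝ≥0∞) {d : ℂ} (hd : ‖d‖ = 1) (y₀ : ℂ) :
    θ * volume (Prod.mk y₀ ⁻¹' tm2W μ ρ w cap θ d) ≤ cap * ENNReal.ofReal (100 * (3 * w / ρ)) := by
  have hn : ‖(3 * w / ρ) • d‖ = 3 * w / ρ := by
    rw [norm_smul, hd, mul_one, Real.norm_of_nonneg (by positivity)]
  have := transl_trick (fun x => tm2N μ ρ w cap d (y₀, x))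
    ((tm2N_meas μ ρ w cap d).comp measurable_prodMk_left) cap θ hcap (fun x => min_le_right _ _)
    ((3 * w / ρ) • d) (by rw [hn, div_le_one hρ]; exact hwρ)
    (fun x => min_le_min_right _ (measure_mono fun y hy =>
      ⟨hy.1, by have := tm2Phi_step hρ hw hy.1 x; have := hy.2; simp only at *; linarith⟩))
    (Prod.mk y₀ ⁻¹' tm2W μ ρ w cap θ d) (fun x hx => mem_closedBall_zero_iff.2 hx.1)
    (fun x hx => hx.2)
  rwa [hn] at this

lemma tm2W_mem (μ : Measure ℂ) {ρ w : ℝ} (hρ : 0 < ρ) (hw : 0 < w) {cap θ Λ : ℝ≥0∞}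
    (hcap : Λ + θ ≤ cap) {d y₀ x : ℂ} (hx : ‖x‖ ≤ 10) (h1 : μ {y | w < tm2Phi y₀ x y} ≤ Λ)
    (h2 : θ ≤ μ {y | ρ / 2 ≤ ⟪y - y₀, d⟫ ∧ |tm2Phi y₀ x y| ≤ w}) :
    (y₀, x) ∈ tm2W μ ρ w cap θ d := by
  refine ⟨hx, le_min ?_ ?_⟩
  · have hm : MeasurableSet {y | ρ / 2 ≤ ⟪y - y₀, d⟫ ∧ |tm2Phi y₀ x y| ≤ w} := by
      have c1 : Continuous fun y : ℂ => ⟪y - y₀, d⟫ := by fun_prop
      have c2 : Continuous fun y : ℂ => |tm2Phi y₀ x y| := by unfold tm2Phi; fun_prop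
      exact (measurableSet_le measurable_const c1.measurable).inter
        (measurableSet_le c2.measurable measurable_const)
    calc tm2N μ ρ w cap d (y₀, x) + θ
        ≤ μ {y | ρ / 2 ≤ ⟪y - y₀, d⟫ ∧ w < tm2Phi y₀ x y}
          + μ {y | ρ / 2 ≤ ⟪y - y₀, d⟫ ∧ |tm2Phi y₀ x y| ≤ w} := add_le_add (min_le_left _ _) h2
      _ = μ ({y | ρ / 2 ≤ ⟪y - y₀, d⟫ ∧ w < tm2Phi y₀ x y}
          ∪ {y | ρ / 2 ≤ ⟪y - y₀, d⟫ ∧ |tm2Phi y₀ x y| ≤ w}) := by
          refine (measure_union (disjoint_left.2 fun y h3 h4 => ?_) hm).symm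
          have := h3.2
          have := (abs_le.1 h4.2).2
          linarith
      _ ≤ _ := by
          refine measure_mono ?_
          rintro y (hy | hy)
          · exact ⟨hy.1, by have := tm2Phi_step hρ hw hy.1 x; have := hy.2; simp only at *; linarith⟩
          · exact ⟨hy.1, by
              have := tm2Phi_step hρ hw hy.1 x
              have := (abs_le.1 hy.2).1
              simp only at *; linarith⟩
  · refine le_trans (add_le_add ((min_le_left _ _).trans ((measure_mono ?_).trans h1)) le_rfl) hcap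
    exact fun y hy => hy.2

lemma tm2_dirs {v : ℂ} {ρ : ℝ} (h : ρ ≤ ‖v‖) :
    ρ / 2 ≤ ⟪v, (1 : ℂ)⟫ ∨ ρ / 2 ≤ ⟪v, (-1 : ℂ)⟫ ∨ ρ / 2 ≤ ⟪v, Complex.I⟫ ∨ ρ / 2 ≤ ⟪v, -Complex.I⟫ := by
  have h1 := Complex.norm_le_abs_re_add_abs_im v
  simp only [Complex.inner, Complex.mul_re, Complex.conj_re, Complex.conj_im, Complex.one_re,
    Complex.one_im, Complex.neg_re, Complex.neg_im, Complex.I_re, Complex.I_im]
  by_contra hc
  push Not at hc
  obtain ⟨a, b, c, d⟩ := hc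
  have h2 : |v.re| < ρ / 2 := abs_lt.2 ⟨by linarith, by linarith⟩
  have h3 : |v.im| < ρ / 2 := abs_lt.2 ⟨by linarith, by linarith⟩
  linarith

/-- the union over the four directions -/
def tm2U (μ : Measure ℂ) (ρ w : ℝ) (cap θ : ℝ≥0∞) : Set (ℂ × ℂ) :=
  tm2W μ ρ w cap θ 1 ∪ (tm2W μ ρ w cap θ (-1) ∪
    (tm2W μ ρ w cap θ Complex.I ∪ tm2W μ ρ w cap θ (-Complex.I)))

lemma tm2U_meas (μ : Measure ℂ) [SFinite μ] (ρ w : ℝ) (cap θ : ℝ≥0∞) :
    MeasurableSet (tm2U μ ρ w cap θ) :=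
  (tm2W_meas ..).union ((tm2W_meas ..).union ((tm2W_meas ..).union (tm2W_meas ..)))

lemma tm2U_vol (μ : Measure ℂ) [SFinite μ] {ρ w : ℝ} (hρ : 0 < ρ) (hw : 0 < w) (hwρ : 3 * w ≤ ρ)
    {cap : ℝ≥0∞} (hcap : cap ≠ ⊤) (θ : ℝ≥0∞) (y₀ : ℂ) :
    θ * volume (Prod.mk y₀ ⁻¹' tm2U μ ρ w cap θ)
      ≤ 4 * (cap * ENNReal.ofReal (100 * (3 * w / ρ))) := by
  have h1 := tm2W_vol μ hρ hw hwρ hcap θ (d := 1) (by simp) y₀
  have h2 := tm2W_vol μ hρ hw hwρ hcap θ (d := -1) (by simp) y₀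
  have h3 := tm2W_vol μ hρ hw hwρ hcap θ (d := Complex.I) (by simp) y₀
  have h4 := tm2W_vol μ hρ hw hwρ hcap θ (d := -Complex.I) (by simp) y₀
  simp only [tm2U, preimage_union]
  refine le_trans (mul_le_mul_right ((measure_union_le _ _).trans (add_le_add le_rfl
    ((measure_union_le _ _).trans (add_le_add le_rfl (measure_union_le _ _))))) θ) ?_
  rw [mul_add, mul_add, mul_add]
  refine le_trans (add_le_add h1 (add_le_add h2 (add_le_add h3 h4))) (le_of_eq ?_)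
  ring

lemma tm2U_mem (μ : Measure ℂ) {ρ Δ : ℝ} (hρ : 0 < ρ) (hΔ : 0 < Δ) (hΔ1 : Δ ≤ 1 / 100)
    {cap θ Λ : ℝ≥0∞} (hcap : Λ + θ ≤ cap) {x z y₀ : ℂ} {r : ℝ} (hx : ‖x‖ ≤ 10)
    (hr : r ∈ Icc (1 / 4 : ℝ) 4) (hy : y₀ ∈ shell x r (5 * Δ) ∩ ball z ρ)
    (h1 : μ (ball x (r - 5 * Δ)) ≤ Λ) (h2 : 4 * θ < μ (shell x r (5 * Δ) \ ball z (2 * ρ))) :
    (y₀, x) ∈ tm2U μ ρ (110 * Δ) cap θ := by
  obtain ⟨hy1, hy2⟩ := hy
  obtain ⟨hr1, hr2⟩ := hr
  have hy1 := abs_le.1 (show |‖y₀ - x‖ - r| ≤ 5 * Δ from hy1)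
  have hw : 0 < 110 * Δ := by positivity
  have h1' : μ {y | 110 * Δ < tm2Phi y₀ x y} ≤ Λ := by
    refine le_trans (measure_mono fun y hy => ?_) h1
    rw [mem_ball, dist_eq_norm]
    have hy : 110 * Δ < ‖y₀ - x‖ ^ 2 - ‖y - x‖ ^ 2 := hy
    by_contra hc
    push Not at hc
    have h3 : (r - 5 * Δ) ^ 2 ≤ ‖y - x‖ ^ 2 := pow_le_pow_left₀ (by linarith) hc 2
    have h4 : ‖y₀ - x‖ ^ 2 ≤ (r + 5 * Δ) ^ 2 := pow_le_pow_left₀ (norm_nonneg _) (by linarith) 2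
    nlinarith
  by_contra hc
  have key : ∀ d, (y₀, x) ∉ tm2W μ ρ (110 * Δ) cap θ d →
      μ {y | ρ / 2 ≤ ⟪y - y₀, d⟫ ∧ |tm2Phi y₀ x y| ≤ 110 * Δ} ≤ θ := fun d hd =>
    (not_le.1 fun h => hd (tm2W_mem μ hρ hw hcap hx h1' h)).le
  simp only [tm2U, mem_union, not_or] at hc
  refine absurd h2 (not_lt.2 ?_)
  calc μ (shell x r (5 * Δ) \ ball z (2 * ρ))
      ≤ μ ({y | ρ / 2 ≤ ⟪y - y₀, (1 : ℂ)⟫ ∧ |tm2Phi y₀ x y| ≤ 110 * Δ} ∪
          ({y | ρ / 2 ≤ ⟪y - y₀, (-1 : ℂ)⟫ ∧ |tm2Phi y₀ x y| ≤ 110 * Δ} ∪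
          ({y | ρ / 2 ≤ ⟪y - y₀, Complex.I⟫ ∧ |tm2Phi y₀ x y| ≤ 110 * Δ} ∪
          {y | ρ / 2 ≤ ⟪y - y₀, -Complex.I⟫ ∧ |tm2Phi y₀ x y| ≤ 110 * Δ}))) := by
        refine measure_mono fun y hy => ?_
        obtain ⟨hy3, hy4⟩ := hy
        have hy3 := abs_le.1 (show |‖y - x‖ - r| ≤ 5 * Δ from hy3)
        have hφ : |tm2Phi y₀ x y| ≤ 110 * Δ := by
          have e : tm2Phi y₀ x y = (‖y₀ - x‖ - ‖y - x‖) * (‖y₀ - x‖ + ‖y - x‖) := by
            unfold tm2Phi; ring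
          rw [e, abs_mul]
          have a1 : |‖y₀ - x‖ - ‖y - x‖| ≤ 10 * Δ := abs_le.2 ⟨by linarith, by linarith⟩
          have a2 : |‖y₀ - x‖ + ‖y - x‖| ≤ 11 := by
            rw [abs_of_nonneg (by positivity)]; linarith
          calc _ ≤ 10 * Δ * 11 := by gcongr
            _ = _ := by ring
        have hρy : ρ ≤ ‖y - y₀‖ := by
          rw [mem_ball, not_lt] at hy4
          rw [mem_ball] at hy2
          have := dist_triangle y y₀ z
          rw [← dist_eq_norm]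
          linarith
        rcases tm2_dirs hρy with h | h | h | h
        · exact Or.inl ⟨h, hφ⟩
        · exact Or.inr (Or.inl ⟨h, hφ⟩)
        · exact Or.inr (Or.inr (Or.inl ⟨h, hφ⟩))
        · exact Or.inr (Or.inr (Or.inr ⟨h, hφ⟩))
    _ ≤ θ + (θ + (θ + θ)) :=
        (measure_union_le _ _).trans (add_le_add (key _ hc.1) ((measure_union_le _ _).trans
          (add_le_add (key _ hc.2.1) ((measure_union_le _ _).trans
            (add_le_add (key _ hc.2.2.1) (key _ hc.2.2.2))))))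
    _ = 4 * θ := by ring

lemma tm2_fubini (ν : Measure ℂ) [SFinite ν] {W : Set (ℂ × ℂ)} (hW : MeasurableSet W)
    {θ θ' V : ℝ≥0∞} (hV : ∀ y₀, θ' * volume (Prod.mk y₀ ⁻¹' W) ≤ V) {X : Set ℂ}
    (hX : ∀ x ∈ X, θ ≤ ν ((fun y₀ => (y₀, x)) ⁻¹' W)) : θ' * θ * volume X ≤ V * ν univ := by
  have h1 := mul_meas_ge_le_lintegral (μ := volume) (measurable_measure_prodMk_right (μ := ν) hW) θ
  rw [← Measure.prod_apply_symm hW, Measure.prod_apply hW] at h1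
  calc θ' * θ * volume X ≤ θ' * (θ * volume {x | θ ≤ ν ((fun y₀ => (y₀, x)) ⁻¹' W)}) := by
        rw [mul_assoc]
        gcongr
        exact hX
    _ ≤ θ' * ∫⁻ y₀, volume (Prod.mk y₀ ⁻¹' W) ∂ν := by gcongr
    _ = ∫⁻ y₀, θ' * volume (Prod.mk y₀ ⁻¹' W) ∂ν :=
        (lintegral_const_mul _ (measurable_measure_prodMk_left hW)).symm
    _ ≤ ∫⁻ _, V ∂ν := lintegral_mono hV
    _ = V * ν univ := lintegral_const V

lemma tm2_lint {f : ℂ → ℝ} (hf : Measurable f) {M : ℝ} (h0 : ∀ y, 0 ≤ f y) (hM : ∀ y, f y ≤ M)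
    {A : Set ℂ} (hA : A ⊆ ball (0 : ℂ) 15) :
    ∫⁻ y in A, ENNReal.ofReal (f y) = ENNReal.ofReal (∫ y in A, f y) :=
  (ofReal_integral_eq_lintegral_ofReal (Measure.integrableOn_of_bounded (M := M)
    ((measure_mono hA).trans_lt measure_ball_lt_top).ne hf.aestronglyMeasurable
    (ae_of_all _ fun y => by rw [Real.norm_of_nonneg (h0 y)]; exact hM y)) (ae_of_all _ h0)).symm

namespace TData

variable (D : TData)

/-- pivot estimate -/
theorem meas_X2 {j : ℕ} (hj : j + 1 < D.L) :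
    volume {x : ℂ | ‖x‖ ≤ 10 ∧ ∃ r ∈ Icc (1 / 4 : ℝ) 4, ¬ D.R2 j x r}
      ≤ ENNReal.ofReal (tt j ^ 20) := by
  have ht := tt_pos j
  have hΔ := Dl_pos j
  have hρ := rr_pos j
  have hθ := th_pos j
  have hΔ1 : Dl j ≤ 1 / 100 := (Dl_le j).trans (by norm_num)
  have hθe : th j = tt j ^ 4 / 3 := by rw [th, tt_succ]
  have hθ1 : th j / 4 ≤ 1 / tt j ^ 48 := by
    have h1 : tt j ^ 4 ≤ 1 := pow_le_one₀ ht.le (tt_le_one j)
    have h2 : 1 ≤ 1 / tt j ^ 48 := by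
      rw [le_div_iff₀ (by positivity), one_mul]; exact pow_le_one₀ ht.le (tt_le_one j)
    linarith
  have hwρ : 3 * (110 * Dl j) ≤ rr j := by
    have := tt_pow_le j (m := 40) (n := 200) (by norm_num)
    unfold Dl rr at *
    linarith
  set μ : Measure ℂ := volume.withDensity fun y => ENNReal.ofReal ‖D.G j y‖ with hμ
  set ν : Measure ℂ := (volume.restrict (ball (0 : ℂ) 15)).withDensity
    fun y => ENNReal.ofReal (D.bet (j + 2) y) with hν
  have hμA : ∀ A : Set ℂ, MeasurableSet A → A ⊆ ball (0 : ℂ) 15 →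
      μ A = ENNReal.ofReal (∫ y in A, ‖D.G j y‖) := fun A h1 h2 => by
    rw [hμ, withDensity_apply _ h1, tm2_lint (D.hGm j).norm (fun _ => norm_nonneg _) (D.hGb j) h2]
  have hνA : ∀ A : Set ℂ, MeasurableSet A → A ⊆ ball (0 : ℂ) 15 →
      ν A = ENNReal.ofReal (∫ y in A, D.bet (j + 2) y) := fun A h1 h2 => by
    rw [hν, withDensity_apply _ h1, Measure.restrict_restrict h1, inter_eq_left.2 h2,
      tm2_lint (D.measurable_bet _) (D.bet_nonneg _) (D.bet_le _) h2]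
  have hνu : ν univ ≤ ENNReal.ofReal (1 / tt j ^ 16) := by
    rw [hν, withDensity_apply _ MeasurableSet.univ, Measure.restrict_univ,
      tm2_lint (D.measurable_bet _) (D.bet_nonneg _) (D.bet_le _) Subset.rfl]
    refine ENNReal.ofReal_le_ofReal ((D.hD (j + 2) (by omega)).trans (le_of_eq ?_))
    rw [tt_succ, tt_succ, ← pow_mul]
  have key := tm2_fubini ν (tm2U_meas μ (rr j) (110 * Dl j) (ENNReal.ofReal (2 / tt j ^ 48))
      (ENNReal.ofReal (th j / 4))) (θ := ENNReal.ofReal (th j))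
    (tm2U_vol μ hρ (by positivity) hwρ ENNReal.ofReal_ne_top _)
    (X := {x : ℂ | ‖x‖ ≤ 10 ∧ ∃ r ∈ Icc (1 / 4 : ℝ) 4, ¬ D.R2 j x r}) ?_
  · have h1 := key.trans (mul_le_mul_right hνu _)
    have e4 : (4 : ℝ≥0∞) = ENNReal.ofReal 4 := by norm_num
    rw [e4, ← ENNReal.ofReal_mul (by positivity), ← ENNReal.ofReal_mul (by positivity),
      ← ENNReal.ofReal_mul (by positivity), ← ENNReal.ofReal_mul (by positivity)] at h1
    have hp : 0 < th j / 4 * th j := by positivity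
    refine (ENNReal.mul_le_mul_iff_right (a := ENNReal.ofReal (th j / 4 * th j))
      (ENNReal.ofReal_pos.2 hp).ne' ENNReal.ofReal_ne_top).1 (h1.trans ?_)
    rw [← ENNReal.ofReal_mul hp.le]
    refine ENNReal.ofReal_le_ofReal ?_
    have e1 : 4 * (2 / tt j ^ 48 * (100 * (3 * (110 * Dl j) / rr j))) * (1 / tt j ^ 16)
        = 264000 * tt j ^ 96 := by
      unfold Dl rr; field_simp; norm_num
    have e2 : th j / 4 * th j * tt j ^ 20 = tt j ^ 28 / 36 := by rw [hθe]; ring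
    have := tt_pow_le j (m := 28) (n := 96) (by norm_num)
    have h28 := pow_pos ht 28
    rw [e1, e2]
    linarith
  · rintro x ⟨hx, r, hr, hR⟩
    unfold R2 at hR
    push Not at hR
    obtain ⟨z, ha, hb, hc⟩ := hR
    have hS : shell x r (5 * Dl j) ⊆ ball (0 : ℂ) 15 :=
      shell_subset_ball ⟨by linarith [hr.1], by linarith [hr.2], by linarith [hr.2]⟩ (by linarith)
    have hB : ball x (r - 5 * Dl j) ⊆ ball (0 : ℂ) 15 :=
      ball_subset_ball' (by rw [dist_zero_right]; linarith [hr.2])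
    have hSm := measurableSet_shell x r (5 * Dl j)
    calc ENNReal.ofReal (th j) ≤ ν (shell x r (5 * Dl j) ∩ ball z (rr j)) := by
          rw [hνA _ (hSm.inter measurableSet_ball) (inter_subset_left.trans hS)]
          exact ENNReal.ofReal_le_ofReal ha
      _ ≤ _ := by
          refine measure_mono fun y₀ hy => ?_
          refine tm2U_mem μ hρ hΔ hΔ1 (Λ := ENNReal.ofReal (1 / tt j ^ 48)) ?_ hx hr hy ?_ ?_
          · rw [← ENNReal.ofReal_add (by positivity) (by positivity)]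
            refine ENNReal.ofReal_le_ofReal ?_
            have : 2 / tt j ^ 48 = 1 / tt j ^ 48 + 1 / tt j ^ 48 := by ring
            linarith
          · rw [hμA _ measurableSet_ball hB]
            exact ENNReal.ofReal_le_ofReal hb
          · have e4 : (4 : ℝ≥0∞) = ENNReal.ofReal 4 := by norm_num
            rw [hμA _ (hSm.diff measurableSet_ball) (sdiff_subset.trans hS), e4,
              ← ENNReal.ofReal_mul (by norm_num), ENNReal.ofReal_lt_ofReal_iff (hθ.trans hc)]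
            linarith

end TData

end Crest.Agent.R112
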