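import Crest.Agent.R112.Basic
import Crest.Prelude.Def_MaximalSobolev

/-! # Row 112: transfer from `ℂ` to the Euclidean plane (task G4) -/

open MeasureTheory Set Filter Topology Metric
open scoped ENNReal NNReal RealInnerProductSpace

namespace Crest.Agent.R112

section general

variable {E F : Type*} [NormedAddCommGroup E] [InnerProductSpace ℝ E] [FiniteDimensional ℝ E]
  [MeasurableSpace E] [BorelSpace E] [NormedAddCommGroup F] [InnerProductSpace ℝ F]
  [FiniteDimensional ℝ F] [MeasurableSpace F] [BorelSpace F]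

/-- weak gradient on a Euclidean space -/
def TrWG (u : E → ℝ) (g : E → E) : Prop :=
  LocallyIntegrable u volume ∧ LocallyIntegrable g volume ∧
    ∀ φ : E → ℝ, ContDiff ℝ (⊤ : ℕ∞) φ → HasCompactSupport φ →
      ∀ v : E, ∫ x, u x * fderiv ℝ φ x v = -∫ x, ⟪g x, v⟫ * φ x

lemma tr_emb (Φ : E ≃ₗᵢ[ℝ] F) : MeasurableEmbedding Φ := Φ.toHomeomorph.measurableEmbedding

lemma tr_locInt {X : Type*} [NormedAddCommGroup X] (Φ : E ≃ₗᵢ[ℝ] F) {u : F → X}
    (hu : LocallyIntegrable u volume) : LocallyIntegrable (fun x => u (Φ x)) volume := by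
  rw [← Φ.measurePreserving.map_eq] at hu
  exact (locallyIntegrable_map_homeomorph Φ.toHomeomorph).1 hu

lemma tr_integrable {X : Type*} [NormedAddCommGroup X] (Φ : E ≃ₗᵢ[ℝ] F) {u : F → X}
    (hu : Integrable u) : Integrable (fun x => u (Φ x)) :=
  (Φ.measurePreserving.integrable_comp_emb (tr_emb Φ)).2 hu

lemma tr_integral (Φ : E ≃ₗᵢ[ℝ] F) (u : F → ℝ) : ∫ x, u (Φ x) = ∫ y, u y :=
  Φ.measurePreserving.integral_comp (tr_emb Φ) u

lemma TrWG.comp (Φ : E ≃ₗᵢ[ℝ] F) {u : F → ℝ} {g : F → F} (h : TrWG u g) :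
    TrWG (fun x => u (Φ x)) (fun x => Φ.symm (g (Φ x))) := by
  refine ⟨tr_locInt Φ h.1, tr_locInt Φ (u := fun y => Φ.symm (g y)) fun y => ?_, ?_⟩
  · obtain ⟨s, hs, hi⟩ := h.2.1 y
    exact ⟨s, hs, Φ.symm.toContinuousLinearEquiv.toContinuousLinearMap.integrable_comp hi⟩
  · intro φ hφ hc v
    have h1 := h.2.2 (φ ∘ Φ.symm) (hφ.comp Φ.symm.contDiff)
      (hc.comp_homeomorph Φ.symm.toHomeomorph) (Φ v)
    rw [← tr_integral Φ, ← tr_integral Φ] at h1
    have h2 : ∀ x, fderiv ℝ (φ ∘ Φ.symm) (Φ x) (Φ v) = fderiv ℝ φ x v := by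
      intro x
      have := Φ.symm.toContinuousLinearEquiv.comp_right_fderiv (f := φ) (x := Φ x)
      change fderiv ℝ (φ ∘ Φ.symm.toContinuousLinearEquiv) (Φ x) (Φ v) = _
      rw [this]
      simp
    have h3 : ∀ x, ⟪g (Φ x), Φ v⟫ = ⟪Φ.symm (g (Φ x)), v⟫ := fun x => by
      rw [← Φ.inner_map_map, Φ.apply_symm_apply]
    simpa only [h2, h3, Function.comp_apply, Φ.symm_apply_apply] using h1

lemma tr_cmax (Φ : E ≃ₗᵢ[ℝ] F) (f : F → ℝ) (x : E) (r : ℝ) :
    (∫⁻ y in ball x r, ‖f (Φ y)‖ₑ) / volume (ball x r)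
      = (∫⁻ y in ball (Φ x) r, ‖f y‖ₑ) / volume (ball (Φ x) r) := by
  have h1 : Φ ⁻¹' ball (Φ x) r = ball x r := by
    ext y; simp [dist_eq_norm, ← map_sub]
  rw [← h1, Φ.measurePreserving.setLIntegral_comp_preimage_emb (tr_emb Φ) (fun y => ‖f y‖ₑ),
    Φ.measurePreserving.measure_preimage_emb (tr_emb Φ)]

end general

theorem transfer_final (C' : ℝ)
    (h : ∀ (f : ℂ → ℝ) (g : ℂ → ℂ), Integrable f → WG f g → Integrable g →
      (∀ᵐ x, cmax f x < ⊤) ∧ LocallyIntegrable (fun x => (cmax f x).toReal) ∧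
        ∃ H : ℂ → ℂ, WG (fun x => (cmax f x).toReal) H ∧ Integrable H ∧
          ∫ x, ‖H x‖ ≤ C' * ∫ x, ‖g x‖) :
    ∀ (f : EuclideanSpace ℝ (Fin 2) → ℝ) (g : EuclideanSpace ℝ (Fin 2) → EuclideanSpace ℝ (Fin 2)),
      MeasureTheory.Integrable f → Crest.AnalysisR.IsWeakGradient f g → MeasureTheory.Integrable g →
        (∀ᵐ x ∂(MeasureTheory.volume : MeasureTheory.Measure (EuclideanSpace ℝ (Fin 2))),
            Crest.AnalysisR.centredMaximalFunction f x < ⊤) ∧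
        MeasureTheory.LocallyIntegrable (fun x => (Crest.AnalysisR.centredMaximalFunction f x).toReal) ∧
        ∃ G : EuclideanSpace ℝ (Fin 2) → EuclideanSpace ℝ (Fin 2),
          Crest.AnalysisR.IsWeakGradient (fun x => (Crest.AnalysisR.centredMaximalFunction f x).toReal) G ∧
          MeasureTheory.Integrable G ∧ ∫ x, ‖G x‖ ≤ C' * ∫ x, ‖g x‖ := by
  intro f g hf hw hg
  set Φ : ℂ ≃ₗᵢ[ℝ] EuclideanSpace ℝ (Fin 2) := Complex.orthonormalBasisOneI.repr
  have hc : ∀ x, cmax (fun x => f (Φ x)) (Φ.symm x) = Crest.AnalysisR.centredMaximalFunction f x := by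
    intro x
    unfold cmax Crest.AnalysisR.centredMaximalFunction
    simp only [tr_cmax Φ f, Φ.apply_symm_apply]
  obtain ⟨h1, h2, H, h3, h4, h5⟩ := h (fun x => f (Φ x)) (fun x => Φ.symm (g (Φ x)))
    (tr_integrable Φ hf) (TrWG.comp Φ hw) (tr_integrable Φ (u := fun y => Φ.symm (g y))
      (Φ.symm.toContinuousLinearEquiv.toContinuousLinearMap.integrable_comp hg))
  refine ⟨?_, ?_, fun y => Φ (H (Φ.symm y)), ?_, ?_, ?_⟩
  · simpa only [hc] using Φ.symm.measurePreserving.quasiMeasurePreserving.ae h1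
  · simpa only [hc] using tr_locInt Φ.symm h2
  · have := TrWG.comp Φ.symm h3
    simp only [hc] at this
    exact this
  · exact tr_integrable Φ.symm (u := fun y => Φ (H y))
      (Φ.toContinuousLinearEquiv.toContinuousLinearMap.integrable_comp h4)
  · simp only [LinearIsometryEquiv.norm_map] at h5 ⊢
    rw [tr_integral Φ.symm fun y => ‖H y‖, ← tr_integral Φ fun y => ‖g y‖]
    exact h5

end Crest.Agent.R112
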