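import Crest.Agent.R112.Basic

/-! # Row 112: integration by parts for the tree estimate -/

open MeasureTheory Set Filter Topology Metric
open scoped ENNReal NNReal RealInnerProductSpace

namespace Crest.Agent.R112

/-- the two tilted directions -/
noncomputable def treeV (e : ℂ) (σ : ℝ) : ℂ := (399 / 401 : ℝ) • e + (σ * (40 / 401) : ℝ) • (Complex.I * e)

lemma treeV_eq (e : ℂ) (σ : ℝ) : treeV e σ = (⟨399 / 401, σ * (40 / 401)⟩ : ℂ) * e := by
  unfold treeV
  apply Complex.ext <;> simp <;> ring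

lemma norm_treeV {e : ℂ} (he : ‖e‖ = 1) {σ : ℝ} (hσ : σ ^ 2 = 1) : ‖treeV e σ‖ = 1 := by
  rw [treeV_eq, norm_mul, he, mul_one, Complex.norm_eq_sqrt_sq_add_sq]
  simp only
  rw [show (399 / 401 : ℝ) ^ 2 + (σ * (40 / 401)) ^ 2 = 1 by rw [mul_pow, hσ]; norm_num,
    Real.sqrt_one]

lemma norm_treeV_sub {e : ℂ} (he : ‖e‖ = 1) {σ : ℝ} (hσ : σ ^ 2 = 1) :
    ‖treeV e σ - e‖ ≤ 1 / 10 := by
  have : treeV e σ - e = (⟨-2 / 401, σ * (40 / 401)⟩ : ℂ) * e := by
    rw [treeV_eq]
    apply Complex.ext <;> simp <;> ring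
  rw [this, norm_mul, he, mul_one, Complex.norm_eq_sqrt_sq_add_sq]
  simp only
  rw [Real.sqrt_le_left (by norm_num), mul_pow, hσ]
  norm_num

lemma tree_opnorm (L : ℂ →L[ℝ] ℝ) {e : ℂ} (he : ‖e‖ = 1) : ‖L‖ ≤ |L e| + |L (Complex.I * e)| := by
  refine ContinuousLinearMap.opNorm_le_bound _ (by positivity) fun x => ?_
  have he0 : e ≠ 0 := by rintro rfl; simp at he
  set z := x / e with hz
  have hx : x = z.re • e + z.im • (Complex.I * e) := by
    have h1 : x = z * e := by rw [hz]; field_simp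
    rw [h1]
    apply Complex.ext <;> simp <;> ring
  have hn : ‖z‖ = ‖x‖ := by rw [hz, norm_div, he, div_one]
  have h1 : |z.re| ≤ ‖x‖ := hn ▸ Complex.abs_re_le_norm z
  have h2 : |z.im| ≤ ‖x‖ := hn ▸ Complex.abs_im_le_norm z
  have h3 : L x = z.re * L e + z.im * L (Complex.I * e) := by
    conv_lhs => rw [hx]
    simp only [map_add, map_smul, smul_eq_mul]
  rw [h3, Real.norm_eq_abs]
  calc |z.re * L e + z.im * L (Complex.I * e)| ≤ |z.re| * |L e| + |z.im| * |L (Complex.I * e)| := by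
        rw [← abs_mul, ← abs_mul]; exact abs_add_le _ _
    _ ≤ ‖x‖ * |L e| + ‖x‖ * |L (Complex.I * e)| := by gcongr
    _ = _ := by ring

lemma tree_pointwise (L : ℂ →L[ℝ] ℝ) {e : ℂ} (he : ‖e‖ = 1) :
    ‖L‖ ≤ 12 * (399 / 401) * L e + 12 * max (-L (treeV e 1)) 0 + 12 * max (-L (treeV e (-1))) 0 := by
  have h := tree_opnorm L he
  have h1 : L (treeV e 1) = 399 / 401 * L e + 40 / 401 * L (Complex.I * e) := by
    simp only [treeV, map_add, map_smul, smul_eq_mul]; ring
  have h2 : L (treeV e (-1)) = 399 / 401 * L e - 40 / 401 * L (Complex.I * e) := by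
    simp only [treeV, map_add, map_smul, smul_eq_mul]; ring
  rw [h1, h2]
  set a := L e
  set b := L (Complex.I * e)
  have p1 := le_max_left (-(399 / 401 * a + 40 / 401 * b)) 0
  have p2 := le_max_right (-(399 / 401 * a + 40 / 401 * b)) 0
  have p3 := le_max_left (-(399 / 401 * a - 40 / 401 * b)) 0
  have p4 := le_max_right (-(399 / 401 * a - 40 / 401 * b)) 0
  rcases abs_cases a with ⟨ha, _⟩ | ⟨ha, _⟩ <;> rcases abs_cases b with ⟨hb, _⟩ | ⟨hb, _⟩ <;>
    rw [ha, hb] at h <;> linarith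

/-- the cut-off -/
noncomputable def treeChi (c : ℂ) (l : ℝ) (x : ℂ) : ℝ := max 0 (min 1 (3 - ‖x - c‖ / l))

lemma treeChi_nonneg (c : ℂ) (l : ℝ) (x : ℂ) : 0 ≤ treeChi c l x := le_max_left _ _

lemma treeChi_le_one (c : ℂ) (l : ℝ) (x : ℂ) : treeChi c l x ≤ 1 :=
  max_le zero_le_one (min_le_left _ _)

lemma treeChi_one {c x : ℂ} {l : ℝ} (hl : 0 < l) (h : ‖x - c‖ ≤ 2 * l) : treeChi c l x = 1 := by
  have : ‖x - c‖ / l ≤ 2 := by rwa [div_le_iff₀ hl]
  unfold treeChi
  rw [min_eq_left (by linarith), max_eq_right zero_le_one]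

lemma treeChi_zero {c x : ℂ} {l : ℝ} (hl : 0 < l) (h : 3 * l ≤ ‖x - c‖) : treeChi c l x = 0 := by
  have : 3 ≤ ‖x - c‖ / l := by rwa [le_div_iff₀ hl]
  unfold treeChi
  exact max_eq_left ((min_le_right _ _).trans (by linarith))

lemma treeChi_lip (c : ℂ) {l : ℝ} (hl : 0 < l) :
    LipschitzWith (Real.toNNReal (1 / l)) (treeChi c l) := by
  have h : LipschitzWith (Real.toNNReal (1 / l)) (fun x : ℂ => 3 - ‖x - c‖ / l) := by
    refine LipschitzWith.of_le_add_mul' _ fun x y => ?_
    have h1 : ‖y - c‖ ≤ ‖x - c‖ + dist x y := by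
      rw [dist_comm, dist_eq_norm]
      calc ‖y - c‖ = ‖(x - c) + (y - x)‖ := by congr 1; ring
        _ ≤ _ := norm_add_le _ _
    have h2 : ‖y - c‖ / l ≤ (‖x - c‖ + dist x y) / l := by gcongr
    rw [add_div] at h2
    have h3 : dist x y / l = 1 / l * dist x y := by ring
    linarith
  exact (h.const_min 1).const_max 0

lemma treeChi_supp (c : ℂ) {l : ℝ} (hl : 0 < l) : HasCompactSupport (treeChi c l) := by
  refine HasCompactSupport.intro (isCompact_closedBall c (3 * l)) fun x hx => treeChi_zero hl ?_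
  rw [mem_closedBall, dist_eq_norm, not_le] at hx
  exact hx.le

lemma tree_lineDeriv_const {φ : ℂ → ℝ} {x : ℂ} {a : ℝ} (h : φ =ᶠ[𝓝 x] fun _ => a) (v : ℂ) :
    lineDeriv ℝ φ x v = 0 := by
  rw [h.lineDeriv_eq, (differentiableAt_const a).lineDeriv_eq_fderiv]
  simp

/-- integration by parts -/
lemma tree_ibp {W : ℂ → ℝ} {L : ℝ≥0} (hW : LipschitzWith L W) (c : ℂ) {l : ℝ} (hl : 0 < l)
    {e : ℂ} (he : ‖e‖ = 1) {m D : ℝ} (hD0 : 0 ≤ D)
    (hD : ∀ x, 2 * l ≤ ‖x - c‖ → ‖x - c‖ ≤ 3 * l → |W x - m| * l ≤ D) :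
    ∫ x, treeChi c l x * fderiv ℝ W x e ≤ 36 * D := by
  have hW' : LipschitzWith L (fun x => W x - m) := by
    simpa using hW.sub (LipschitzWith.const m)
  have h1 : ∫ x, treeChi c l x * fderiv ℝ W x e =
      ∫ x, lineDeriv ℝ (fun x => W x - m) x e * treeChi c l x := by
    refine integral_congr_ae ?_
    filter_upwards [hW.ae_differentiableAt (μ := volume)] with x hx
    rw [(hx.sub_const m).lineDeriv_eq_fderiv, fderiv_sub_const, mul_comm]
  rw [h1, hW'.integral_lineDeriv_mul_eq (treeChi_lip c hl) (treeChi_supp c hl) e]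
  have hb : ∀ x, ‖lineDeriv ℝ (treeChi c l) x (-e) * (W x - m)‖ ≤
      (closedBall c (3 * l)).indicator (fun _ => D / l ^ 2) x := by
    intro x
    by_cases h3 : ‖x - c‖ ≤ 3 * l
    · rw [indicator_of_mem (by rwa [mem_closedBall, dist_eq_norm])]
      by_cases h2 : 2 * l ≤ ‖x - c‖
      · have h4 : ‖lineDeriv ℝ (treeChi c l) x (-e)‖ ≤ 1 / l := by
          have := norm_lineDeriv_le_of_lipschitz ℝ (v := -e) (x₀ := x) (treeChi_lip c hl)
          rwa [norm_neg, he, mul_one, Real.coe_toNNReal _ (by positivity)] at this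
        have h5 : |W x - m| ≤ D / l := by rw [le_div_iff₀ hl]; exact hD x h2 h3
        rw [norm_mul, Real.norm_eq_abs (W x - m)]
        calc _ ≤ 1 / l * (D / l) := by gcongr
          _ = D / l ^ 2 := by field_simp
      · have : treeChi c l =ᶠ[𝓝 x] fun _ => 1 := by
          have ho : IsOpen {y : ℂ | ‖y - c‖ < 2 * l} := isOpen_lt (by fun_prop) continuous_const
          filter_upwards [ho.mem_nhds (not_le.1 h2)] with y hy using treeChi_one hl (le_of_lt hy)
        rw [tree_lineDeriv_const this, zero_mul, norm_zero]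
        positivity
    · rw [indicator_of_notMem (by rwa [mem_closedBall, dist_eq_norm])]
      have : treeChi c l =ᶠ[𝓝 x] fun _ => 0 := by
        have ho : IsOpen {y : ℂ | 3 * l < ‖y - c‖} := isOpen_lt continuous_const (by fun_prop)
        filter_upwards [ho.mem_nhds (not_le.1 h3)] with y hy using treeChi_zero hl (le_of_lt hy)
      rw [tree_lineDeriv_const this, zero_mul, norm_zero]
  have hi : Integrable ((closedBall c (3 * l)).indicator (fun _ => D / l ^ 2)) :=
    (integrable_indicator_iff measurableSet_closedBall).2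
      (integrableOn_const (isCompact_closedBall c (3 * l)).measure_lt_top.ne)
  refine (le_abs_self _).trans ((norm_integral_le_of_norm_le hi (Eventually.of_forall hb)).trans ?_)
  rw [integral_indicator_const _ measurableSet_closedBall, Measure.real, Complex.volume_closedBall,
    ENNReal.toReal_mul, ENNReal.toReal_pow, ENNReal.toReal_ofReal (by positivity),
    ENNReal.coe_toReal, NNReal.coe_real_pi, smul_eq_mul]
  have : (3 * l) ^ 2 * Real.pi * (D / l ^ 2) = 9 * Real.pi * D := by field_simp; ring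
  rw [this]
  nlinarith [Real.pi_le_four]

lemma tree_integrable {φ : ℂ → ℝ} (hφ : Measurable φ) {A : ℝ} (hA : ∀ x, |φ x| ≤ A) (c : ℂ)
    {l : ℝ} (hl : 0 < l) : Integrable fun x => treeChi c l x * φ x :=
  ((treeChi_lip c hl).continuous.integrable_of_hasCompactSupport (treeChi_supp c hl)).mul_bdd
    hφ.aestronglyMeasurable (Eventually.of_forall hA)

/-- the gradient of an almost monotone function -/
lemma tree_grad {W : ℂ → ℝ} {L : ℝ≥0} (hW : LipschitzWith L W) (c : ℂ) {l : ℝ} (hl : 0 < l)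
    {e : ℂ} (he : ‖e‖ = 1) {m D : ℝ} (hD0 : 0 ≤ D)
    (hD : ∀ x, 2 * l ≤ ‖x - c‖ → ‖x - c‖ ≤ 3 * l → |W x - m| * l ≤ D) (Ψ : ℝ → ℂ → ℝ≥0∞)
    (hΨ : ∀ σ : ℝ, σ ^ 2 = 1 → ∀ x, ‖x - c‖ ≤ 3 * l → DifferentiableAt ℝ W x →
      ENNReal.ofReal (-fderiv ℝ W x (treeV e σ)) ≤ Ψ σ x) :
    ∫⁻ x in closedBall c (2 * l), ‖fderiv ℝ W x‖ₑ ≤
      432 * ENNReal.ofReal D + 12 * (∫⁻ x, Ψ 1 x) + 12 * ∫⁻ x, Ψ (-1) x := by
  have hL : ∀ x, ‖fderiv ℝ W x‖ ≤ L := fun x => norm_fderiv_le_of_lipschitz ℝ hW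
  have hLv : ∀ v : ℂ, ‖v‖ = 1 → ∀ x, |fderiv ℝ W x v| ≤ L := fun v hv x => by
    have := (fderiv ℝ W x).le_opNorm v
    rw [hv, mul_one] at this
    exact this.trans (hL x)
  have i0 : Integrable fun x => treeChi c l x * ‖fderiv ℝ W x‖ :=
    tree_integrable (measurable_fderiv ℝ W).norm (A := L) (fun x => by rw [abs_norm]; exact hL x) c hl
  have i1 : Integrable fun x => treeChi c l x * fderiv ℝ W x e :=
    tree_integrable (measurable_fderiv_apply_const ℝ W e) (hLv e he) c hl
  have i2 : ∀ σ : ℝ, σ ^ 2 = 1 →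
      Integrable fun x => treeChi c l x * max (-fderiv ℝ W x (treeV e σ)) 0 := fun σ hσ =>
    tree_integrable (φ := fun x => max (-fderiv ℝ W x (treeV e σ)) 0)
      ((measurable_fderiv_apply_const ℝ W _).neg.max measurable_const) (A := L)
      (fun x => by
        have := abs_le.1 (hLv _ (norm_treeV he hσ) x)
        rw [abs_of_nonneg (le_max_right _ _)]
        exact max_le (by linarith [this.1]) L.2) c hl
  have h2 : ∀ σ : ℝ, σ ^ 2 = 1 →
      ENNReal.ofReal (∫ x, treeChi c l x * max (-fderiv ℝ W x (treeV e σ)) 0) ≤ ∫⁻ x, Ψ σ x := by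
    intro σ hσ
    rw [ofReal_integral_eq_lintegral_ofReal (i2 σ hσ) (Eventually.of_forall fun x =>
      mul_nonneg (treeChi_nonneg _ _ _) (le_max_right _ _))]
    refine lintegral_mono fun x => ?_
    by_cases h3 : ‖x - c‖ ≤ 3 * l
    · by_cases h4 : DifferentiableAt ℝ W x
      · refine le_trans ?_ (hΨ σ hσ x h3 h4)
        refine (ENNReal.ofReal_le_ofReal
          (mul_le_of_le_one_left (le_max_right _ _) (treeChi_le_one _ _ _))).trans ?_
        rw [ENNReal.ofReal_max, ENNReal.ofReal_zero, max_eq_left zero_le]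
      · simp [fderiv_zero_of_not_differentiableAt h4]
    · simp [treeChi_zero hl (not_le.1 h3).le]
  have h1 : ∫⁻ x in closedBall c (2 * l), ‖fderiv ℝ W x‖ₑ ≤
      ENNReal.ofReal (∫ x, treeChi c l x * ‖fderiv ℝ W x‖) := by
    rw [ofReal_integral_eq_lintegral_ofReal i0 (Eventually.of_forall fun x =>
      mul_nonneg (treeChi_nonneg _ _ _) (norm_nonneg _)),
      ← lintegral_indicator measurableSet_closedBall]
    refine lintegral_mono fun x => ?_
    by_cases hx : x ∈ closedBall c (2 * l)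
    · rw [indicator_of_mem hx, treeChi_one hl (by rwa [mem_closedBall, dist_eq_norm] at hx),
        one_mul, ofReal_norm]
    · rw [indicator_of_notMem hx]; exact zero_le
  have h3 : ∫ x, treeChi c l x * ‖fderiv ℝ W x‖ ≤ 432 * D +
      12 * (∫ x, treeChi c l x * max (-fderiv ℝ W x (treeV e 1)) 0) +
      12 * ∫ x, treeChi c l x * max (-fderiv ℝ W x (treeV e (-1))) 0 := by
    have j1 := i2 1 (by norm_num)
    have j2 := i2 (-1) (by norm_num)
    calc ∫ x, treeChi c l x * ‖fderiv ℝ W x‖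
        ≤ ∫ x, (12 * (399 / 401) * (treeChi c l x * fderiv ℝ W x e) +
          12 * (treeChi c l x * max (-fderiv ℝ W x (treeV e 1)) 0) +
          12 * (treeChi c l x * max (-fderiv ℝ W x (treeV e (-1))) 0)) := by
          refine integral_mono i0 (((i1.const_mul _).add (j1.const_mul _)).add (j2.const_mul _))
            fun x => ?_
          have := mul_le_mul_of_nonneg_left (tree_pointwise (fderiv ℝ W x) he) (treeChi_nonneg c l x)
          simp only
          linarith
      _ = 12 * (399 / 401) * (∫ x, treeChi c l x * fderiv ℝ W x e) +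
          12 * (∫ x, treeChi c l x * max (-fderiv ℝ W x (treeV e 1)) 0) +
          12 * ∫ x, treeChi c l x * max (-fderiv ℝ W x (treeV e (-1))) 0 := by
          rw [integral_add (by exact (i1.const_mul _).add (j1.const_mul _)) (j2.const_mul _),
            integral_add (i1.const_mul _) (j1.const_mul _), integral_const_mul,
            integral_const_mul, integral_const_mul]
      _ ≤ _ := by
          have := tree_ibp hW c hl he hD0 hD
          linarith
  refine h1.trans ((ENNReal.ofReal_le_ofReal h3).trans ?_)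
  refine ENNReal.ofReal_add_le.trans (add_le_add (ENNReal.ofReal_add_le.trans (add_le_add ?_ ?_)) ?_)
  · rw [ENNReal.ofReal_mul (by norm_num), ENNReal.ofReal_ofNat]
  · rw [ENNReal.ofReal_mul (by norm_num), ENNReal.ofReal_ofNat]
    exact mul_le_mul_right (h2 1 (by norm_num)) _
  · rw [ENNReal.ofReal_mul (by norm_num), ENNReal.ofReal_ofNat]
    exact mul_le_mul_right (h2 (-1) (by norm_num)) _

end Crest.Agent.R112
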