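import Crest.Agent.R112.Tail
import Crest.Agent.R112.Levels2
import Crest.Agent.R112.TreeAux

/-! # Row 112: the estimate on a tree (task D) -/

open MeasureTheory Set Filter Topology Metric
open scoped ENNReal NNReal RealInnerProductSpace

namespace Crest.Agent.R112

/-- the cone function of a node -/
noncomputable def treeF (Q : ℕ × (ℤ × ℤ)) (x : ℂ) : ℝ :=
  7 / 25 * 4 ^ Q.1 + ‖x - corner (4 ^ Q.1) Q.2‖ / 2

/-- the stopping radius of a tree -/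
noncomputable def treeRho (gw : ℕ → ℤ × ℤ → Prop) (R : ℕ × (ℤ × ℤ)) (x : ℂ) : ℝ :=
  max 1 (⨅ Q : {Q // InTree gw R Q}, treeF Q.1 x)

section

variable {gw : ℕ → ℤ × ℤ → Prop} {R : ℕ × (ℤ × ℤ)}

lemma treeF_bdd (x : ℂ) : BddBelow (range fun Q : {Q // InTree gw R Q} => treeF Q.1 x) :=
  ⟨0, by rintro _ ⟨Q, rfl⟩; unfold treeF; positivity⟩

lemma treeRho_ge (x : ℂ) : 1 ≤ treeRho gw R x := le_max_left _ _

lemma treeRho_le {Q : ℕ × (ℤ × ℤ)} (hQ : InTree gw R Q) (x : ℂ) :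
    treeRho gw R x ≤ max 1 (treeF Q x) :=
  max_le_max le_rfl (ciInf_le (treeF_bdd x) ⟨Q, hQ⟩)

lemma treeRho_lip (hR : gw R.1 R.2) : LipschitzWith (1 / 2) (treeRho gw R) := by
  have : Nonempty {Q // InTree gw R Q} := ⟨⟨R, InTree.refl hR⟩⟩
  have h : LipschitzWith (1 / 2) (fun x => ⨅ Q : {Q // InTree gw R Q}, treeF Q.1 x) := by
    refine LipschitzWith.of_le_add_mul _ fun x y => ?_
    rw [← sub_le_iff_le_add]
    refine le_ciInf fun Q => ?_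
    have h1 := ciInf_le (treeF_bdd (gw := gw) (R := R) x) Q
    have h2 : ‖x - corner (4 ^ Q.1.1) Q.1.2‖ ≤ ‖y - corner (4 ^ Q.1.1) Q.1.2‖ + dist x y := by
      rw [dist_eq_norm]
      calc _ = ‖(y - corner (4 ^ Q.1.1) Q.1.2) + (x - y)‖ := by congr 1; ring
        _ ≤ _ := norm_add_le _ _
    unfold treeF at h1 ⊢
    push_cast
    linarith
  exact h.const_max 1

lemma tree_corner_anc (Q : ℕ × (ℤ × ℤ)) {j : ℕ} (h : Q.1 ≤ j) :
    ‖corner (4 ^ Q.1) Q.2 - corner (4 ^ j) (par^[j - Q.1] Q.2)‖ ≤ 71 / 50 * 4 ^ j := by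
  have h1 := cellOf_corner_anc Q.1 (j - Q.1) Q.2
  rw [Nat.add_sub_cancel' h] at h1
  rw [← h1]
  exact norm_sub_corner_le (by positivity) _

lemma treeRho_annulus (hR : gw R.1 R.2) {x : ℂ}
    (hx : 2 * 4 ^ R.1 ≤ ‖x - corner (4 ^ R.1) R.2‖) : 4 ^ R.1 / 4 ≤ treeRho gw R x := by
  have : Nonempty {Q // InTree gw R Q} := ⟨⟨R, InTree.refl hR⟩⟩
  refine le_trans (le_ciInf fun Q => ?_) (le_max_right _ _)
  have h1 := tree_corner_anc Q.1 Q.2.1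
  rw [Q.2.2.1] at h1
  have h2 : ‖x - corner (4 ^ R.1) R.2‖ ≤ ‖x - corner (4 ^ Q.1.1) Q.1.2‖ +
      ‖corner (4 ^ Q.1.1) Q.1.2 - corner (4 ^ R.1) R.2‖ := norm_sub_le_norm_sub_add_norm_sub _ _ _
  have h3 : (0 : ℝ) < 4 ^ Q.1.1 := by positivity
  have h4 : (0 : ℝ) < 4 ^ R.1 := by positivity
  unfold treeF
  linarith

lemma treeRho_lt (hR : gw R.1 R.2) {x : ℂ} (hx : ‖x - corner (4 ^ R.1) R.2‖ ≤ 3 * 4 ^ R.1) :
    treeRho gw R x < 4 * 4 ^ R.1 := by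
  have h4 : (1 : ℝ) ≤ 4 ^ R.1 := one_le_pow₀ (by norm_num)
  refine (treeRho_le (InTree.refl hR) x).trans_lt (max_lt (by linarith) ?_)
  unfold treeF
  linarith

/-- every admissible disc is comparable to a node of the tree -/
lemma tree_node (hR : gw R.1 R.2) {x : ℂ} {r : ℝ} (h1 : treeRho gw R x ≤ r)
    (h2 : r ≤ 4 * 4 ^ R.1) : ∃ Q, InTree gw R Q ∧ ‖x - corner (4 ^ Q.1) Q.2‖ ≤ 10 * 4 ^ Q.1 ∧
      4 ^ Q.1 / 4 ≤ r ∧ r ≤ 4 * 4 ^ Q.1 := by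
  have : Nonempty {Q // InTree gw R Q} := ⟨⟨R, InTree.refl hR⟩⟩
  have hr1 : 1 ≤ r := (treeRho_ge x).trans h1
  have hlt : (⨅ Q : {Q // InTree gw R Q}, treeF Q.1 x) < 101 / 100 * r :=
    ((le_max_right _ _).trans h1).trans_lt (by linarith)
  obtain ⟨⟨Q, hQ⟩, hQr⟩ := exists_lt_of_ciInf_lt hlt
  obtain ⟨k, hkK, hk1, hk2⟩ : ∃ k, k ≤ R.1 ∧ (4 : ℝ) ^ k ≤ r ∧ r ≤ 4 * 4 ^ k := by
    obtain ⟨k, hk1, hk2⟩ := exists_nat_pow_near hr1 (show (1 : ℝ) < 4 by norm_num)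
    rcases le_total k R.1 with h | h
    · exact ⟨k, h, hk1, by rw [pow_succ] at hk2; linarith⟩
    · exact ⟨R.1, le_rfl, (pow_le_pow_right₀ (by norm_num) h).trans hk1, h2⟩
  have hj1 : Q.1 ≤ max k Q.1 := le_max_right _ _
  have hj2 : max k Q.1 ≤ R.1 := max_le hkK hQ.1
  have hp : (4 : ℝ) ^ k ≤ 4 ^ max k Q.1 := pow_le_pow_right₀ (by norm_num) (le_max_left _ _)
  have h3 : (0 : ℝ) < 4 ^ Q.1 := by positivity
  have h4 := norm_nonneg (x - corner (4 ^ Q.1) Q.2)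
  simp only [treeF] at hQr
  refine ⟨_, hQ.anc hj1 hj2, ?_, ?_, ?_⟩
  · have h5 := tree_corner_anc Q hj1
    have h6 := norm_sub_le_norm_sub_add_norm_sub x (corner (4 ^ Q.1) Q.2)
      (corner (4 ^ max k Q.1) (par^[max k Q.1 - Q.1] Q.2))
    simp only
    linarith
  · simp only
    rcases le_total k Q.1 with h | h
    · rw [max_eq_right h]; linarith
    · rw [max_eq_left h]; linarith
  · simp only
    linarith

end

lemma tree_bad_le {g : ℂ → ℂ} {e d : ℂ} (he : ‖e‖ = 1) (hd : ‖d‖ = 1) (h : ‖d - e‖ ≤ 3 / 20)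
    (k : ℕ) (z : ℤ × ℤ) (b : ℕ) :
    ENNReal.ofReal (tt b) * ∫⁻ y in ball (corner (4 ^ k) z) (15 * 4 ^ k),
      ENNReal.ofReal (bad (cone e) (lev g (k - nn b) y)) ≤ 800 * Bud g k z d := by
  have hs : ball (corner (4 ^ k) z) (15 * 4 ^ k) ⊆ boxSet (4 ^ k) z 40 := by
    refine (ball_subset_ball ?_).trans (ball_subset_boxSet (by positivity) z 40)
    have : (0 : ℝ) < 4 ^ k := by positivity
    push_cast; linarith
  have h1 : ∫⁻ y in ball (corner (4 ^ k) z) (15 * 4 ^ k),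
      ENNReal.ofReal (bad (cone e) (lev g (k - nn b) y)) ≤
      800 * ∫⁻ y in boxSet (4 ^ k) z 40,
        ENNReal.ofReal (‖lev g (k - nn b) y‖ - ⟪d, lev g (k - nn b) y⟫) := by
    rw [← lintegral_const_mul' _ _ (by norm_num)]
    refine (lintegral_mono_set hs).trans (lintegral_mono fun y => ?_)
    refine (ENNReal.ofReal_le_ofReal (bad_cone_le he hd h _)).trans (le_of_eq ?_)
    rw [ENNReal.ofReal_mul (by norm_num), ENNReal.ofReal_ofNat]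
  refine (mul_le_mul_right h1 _).trans ?_
  rw [mul_left_comm]
  exact mul_le_mul_right (ENNReal.le_tsum (f := fun b => ENNReal.ofReal (tt b) *
    ∫⁻ y in boxSet (4 ^ k) z 40,
      ENNReal.ofReal (‖lev g (k - nn b) y‖ - ⟪d, lev g (k - nn b) y⟫)) b) _

lemma tree_mass_le (g : ℂ → ℂ) (k : ℕ) (z : ℤ × ℤ) (b : ℕ) :
    ENNReal.ofReal (tt b) * ∫⁻ y in ball (corner (4 ^ k) z) (15 * 4 ^ k),
      ‖lev g (k - nn b) y‖ₑ ≤ mhat g k z := by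
  have hs : ball (corner (4 ^ k) z) (15 * 4 ^ k) ⊆ boxSet (4 ^ k) z 16 := by
    refine (ball_subset_ball ?_).trans (ball_subset_boxSet (by positivity) z 16)
    have : (0 : ℝ) < 4 ^ k := by positivity
    push_cast; linarith
  refine (mul_le_mul_right (lintegral_mono_set hs) _).trans ?_
  exact ENNReal.le_tsum (f := fun b => ENNReal.ofReal (tt b) *
    ∫⁻ y in boxSet (4 ^ k) z 16, ‖lev g (k - nn b) y‖ₑ) b

open Classical in
theorem tree_est : ∃ C : ℝ≥0∞, C ≠ ⊤ ∧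
    ∀ (f : ℂ → ℝ) (g : ℂ → ℂ), IsGrad f g → Continuous g → GOK g →
    ∀ (n : ℕ) (d : ℕ → ℤ × ℤ → ℂ) (e : ℂ) (R : ℕ × (ℤ × ℤ)), (∀ k z, ‖d k z‖ = 1) → ‖e‖ = 1 →
      R.1 < n → GW g d e R.1 R.2 →
      ∃ W : ℂ → ℝ, (∃ L : ℝ≥0, LipschitzWith L W) ∧ (∀ x, W x ≤ Mx f 1 (4 ^ n) x) ∧
        (∀ Q, InTree (GW g d e) R Q → ∀ x, cellOf (4 ^ Q.1) x = Q.2 →
          ∀ r ∈ Icc ((4 : ℝ) ^ Q.1) (4 ^ (Q.1 + 1)), avg f x r ≤ W x) ∧
        ∫⁻ x in boxSet (4 ^ R.1) R.2 0, ‖fderiv ℝ W x‖ₑ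
          ≤ C * (mhat g R.1 R.2
            + ∑' Q : ℕ × (ℤ × ℤ), if InTree (GW g d e) R Q then Bud g Q.1 Q.2 (d Q.1 Q.2) else 0) := by
  obtain ⟨Ct, hCt, htail⟩ := tail_scaled
  obtain ⟨Co, hCo, hosc⟩ := osc_scaled
  refine ⟨432 * Co + 24 * (Ct * 800), by finiteness, ?_⟩
  intro f g hf hg hG n d e R hd he hRn hR
  obtain ⟨M, hM⟩ := hG.2.1
  have hM0 : 0 ≤ M := (norm_nonneg _).trans (hM 0)
  have hfl : LipschitzWith ⟨M, hM0⟩ f := hf.lipschitz (M := ⟨M, hM0⟩) hM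
  have hfc := hfl.continuous
  set ρ := treeRho (GW g d e) R with hρ
  have hρl : LipschitzWith (1 / 2) ρ := treeRho_lip hR
  have hl1 : (1 : ℝ) ≤ 4 ^ R.1 := one_le_pow₀ (by norm_num)
  have hl : (0 : ℝ) < 4 ^ R.1 := by positivity
  set W := Wv f ρ (4 * 4 ^ R.1) with hW
  have hWl : LipschitzWith (2 * ⟨M, hM0⟩) W := Wv_lip hfl (hρl.weaken (by norm_num)) _
  refine ⟨W, ⟨_, hWl⟩, fun x => ?_, fun Q hQ x hx r hr => ?_, ?_⟩
  · obtain ⟨r, hr, hWr⟩ := Wv_attained hfc ρ (4 * 4 ^ R.1) x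
    rw [hW, hWr, Mx_eq_Wv f (one_le_pow₀ (by norm_num))]
    refine le_Wv hfc _ _ x (le_trans (le_min (treeRho_ge x) (by linarith)) hr.1) (hr.2.trans ?_)
    rw [← pow_succ']
    exact pow_le_pow_right₀ (by norm_num) hRn
  · have h1 : (1 : ℝ) ≤ 4 ^ Q.1 := one_le_pow₀ (by norm_num)
    refine le_Wv hfc _ _ x (((treeRho_le hQ x).trans (max_le h1 ?_)).trans hr.1) (hr.2.trans ?_)
    · have := norm_sub_corner_le (s := 4 ^ Q.1) (by positivity) x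
      rw [hx] at this
      unfold treeF
      linarith
    · rw [← pow_succ']
      exact pow_le_pow_right₀ (by norm_num) (Nat.succ_le_succ hQ.1)
  set c := corner (4 ^ R.1) R.2 with hc
  have hsub : boxSet (4 ^ R.1) R.2 0 ⊆ closedBall c (2 * 4 ^ R.1) := by
    intro x hx
    have h1 : cellOf (4 ^ R.1) x = R.2 := by
      have : cellOf (4 ^ R.1) x ∈ box R.2 0 := hx
      rwa [box_zero] at this
    have := norm_sub_corner_le hl x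
    rw [h1] at this
    rw [mem_closedBall, dist_eq_norm]
    linarith
  have hmfin : mhat g R.1 R.2 ≠ ⊤ := ne_top_of_le_ne_top hG.2.2.2.ne (mhat_le hG _ _)
  have hDfin : Co * mhat g R.1 R.2 ≠ ⊤ := ENNReal.mul_ne_top hCo hmfin
  have hD : ∀ x, 2 * 4 ^ R.1 ≤ ‖x - c‖ → ‖x - c‖ ≤ 3 * 4 ^ R.1 →
      |W x - avg f c (4 ^ R.1)| * 4 ^ R.1 ≤ (Co * mhat g R.1 R.2).toReal := by
    intro x h2 h3
    obtain ⟨r, hr, hWr⟩ := Wv_attained hfc ρ (4 * 4 ^ R.1) x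
    rw [hW, hWr, ← ENNReal.ofReal_le_iff_le_toReal hDfin]
    exact hosc f g (fun b => lev g (R.1 - nn b)) M R.1 c _ _ hf hg
      (fun b => lev_measurable hG.1 _) (fun b y => lev_bound hM _ y)
      (fun b hb => lev_node_eq g hb) hl (fun b => lev_node_sm hG _ b)
      (fun b => tree_mass_le g _ _ b) x r h3
      (le_trans (le_min (treeRho_annulus hR h2) (by linarith)) hr.1) hr.2
  have H : ∀ (σ : ℝ) (Q : ℕ × (ℤ × ℤ)), ∃ Ψ : ℂ → ℝ≥0∞, Measurable Ψ ∧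
      ∫⁻ x, Ψ x ≤ Ct * 800 * (if InTree (GW g d e) R Q then Bud g Q.1 Q.2 (d Q.1 Q.2) else 0) ∧
      (σ ^ 2 = 1 → InTree (GW g d e) R Q → ∀ (x : ℂ) (r : ℝ),
        ‖x - corner (4 ^ Q.1) Q.2‖ ≤ 10 * 4 ^ Q.1 → 4 ^ Q.1 / 4 ≤ r → r ≤ 4 * 4 ^ Q.1 → ρ x ≤ r →
        r ≤ 4 * 4 ^ R.1 → ρ x < 4 * 4 ^ R.1 → W x = avg f x r → DifferentiableAt ℝ W x →
        ENNReal.ofReal (-fderiv ℝ W x (treeV e σ)) ≤ Ψ x) := by
    intro σ Q
    by_cases hσ : σ ^ 2 = 1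
    swap
    · exact ⟨0, measurable_zero, by simp, fun h => absurd h hσ⟩
    by_cases hQ : InTree (GW g d e) R Q
    swap
    · exact ⟨0, measurable_zero, by simp, fun _ h => absurd h hQ⟩
    obtain ⟨Ψ, h1, h2, h3⟩ := htail f g (fun b => lev g (Q.1 - nn b)) M Q.1
      (corner (4 ^ Q.1) Q.2) (4 ^ Q.1) (cone e) e (treeV e σ) (800 * Bud g Q.1 Q.2 (d Q.1 Q.2)) ρ
      (4 * 4 ^ R.1) hf hg (fun b => lev_measurable hG.1 _) (fun b y => lev_bound hM _ y)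
      (fun b hb => lev_node_eq g hb) (by positivity) (fun b => lev_node_sm hG _ b)
      (measurableSet_cone e) subset_rfl he (norm_treeV he hσ) (norm_treeV_sub he hσ)
      (fun b => tree_bad_le he (hd _ _) hQ.gw_self.2 _ _ b) hρl
    refine ⟨Ψ, h1, by rwa [if_pos hQ, mul_assoc], fun _ _ x r a1 a2 a3 a4 a5 a6 a7 a8 => ?_⟩
    exact h3 W x r a1 a2 a3 a4 a5 a6 a7 (fun x' s b1 b2 => le_Wv hfc _ _ x' b1 b2) a8
  choose Ψ hΨm hΨi hΨ using H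
  have hsum : ∀ σ, ∫⁻ x, ∑' Q, Ψ σ Q x ≤ Ct * 800 *
      ∑' Q : ℕ × (ℤ × ℤ), if InTree (GW g d e) R Q then Bud g Q.1 Q.2 (d Q.1 Q.2) else 0 := by
    intro σ
    rw [lintegral_tsum (fun Q => (hΨm σ Q).aemeasurable), ← ENNReal.tsum_mul_left]
    exact ENNReal.tsum_le_tsum (hΨi σ)
  have key := tree_grad hWl c hl he ENNReal.toReal_nonneg hD (fun σ x => ∑' Q, Ψ σ Q x) (by
    intro σ hσ x hx hdiff
    have h1 : ρ x < 4 * 4 ^ R.1 := treeRho_lt hR hx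
    obtain ⟨r, hr, hWr⟩ := Wv_attained hfc ρ (4 * 4 ^ R.1) x
    rw [min_eq_left h1.le] at hr
    obtain ⟨Q, hQ, a1, a2, a3⟩ := tree_node hR hr.1 hr.2
    exact (hΨ σ Q hσ hQ x r a1 a2 a3 hr.1 hr.2 h1 hWr hdiff).trans
      (ENNReal.le_tsum (f := fun Q => Ψ σ Q x) Q))
  rw [ENNReal.ofReal_toReal hDfin] at key
  refine (lintegral_mono_set hsub).trans (key.trans ?_)
  set S := ∑' Q : ℕ × (ℤ × ℤ), if InTree (GW g d e) R Q then Bud g Q.1 Q.2 (d Q.1 Q.2) else 0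
  calc 432 * (Co * mhat g R.1 R.2) + 12 * (∫⁻ x, ∑' Q, Ψ 1 Q x) + 12 * ∫⁻ x, ∑' Q, Ψ (-1) Q x
      ≤ 432 * (Co * mhat g R.1 R.2) + 12 * (Ct * 800 * S) + 12 * (Ct * 800 * S) := by
        gcongr
        · exact hsum 1
        · exact hsum (-1)
    _ = 432 * Co * mhat g R.1 R.2 + 24 * (Ct * 800) * S := by ring
    _ ≤ _ := by
        rw [mul_add]
        gcongr
        · exact le_self_add
        · exact le_add_self

end Crest.Agent.R112
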